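import Vale.Agent.P159.H270.Ed2d
import Vale.Agent.P159.H883.Twr4

/-!
P159 (helper270), EXP-D: exponential moments of the increments of the torus with a dislocation,
relative to the plain partition function, with the wired correlation of its charges in front
(`expD`), and without it for every dislocation (`expD0`).
-/

open MeasureTheory Filter Topology
open scoped BigOperators

set_option linter.all false

namespace Vale.Agent.P159.H270

open Vale.Agent.P159 Vale.Agent.P159.T1.H42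
open Vale.Agent.P159.TM.H331 (St bs bt)
open Vale.Agent.P159.H353 (wI gS)
open Vale.Agent.P159.H773 (WF WF_fer off cv curl eP)
open Vale.Agent.P159.H529.Qf (chq bxq eP_EQ)
open Vale.Agent.P159.TM.H389
open Vale.Agent.P159.TM.H77 (FS Dom dom_wI)

section tor

open Vale.Agent.P159.H770 (Ed eS eT wTD)
open Vale.Agent.P159.TM.SpecC (Tor wT)
open Vale.Agent.P159.H963 (pin)
open Vale.Agent.P159.H883 (Zp)

/-- general edge factors, with a dislocation -/
noncomputable def wG (N : ℕ) [NeZero N] (g : Ed N → ℤ → ℝ) (η : Ed N → ℤ) (h : Tor N → ℤ) : ℝ :=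
  ∏ e : Ed N, g e (h (eT N e) - h (eS N e) + η e)

variable {M : ℕ} {b : ℝ}

lemma wG_fin (g : Ed (M + 2) → ℤ → ℝ) (η : Ed (M + 2) → ℤ) (h : Tor (M + 2) → ℤ) :
    wG (M + 2) g η h = ∏ e : EF M, g e (incF (M := M) η h e) := by
  unfold wG
  refine Finset.prod_congr rfl fun e _ => ?_
  obtain ⟨x, k⟩ := e
  cases k with
  | false => rfl
  | true => rfl

lemma wT_fin (h : Tor (M + 2) → ℤ) :
    wT b (M + 2) h = ∏ e : EF M, wI b (incF (M := M) 0 h e) := by
  rw [← H770.wTD_zero]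
  exact wG_fin (fun _ => wI b) 0 h

lemma pin_ind {V : Type} [Fintype V] [DecidableEq V] (w : (V → ℤ) → ℝ) (x₀ : V) :
    pin w x₀ = Set.indicator {h : V → ℤ | h x₀ = 0} w := by
  funext h
  by_cases h0 : h x₀ = 0
  · rw [H963.pin_of_zero h0, Set.indicator_of_mem (show h ∈ {h : V → ℤ | h x₀ = 0} from h0)]
  · rw [H963.pin_of_ne h0, Set.indicator_of_notMem (show h ∉ {h : V → ℤ | h x₀ = 0} from h0)]

/-- **domination by the wired correlation of the charges of the dislocation** -/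
theorem dom_tor (hb : 0 ≤ b) {Λ : Finset (ℤ × ℤ)} (hΛ : Λ ⊆ inner (M + 1))
    (η : Ed (M + 2) → ℤ) {g : Ed (M + 2) → ℤ → ℝ} {K : Ed (M + 2) → ℝ}
    (hg : ∀ e, Dom (K e) (g e) (wI b)) (hj : ∀ e : Ed (M + 2), Tch (M := M) Λ e → g e = wI b)
    (x₀ : Tor (M + 2)) :
    Summable (pin (wG (M + 2) g η) x₀) ∧
    |∑' h, pin (wG (M + 2) g η) x₀ h| ≤
      eP (WF M b) (off M Λ) (fun θ => cosT (chq (curl (M := M) η) θ)) * (∏ e, K e) *
        Zp (wT b (M + 2)) x₀ := by
  have h := dom_fin (M := M) hb hΛ η (g := g) (K := K) hg hj x₀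
  have e1 : ∀ h : Tor (M + 2) → ℤ, (∏ e : EF M, g e (incF (M := M) η h e)) =
      wG (M + 2) g η h := fun h => (wG_fin g η h).symm
  have e2 : ∀ h : Tor (M + 2) → ℤ, (∏ e : EF M, wI b (incF (M := M) 0 h e)) =
      wT b (M + 2) h := fun h => (wT_fin h).symm
  have h1 : Summable fun h : {h : Tor (M + 2) → ℤ // h x₀ = 0} => wG (M + 2) g η h.1 := by
    exact h.1.congr fun k => e1 k.1
  refine ⟨?_, ?_⟩
  · rw [pin_ind]
    exact summable_subtype_iff_indicator.1 h1
  · have h2 := h.2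
    have e3 : (∑' h, pin (wG (M + 2) g η) x₀ h) =
        ∑' h : {h : Tor (M + 2) → ℤ // h x₀ = 0}, wG (M + 2) g η h.1 :=
      H883.Zp_eq (wG (M + 2) g η) x₀
    rw [e3, H883.Zp_eq (wT b (M + 2)) x₀]
    refine le_trans (le_of_eq ?_) (h2.trans (le_of_eq ?_))
    · congr 1
      exact tsum_congr fun k => (e1 k.1).symm
    · congr 1
      exact tsum_congr fun k => e2 k.1

/-- tilted Bessel weights -/
lemma wG_tilt (j : Ed (M + 2) → ℝ) (η : Ed (M + 2) → ℤ) (h : Tor (M + 2) → ℤ) :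
    wG (M + 2) (fun e n => wI b n * Real.exp (j e * n)) η h =
      wTD (M + 2) b η h * Real.exp (∑ e : Ed (M + 2), j e *
        ((h (eT (M + 2) e) - h (eS (M + 2) e) + η e : ℤ) : ℝ)) := by
  unfold wG
  rw [Finset.prod_mul_distrib, Real.exp_sum]
  rfl

lemma pin_mul (w : (Tor (M + 2) → ℤ) → ℝ) (F : (Tor (M + 2) → ℤ) → ℝ) (x₀ : Tor (M + 2)) :
    (fun h => pin w x₀ h * F h) = pin (fun h => w h * F h) x₀ := by
  funext h
  by_cases h0 : h x₀ = 0
  · rw [H963.pin_of_zero h0, H963.pin_of_zero h0]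
  · rw [H963.pin_of_ne h0, H963.pin_of_ne h0, zero_mul]

/-- **exponential moments, with the wired correlation in front** (charges on the box) -/
theorem expG (hb : 0 ≤ b) {Λ : Finset (ℤ × ℤ)} (hΛ : Λ ⊆ inner (M + 1))
    (η : Ed (M + 2) → ℤ) (x₀ : Tor (M + 2)) (j : Ed (M + 2) → ℝ)
    (hj : ∀ e : Ed (M + 2), Tch (M := M) Λ e → j e = 0) :
    Summable (fun h => pin (wTD (M + 2) b η) x₀ h * Real.exp (∑ e : Ed (M + 2), j e *
        ((h (eT (M + 2) e) - h (eS (M + 2) e) + η e : ℤ) : ℝ))) ∧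
    ∑' h, pin (wTD (M + 2) b η) x₀ h * Real.exp (∑ e : Ed (M + 2), j e *
        ((h (eT (M + 2) e) - h (eS (M + 2) e) + η e : ℤ) : ℝ)) ≤
      eP (WF M b) (off M Λ) (fun θ => cosT (chq (curl (M := M) η) θ)) *
        Real.exp (b * ∑ e : Ed (M + 2), (Real.cosh (j e) - 1)) * Zp (wT b (M + 2)) x₀ := by
  have h := dom_tor (M := M) hb hΛ η (g := fun e n => wI b n * Real.exp (j e * n))
    (K := fun e => Real.exp (b * (Real.cosh (j e) - 1))) (fun e => dom_wI hb (j e))
    (fun e he => by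
      funext n
      rw [hj e he, zero_mul, Real.exp_zero, mul_one]) x₀
  have e1 : pin (wG (M + 2) (fun e n => wI b n * Real.exp (j e * n)) η) x₀ =
      fun h => pin (wTD (M + 2) b η) x₀ h * Real.exp (∑ e : Ed (M + 2), j e *
        ((h (eT (M + 2) e) - h (eS (M + 2) e) + η e : ℤ) : ℝ)) := by
    rw [pin_mul]
    congr 1
    funext h
    exact wG_tilt j η h
  rw [e1] at h
  refine ⟨h.1, (le_abs_self _).trans (h.2.trans (le_of_eq ?_))⟩
  rw [← Real.exp_sum, Finset.mul_sum]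

/-- **EXP-D** -/
theorem expD (hb : 0 ≤ b) {Λ : Finset (ℤ × ℤ)} (hΛ : Λ ⊆ inner (M + 1)) {q : ℤ × ℤ → ℤ}
    {η : Ed (M + 2) → ℤ} (hη : ∀ v, curl (M := M) η v = bxq M q v) (x₀ : Tor (M + 2))
    (j : Ed (M + 2) → ℝ) (hj : ∀ e : Ed (M + 2), Tch (M := M) Λ e → j e = 0) :
    Summable (fun h => pin (wTD (M + 2) b η) x₀ h * Real.exp (∑ e : Ed (M + 2), j e *
        ((h (eT (M + 2) e) - h (eS (M + 2) e) + η e : ℤ) : ℝ))) ∧
    ∑' h, pin (wTD (M + 2) b η) x₀ h * Real.exp (∑ e : Ed (M + 2), j e *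
        ((h (eT (M + 2) e) - h (eS (M + 2) e) + η e : ℤ) : ℝ)) ≤
      H529.Qf.EQ b Λ q *
        Real.exp (b * ∑ e : Ed (M + 2), (Real.cosh (j e) - 1)) * Zp (wT b (M + 2)) x₀ := by
  have h := expG hb hΛ η x₀ j hj
  have e : curl (M := M) η = bxq M q := funext hη
  rw [e, eP_EQ hΛ q] at h
  exact h

/-- exponential moments for every dislocation, without its correlation -/
theorem expD0 (hb : 0 ≤ b) (η : Ed (M + 2) → ℤ) (x₀ : Tor (M + 2)) (j : Ed (M + 2) → ℝ) :
    Summable (fun h => pin (wTD (M + 2) b η) x₀ h * Real.exp (∑ e : Ed (M + 2), j e *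
        ((h (eT (M + 2) e) - h (eS (M + 2) e) + η e : ℤ) : ℝ))) ∧
    ∑' h, pin (wTD (M + 2) b η) x₀ h * Real.exp (∑ e : Ed (M + 2), j e *
        ((h (eT (M + 2) e) - h (eS (M + 2) e) + η e : ℤ) : ℝ)) ≤
      Real.exp (b * ∑ e : Ed (M + 2), (Real.cosh (j e) - 1)) * Zp (wT b (M + 2)) x₀ := by
  have h := expG (M := M) hb (Λ := ∅) (Finset.empty_subset _) η x₀ j
    (fun e he => by
      rcases he with he | he <;> exact absurd he (Finset.notMem_empty _))
  have e : eP (WF M b) (off M ∅) (fun θ => cosT (chq (curl (M := M) η) θ)) = 1 := by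
    have h0 : off M ∅ = Set.univ := by
      ext v
      unfold off
      simp
    rw [h0]
    unfold eP
    have h1 : ∀ θ : St M → T, TM.H389.pin Set.univ 0 θ = 0 := fun θ => by
      funext v
      exact TM.H389.pin_mem (Set.mem_univ v)
    simp only [h1]
    have h2 : cosT (chq (curl (M := M) η) (0 : St M → T)) = 1 := by
      have : chq (curl (M := M) η) (0 : St M → T) = 0 := by
        unfold chq
        simp
      rw [this, cosT_zero]
    rw [h2, mul_one]
    exact div_self (by simpa using ((WF_fer hb).pos 0).ne')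
  rw [e, one_mul] at h
  exact h

end tor

end Vale.Agent.P159.H270
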