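import Vale.Agent.P159.H270.Ed3
import Vale.Agent.P159.H270.Ed2e
import Vale.Agent.P159.H340.Ed3d
import Vale.Agent.P159.H552.Tl5

/-!
P159 (helper270), Ed3: probability under `Psi nu / C` that `R(s F)` is large, torus letters.
-/

set_option linter.unusedSectionVars false

namespace Vale.Agent.P159.H270

open Finset Matrix MeasureTheory
open Vale.Agent.P159.TM.Spec (V)
open Vale.Agent.P159.TM.SpecC (wT)
open Vale.Agent.P159.H37 (re gau Rs)
open Vale.Agent.P159.H963 (pin MF GW nwt ntr)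
open Vale.Agent.P159.H883 (BW CI XG Zp Psi Enu nuM mf_one nuM_ci)
open Vale.Agent.P159.H770 (Ed eS eT wTD)
open Vale.Agent.P159.H817 (gr bD CG nrm)
open Vale.Agent.P159.H276 (bxT ExpD cav)
open Vale.Agent.P159.H340 (ExpB)
open Vale.Agent.P159.H552.Sm (R1 R1_ci R1_cont)

noncomputable section

variable {N : ℕ} [NeZero N] {b t : ℝ}

/-- the remainder functional of the torus -/
def RT (N : ℕ) [NeZero N] (b t : ℝ) (x₀ : V N) (F : V N → ℝ) : ℝ :=
  Rs (nwt N b t x₀) (ntr (t • (1 : Matrix (V N) (V N) ℝ)) t *ᵥ F)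

lemma RT_R1 (b t : ℝ) (x₀ : V N) :
    RT N b t x₀ = R1 (wT b N) (t • (1 : Matrix (V N) (V N) ℝ)) t x₀ := rfl

lemma RT_cont (hb : 0 < b) (ht : 0 < t) (x₀ : V N) : Continuous (RT N b t x₀) := by
  rw [RT_R1]
  exact R1_cont (H963.gw_wT hb.le) (H963.mf_smul ht) x₀

lemma RT_ci (ht : 0 < t) (x₀ : V N) : CI (RT N b t x₀) := by
  rw [RT_R1]
  exact R1_ci (H963.mf_smul ht) x₀

lemma RT_convex (hb : 0 < b) (ht : 0 < t) (x₀ : V N) : ConvexOn ℝ Set.univ (RT N b t x₀) := by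
  have hD := H770.disF_nwtD (N := N) hb ht x₀
  have h := H770.RsD_convex hD 0 0
  refine ⟨convex_univ, fun x _ y _ p q hp hq hpq => ?_⟩
  have h1 := h.2 (Set.mem_univ (ntr (t • (1 : Matrix (V N) (V N) ℝ)) t *ᵥ x))
    (Set.mem_univ (ntr (t • (1 : Matrix (V N) (V N) ℝ)) t *ᵥ y)) hp hq hpq
  rw [H770.RsD_zero hD, H770.RsD_zero hD, H770.RsD_zero hD, H770.nwtD_zero] at h1
  unfold RT
  rw [Matrix.mulVec_add, Matrix.mulVec_smul, Matrix.mulVec_smul]
  exact h1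

/-- **Q(bad)**: under the law of the dislocated model `R(s F)` is at most `ρ`, up to the noise
(twice the probability under the plain law at `3 s`), the rough part and the smooth part -/
theorem qbad {R k0 : ℕ} (hR : N = 2 ^ R) (hk : k0 ≤ R) (hb : 0 < b) (ht : 0 < t)
    {η : Ed N → ℤ} {f : V N → ℝ} {p q : V N} (hf : ∀ e, (η e : ℝ) + gr f e = bD p q e) (x₀ : V N)
    {Bad : Finset (Ed N)} {K K0 : ℝ} (hX : ExpB N b η x₀ Bad K) (hX0 : ExpD N b η x₀ K0)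
    (hK : 0 ≤ K) (hK0 : 0 ≤ K0) {A D ρ s : ℝ}
    (hD : nrm (fun e => (η e : ℝ) + gr f e) ≤ D) (hs : 0 ≤ s)
    (h1 : 3 * s * t * (5 * (((2 ^ k0 : ℕ) : ℝ) * A)) ≤ 1)
    (hρ : (b + 6 * max b 1 ^ 2) * (2 * (N * (3 * s * t * (5 * (((2 ^ k0 : ℕ) : ℝ) * A)))) ^ 2) ≤ ρ)
    {l l' u v B : ℝ} (hl : 0 ≤ l) (hl' : 0 ≤ l') (hl1 : l ≤ 2 ^ k0) (hl2 : l' ≤ 2 ^ k0)
    (hB : 3 * s * (((R : ℝ) - k0) * (u + v + (1 + 36 * CG))) ≤ B)
    (hreg : ∀ (F : V N → ℝ) (c : ℝ), (∀ x, |F x - c| ≤ B) → (∀ e, |gr F e| ≤ 2 * B / 2 ^ k0) →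
      RT N b t x₀ F ≤ ρ) :
    ∫ F in {F | ρ < RT N b t x₀ (s • F)}, Psi (wT b N) (wTD N b η)
        (t • (1 : Matrix (V N) (V N) ℝ)) f F ∂(nuM (wT b N) (t • (1 : Matrix (V N) (V N) ℝ)) x₀) ≤
      (2 * (nuM (wT b N) (t • (1 : Matrix (V N) (V N) ℝ)) x₀).real
          {F | ρ < RT N b t x₀ ((3 * s) • F)} +
        2 * (N : ℝ) ^ 2 * (K0 * Real.exp ((3 * b / 4 + 3 / 8) * (R : ℝ) ^ 2 + D / 2 - A / 2)) +
        6 * 4 ^ (R - k0) * (K * Real.exp (b * l ^ 2 - l * u) +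
          K0 * Real.exp (b * (l' ^ 2 * (Bad.card / 4 ^ k0)) - l' * v))) *
      (Zp (wTD N b η) x₀ / Zp (wT b N) x₀) := by
  have hw := H883.bw_wT (N := N) hb
  have hD' := H883.bw_wTD (N := N) hb η
  have hG := H963.gw_wT (N := N) hb.le
  have h3s : 0 ≤ 3 * s := by linarith
  have hd : 2 ^ k0 ∣ N := by
    rw [hR]
    exact pow_dvd_pow 2 hk
  have hA := H276.rough_tail2 hR hb ht f hX0 hK0 (A := A) hD (q := 2 ^ k0) Nat.one_le_two_pow hd
    h3s h1 hρ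
  have hS := H340.smooth_tail_cav hR hk hb hf hX hX0 hK hK0 (u := u) (v := v) hl hl' hl1 hl2
    h3s hB
  refine union_le ht hG hw hD' x₀ f (RT_cont hb ht x₀) (RT_ci ht x₀) (RT_convex hb ht x₀) s ρ
    (fun h => (fun x => (h x : ℝ) - f x) - bxT N (2 ^ k0) (cav N (2 ^ k0) fun x => (h x : ℝ) - f x))
    (fun h => bxT N (2 ^ k0) (cav N (2 ^ k0) fun x => (h x : ℝ) - f x)) ?_ ?_ ?_
  · intro h
    funext x
    simp only [Pi.add_apply, Pi.sub_apply, H37.re]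
    ring
  · exact hA
  · refine le_trans (Summable.tsum_le_tsum (fun h => ?_) ?_ ?_) hS
    · refine Set.indicator_le_indicator_of_subset ?_ (fun h =>
        H963.pin_nonneg (fun h => (H770.wTD_pos hb η h).le) x₀ h) h
      intro h hh
      rw [Set.mem_ofPred_eq] at hh ⊢
      rintro ⟨c, hc1, hc2⟩
      exact absurd (hreg _ c hc1 hc2) (not_le.2 hh)
    · have := (hD'.em0 x₀).sum 0
      have h2 : Summable (pin (wTD N b η) x₀) := by simpa using this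
      exact h2.indicator _
    · have := (hD'.em0 x₀).sum 0
      have h2 : Summable (pin (wTD N b η) x₀) := by simpa using this
      exact h2.indicator _

end

end Vale.Agent.P159.H270
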