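import Vale.Agent.P159.H270.Ed4e
import Vale.Agent.P159.H270.Ed3t
import Vale.Agent.P159.H856.Dl8
import Vale.Agent.P159.H513.Rg3

/-!
P159 (helper270), Ed4: `Q(bad)` at a level of the flow: under the law `Psi nu / C` of a far pair
`R(s F)` exceeds `ρ` with probability at most `2 nu(R(3 s F) > ρ) + exp (-n^(1/16))`.
-/

set_option linter.unusedSectionVars false

open Filter Topology MeasureTheory

namespace Vale.Agent.P159.H270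

open Vale.Agent.P159 (stiff)
open Vale.Agent.P159.TM.Spec (V)
open Vale.Agent.P159.TM.SpecC (wT Tor)
open Vale.Agent.P159.H773 (mm)
open Vale.Agent.P159.H883 (Zp Psi nuM CT)
open Vale.Agent.P159.H770 (Ed wTD)
open Vale.Agent.P159.H817 (gr bD CG nrm)
open Vale.Agent.P159.H276 (ExpD cEs es_num)
open Vale.Agent.P159.H340 (ExpB)
open Vale.Agent.P159.H253.Rec (ua)
open Vale.Agent.P159.H972 (Par tn)
open Vale.Agent.P159.H801 (SFlow)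
open Vale.Agent.P159.H513 (cuZ LkS)

noncomputable section

section gen

variable {N : ℕ} [NeZero N] {b : ℝ} {p q : V N} {d : ℤ × ℤ} {L : ℕ} {η : Ed N → ℤ}

/-- the end point is determined by the flux (37's `path_end`) -/
lemma pathEnd {v1 v2 : ℤ} (h : H817.IsPath p q v1 v2 L η) :
    q = p + ((v1 : ZMod N), (v2 : ZMod N)) := by
  have hcu : ∀ x : V N, cuZ η x = (if x = p then 1 else 0) - if x = q then 1 else 0 := by
    intro x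
    have h1 := h.cu x
    have h2 : ((cuZ η x : ℤ) : ℝ) =
        (((if x = p then 1 else 0) - (if x = q then 1 else 0) : ℤ) : ℝ) := by
      unfold cuZ
      push_cast
      exact h1
    exact_mod_cast h2
  have hver : ∑ x : V N, η (x, true) = v1 := by
    have h1 := h.ver
    exact_mod_cast h1
  have hhor : ∑ x : V N, η (x, false) = -v2 := by
    have h1 := h.hor
    exact_mod_cast h1
  have hs1 : ∀ f : V N → ZMod N, ∑ x : V N, f (x + (1, 0)) = ∑ x : V N, f x := fun f =>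
    Equiv.sum_comp (Equiv.addRight ((1, 0) : V N)) f
  have hs2 : ∀ f : V N → ZMod N, ∑ x : V N, f (x + (0, 1)) = ∑ x : V N, f x := fun f =>
    Equiv.sum_comp (Equiv.addRight ((0, 1) : V N)) f
  have k1 : ∑ x : V N, ((η (x, true) : ℤ) : ZMod N) = (v1 : ZMod N) := by
    rw [← hver]; push_cast; rfl
  have k2 : ∑ x : V N, ((η (x, false) : ℤ) : ZMod N) = -(v2 : ZMod N) := by
    have h3 : ((∑ x : V N, η (x, false) : ℤ) : ZMod N) = ((-v2 : ℤ) : ZMod N) := by rw [hhor]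
    push_cast at h3
    exact h3
  have c1 : ∑ x : V N, x.1 * ((cuZ η x : ℤ) : ZMod N) = p.1 - q.1 := by
    simp only [hcu]
    push_cast
    simp only [mul_sub, Finset.sum_sub_distrib, mul_ite, mul_one, mul_zero, Finset.sum_ite_eq',
      Finset.mem_univ, if_true]
  have c2 : ∑ x : V N, x.2 * ((cuZ η x : ℤ) : ZMod N) = p.2 - q.2 := by
    simp only [hcu]
    push_cast
    simp only [mul_sub, Finset.sum_sub_distrib, mul_ite, mul_one, mul_zero, Finset.sum_ite_eq',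
      Finset.mem_univ, if_true]
  have d1 : ∑ x : V N, x.1 * ((cuZ η x : ℤ) : ZMod N) = -∑ x : V N, ((η (x, true) : ℤ) : ZMod N) := by
    have a1 := hs1 fun y => (y.1 - 1) * ((η (y, true) : ℤ) : ZMod N)
    have a2 := hs2 fun y => y.1 * ((η (y, false) : ℤ) : ZMod N)
    simp only [Prod.fst_add, add_sub_cancel_right, add_zero] at a1 a2
    have e : ∀ x : V N, x.1 * ((cuZ η x : ℤ) : ZMod N) =
        x.1 * ((η (x, false) : ℤ) : ZMod N) + x.1 * ((η (x + (1, 0), true) : ℤ) : ZMod N) -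
        x.1 * ((η (x + (0, 1), false) : ℤ) : ZMod N) - x.1 * ((η (x, true) : ℤ) : ZMod N) := by
      intro x
      unfold cuZ
      push_cast
      ring
    simp only [e, Finset.sum_add_distrib, Finset.sum_sub_distrib]
    rw [a1, a2]
    simp only [sub_mul, one_mul, Finset.sum_sub_distrib]
    ring
  have d2 : ∑ x : V N, x.2 * ((cuZ η x : ℤ) : ZMod N) = ∑ x : V N, ((η (x, false) : ℤ) : ZMod N) := by
    have a1 := hs1 fun y => y.2 * ((η (y, true) : ℤ) : ZMod N)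
    have a2 := hs2 fun y => (y.2 - 1) * ((η (y, false) : ℤ) : ZMod N)
    simp only [Prod.snd_add, add_sub_cancel_right, add_zero] at a1 a2
    have e : ∀ x : V N, x.2 * ((cuZ η x : ℤ) : ZMod N) =
        x.2 * ((η (x, false) : ℤ) : ZMod N) + x.2 * ((η (x + (1, 0), true) : ℤ) : ZMod N) -
        x.2 * ((η (x + (0, 1), false) : ℤ) : ZMod N) - x.2 * ((η (x, true) : ℤ) : ZMod N) := by
      intro x
      unfold cuZ
      push_cast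
      ring
    simp only [e, Finset.sum_add_distrib, Finset.sum_sub_distrib]
    rw [a1, a2]
    simp only [sub_mul, one_mul, Finset.sum_sub_distrib]
    ring
  rw [d1, k1] at c1
  rw [d2, k2] at c2
  ext
  · show q.1 = p.1 + (v1 : ZMod N)
    linear_combination c1
  · show q.2 = p.2 + (v2 : ZMod N)
    linear_combination c2

/-- far pairs, any torus of side at least two, no hypothesis on the end point -/
lemma expB_gen (hN : 2 ≤ N) (hb : 0 < b) (h : H817.IsPath p q d.1 d.2 L η) {r : ℕ}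
    (h1 : 2 * r + 2 ≤ XY.nm d) (h2 : 4 * XY.nm d ≤ N) :
    (∃ Bad : Finset (Ed N), Bad.card ≤ 8 * (2 * r + 1) ^ 2 ∧
      ExpB N b η 0 Bad (mm b r ^ 2 * pr0 N b η 0)) ∧ ExpD N b η 0 (pr0 N b η 0) := by
  obtain ⟨M, rfl⟩ : ∃ M, N = M + 2 := ⟨N - 2, by omega⟩
  exact ⟨expB_far hb h (pathEnd h) h1 h2 0, expD_of hb η 0⟩

end gen

section nums

variable {b s ρ C2 : ℝ} {n r : ℕ}

lemma cl_cast (n : ℕ) : (n : ℝ) ≤ 2 ^ cl n := by exact_mod_cast cl_ge n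

lemma lv_r (hn : 2 ≤ n) (h : (2 : ℝ) ^ (r - n) ≤ (n : ℝ) ^ (1 / 8 : ℝ)) : r ≤ n + cl n := by
  have hn1 : (1 : ℝ) ≤ n := by exact_mod_cast (by omega : 1 ≤ n)
  have h1 : (n : ℝ) ^ (1 / 8 : ℝ) ≤ (n : ℝ) ^ (1 : ℝ) :=
    Real.rpow_le_rpow_of_exponent_le hn1 (by norm_num)
  rw [Real.rpow_one] at h1
  have h3 : (2 : ℝ) ^ (r - n) ≤ 2 ^ cl n := (h.trans h1).trans (cl_cast n)
  have h4 := (pow_le_pow_iff_right₀ one_lt_two).1 h3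
  omega

lemma pw_m (hn : 2 ≤ n) {m j : ℕ} (h : j ≤ m * cl n) : (2 : ℝ) ^ j ≤ (2 * n) ^ m := by
  have h1 : (2 : ℝ) ^ cl n ≤ 2 * n := by exact_mod_cast cl_le hn
  calc (2 : ℝ) ^ j ≤ 2 ^ (m * cl n) := pow_le_pow_right₀ (by norm_num) h
    _ = (2 ^ cl n) ^ m := by rw [← pow_mul, mul_comm]
    _ ≤ (2 * n) ^ m := pow_le_pow_left₀ (by positivity) h1 m

lemma pw8 (hn : 2 ≤ n) (hr : r ≤ n + cl n) :
    (4 : ℝ) ^ (r - (n - 3 * cl n)) ≤ 256 * (n : ℝ) ^ 8 := by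
  have h1 : 2 * (r - (n - 3 * cl n)) ≤ 8 * cl n := by omega
  have h2 := pw_m hn h1
  rw [pow_mul] at h2
  calc (4 : ℝ) ^ (r - (n - 3 * cl n)) = (2 ^ 2) ^ (r - (n - 3 * cl n)) := by norm_num
    _ ≤ (2 * n) ^ 8 := h2
    _ = _ := by ring

/-- few bad edges -/
lemma bad_num (hk : 5 * cl n ≤ n) (hn : 1 ≤ n) {c : ℕ} (h : c ≤ 8 * (2 * 2 ^ (n - 5 * cl n) + 1) ^ 2) :
    (n : ℝ) ^ 4 * ((c : ℝ) / 4 ^ (n - 3 * cl n)) ≤ 72 := by
  have h1 : (c : ℝ) ≤ 72 * 4 ^ (n - 5 * cl n) := by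
    have h2 : (c : ℝ) ≤ 8 * (2 * 2 ^ (n - 5 * cl n) + 1) ^ 2 := by exact_mod_cast h
    have h3 : (1 : ℝ) ≤ 2 ^ (n - 5 * cl n) := one_le_pow₀ (by norm_num)
    have h4 : (4 : ℝ) ^ (n - 5 * cl n) = (2 ^ (n - 5 * cl n)) ^ 2 := by
      rw [← pow_mul, mul_comm (n - 5 * cl n) 2, pow_mul]
      norm_num
    rw [h4]
    nlinarith
  have h2 : (4 : ℝ) ^ (n - 3 * cl n) = 4 ^ (n - 5 * cl n) * (2 ^ cl n) ^ 4 := by
    have : n - 3 * cl n = n - 5 * cl n + 2 * cl n := by omega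
    rw [this, pow_add]
    congr 1
    rw [← pow_mul, pow_mul, mul_comm (cl n) 4, pow_mul]
    norm_num
  have h3 := cl_cast n
  have hn0 : (0 : ℝ) < n := by exact_mod_cast hn
  have h4 : (n : ℝ) ^ 4 ≤ (2 ^ cl n) ^ 4 := pow_le_pow_left₀ hn0.le h3 4
  have h5 : (0 : ℝ) < 4 ^ (n - 3 * cl n) := by positivity
  rw [mul_div_assoc', div_le_iff₀ h5, h2]
  calc (n : ℝ) ^ 4 * c ≤ (2 ^ cl n) ^ 4 * (72 * 4 ^ (n - 5 * cl n)) :=
        mul_le_mul h4 h1 (Nat.cast_nonneg _) (by positivity)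
    _ = _ := by ring

/-- the smooth part -/
lemma t2_num (hb : 0 < b) (Q : QN b s ρ C2 n) {P K K0 c : ℝ} (hP : P ≤ 256 * (n : ℝ) ^ 8)
    (hK : K ≤ 64 * C2 * (n : ℝ) ^ 6) (hK' : 0 ≤ K) (hK0 : K0 ≤ Real.exp ((n : ℝ) ^ 2 / 2))
    (hK0' : 0 ≤ K0) (hc : (n : ℝ) ^ 4 * c ≤ 72) :
    3 * (6 * P * (K * Real.exp (b * ((n : ℝ) ^ (1 / 16 : ℝ) / (2 * b)) ^ 2 -
        (n : ℝ) ^ (1 / 16 : ℝ) / (2 * b) * (n : ℝ) ^ (1 / 16 : ℝ)) +
      K0 * Real.exp (b * (((n : ℝ) ^ 2) ^ 2 * c) - (n : ℝ) ^ 2 * 1))) ≤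
      2 * Real.exp (-((n : ℝ) ^ (1 / 16 : ℝ))) := by
  have hn : (0 : ℝ) < n := by
    have := Q.n2
    exact_mod_cast (by omega : 0 < n)
  have hu : (n : ℝ) ^ (1 / 16 : ℝ) * (n : ℝ) ^ (1 / 16 : ℝ) = (n : ℝ) ^ (1 / 8 : ℝ) := by
    rw [← Real.rpow_add hn]
    norm_num
  have e1 : b * ((n : ℝ) ^ (1 / 16 : ℝ) / (2 * b)) ^ 2 -
      (n : ℝ) ^ (1 / 16 : ℝ) / (2 * b) * (n : ℝ) ^ (1 / 16 : ℝ) =
      -(1 / (4 * b) * (n : ℝ) ^ (1 / 8 : ℝ)) := by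
    rw [← hu]
    field_simp
    ring
  have e2 : b * (((n : ℝ) ^ 2) ^ 2 * c) - (n : ℝ) ^ 2 * 1 ≤ 72 * b - (n : ℝ) ^ 2 := by
    have h1 : ((n : ℝ) ^ 2) ^ 2 * c ≤ 72 := by
      rw [← pow_mul]
      exact hc
    have := mul_le_mul_of_nonneg_left h1 hb.le
    linarith
  rw [e1]
  have f1 : K * Real.exp (-(1 / (4 * b) * (n : ℝ) ^ (1 / 8 : ℝ))) ≤
      64 * C2 * (n : ℝ) ^ 6 * Real.exp (-(1 / (4 * b) * (n : ℝ) ^ (1 / 8 : ℝ))) :=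
    mul_le_mul_of_nonneg_right hK (Real.exp_pos _).le
  have f2 : K0 * Real.exp (b * (((n : ℝ) ^ 2) ^ 2 * c) - (n : ℝ) ^ 2 * 1) ≤
      Real.exp (72 * b - (n : ℝ) ^ 2 / 2) := by
    calc K0 * Real.exp (b * (((n : ℝ) ^ 2) ^ 2 * c) - (n : ℝ) ^ 2 * 1)
        ≤ Real.exp ((n : ℝ) ^ 2 / 2) * Real.exp (72 * b - (n : ℝ) ^ 2) :=
          mul_le_mul hK0 (Real.exp_le_exp.2 e2) (Real.exp_pos _).le (Real.exp_pos _).le
      _ = _ := by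
        rw [← Real.exp_add]
        congr 1
        ring
  have hX1 : 0 ≤ K * Real.exp (-(1 / (4 * b) * (n : ℝ) ^ (1 / 8 : ℝ))) :=
    mul_nonneg hK' (Real.exp_pos _).le
  have hX2 : 0 ≤ K0 * Real.exp (b * (((n : ℝ) ^ 2) ^ 2 * c) - (n : ℝ) ^ 2 * 1) :=
    mul_nonneg hK0' (Real.exp_pos _).le
  have g1 := Q.e1
  have g2 := Q.e2
  calc 3 * (6 * P * (K * Real.exp (-(1 / (4 * b) * (n : ℝ) ^ (1 / 8 : ℝ))) +
      K0 * Real.exp (b * (((n : ℝ) ^ 2) ^ 2 * c) - (n : ℝ) ^ 2 * 1)))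
      ≤ 3 * (6 * (256 * (n : ℝ) ^ 8) * (K * Real.exp (-(1 / (4 * b) * (n : ℝ) ^ (1 / 8 : ℝ))) +
      K0 * Real.exp (b * (((n : ℝ) ^ 2) ^ 2 * c) - (n : ℝ) ^ 2 * 1))) := by
        refine mul_le_mul_of_nonneg_left ?_ (by norm_num)
        exact mul_le_mul_of_nonneg_right (mul_le_mul_of_nonneg_left hP (by norm_num))
          (add_nonneg hX1 hX2)
    _ ≤ 3 * (6 * (256 * (n : ℝ) ^ 8) * (64 * C2 * (n : ℝ) ^ 6 *
        Real.exp (-(1 / (4 * b) * (n : ℝ) ^ (1 / 8 : ℝ))) + Real.exp (72 * b - (n : ℝ) ^ 2 / 2))) := by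
        refine mul_le_mul_of_nonneg_left ?_ (by norm_num)
        exact mul_le_mul_of_nonneg_left (add_le_add f1 f2) (by positivity)
    _ = 3 * (6 * (256 * (n : ℝ) ^ 8)) * ((64 * C2 * (n : ℝ) ^ 6) *
        Real.exp (-(1 / (4 * b) * (n : ℝ) ^ (1 / 8 : ℝ)))) +
        3 * (6 * (256 * (n : ℝ) ^ 8)) * Real.exp (72 * b - (n : ℝ) ^ 2 / 2) := by ring
    _ ≤ _ := by linarith

/-- the rough part: the perturbation is small in sup norm -/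
lemma h1_num (Q : QN b s ρ C2 n) :
    3 * s * tn n * (5 * (((2 ^ (n - 3 * cl n) : ℕ) : ℝ) * (cEs b 1 * (n : ℝ) ^ 2))) ≤ 1 := by
  have h1 := Q.lin
  have h2 : ((2 ^ (n - 3 * cl n) : ℕ) : ℝ) ≤ 2 ^ n := by
    push_cast
    exact pow_le_pow_right₀ (by norm_num) (Nat.sub_le _ _)
  have h4 : (4 : ℝ) ^ n = 2 ^ n * 2 ^ n := by
    rw [← mul_pow]
    norm_num
  have e : 3 * s * tn n * (5 * (((2 ^ (n - 3 * cl n) : ℕ) : ℝ) * (cEs b 1 * (n : ℝ) ^ 2))) =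
      (15 * s * (cEs b 1 * (n : ℝ) ^ 2)) * ((2 ^ (n - 3 * cl n) : ℕ) : ℝ) / (2 ^ n * 2 ^ n) := by
    unfold H972.tn
    rw [h4]
    field_simp
    ring
  rw [e, div_le_one (by positivity)]
  exact mul_le_mul h1 h2 (Nat.cast_nonneg _) (by positivity)

lemma h2_num (Q : QN b s ρ C2 n) (hb : 0 < b) (hnr : n ≤ r)
    (hrn : (2 : ℝ) ^ (r - n) ≤ (n : ℝ) ^ (1 / 8 : ℝ)) :
    (b + 6 * max b 1 ^ 2) * (2 * ((2 ^ r : ℕ) * (3 * s * tn n *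
      (5 * (((2 ^ (n - 3 * cl n) : ℕ) : ℝ) * (cEs b 1 * (n : ℝ) ^ 2))))) ^ 2) ≤ ρ := by
  have h64 := Q.k64
  have hn0 : (0 : ℝ) < n := by
    have := Q.n2
    exact_mod_cast (by omega : 0 < n)
  have hn1 : (1 : ℝ) ≤ n := by
    have := Q.n2
    exact_mod_cast (by omega : 1 ≤ n)
  have h4 : (4 : ℝ) ^ n = 2 ^ n * 2 ^ n := by
    rw [← mul_pow]
    norm_num
  have e1 : (2 : ℝ) ^ r = 2 ^ (r - n) * 2 ^ n := by
    rw [← pow_add]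
    congr 1
    omega
  have e2 : (2 : ℝ) ^ n = 2 ^ (n - 3 * cl n) * (2 ^ cl n) ^ 3 := by
    rw [← pow_mul, ← pow_add]
    congr 1
    omega
  have e : (((2 ^ r : ℕ) : ℝ) * (3 * s * tn n *
      (5 * (((2 ^ (n - 3 * cl n) : ℕ) : ℝ) * (cEs b 1 * (n : ℝ) ^ 2))))) =
      15 * s * cEs b 1 * ((n : ℝ) ^ 2 * (2 ^ (r - n) / (2 ^ cl n) ^ 3)) := by
    unfold H972.tn
    push_cast
    rw [h4, e1]
    have h5 : (2 : ℝ) ^ (n - 3 * cl n) = 2 ^ n / (2 ^ cl n) ^ 3 := by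
      rw [e2]
      field_simp
    rw [h5]
    field_simp
    ring
  have h6 : (n : ℝ) ^ 2 * (2 ^ (r - n) / (2 ^ cl n) ^ 3) ≤ (n : ℝ) ^ (1 / 8 : ℝ) / n := by
    have h7 : (n : ℝ) ^ 3 ≤ (2 ^ cl n) ^ 3 := pow_le_pow_left₀ hn0.le (cl_cast n) 3
    have h8 : (2 : ℝ) ^ (r - n) / (2 ^ cl n) ^ 3 ≤ (n : ℝ) ^ (1 / 8 : ℝ) / (n : ℝ) ^ 3 :=
      div_le_div₀ (Real.rpow_nonneg hn0.le _) hrn (by positivity) h7
    calc (n : ℝ) ^ 2 * (2 ^ (r - n) / (2 ^ cl n) ^ 3)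
        ≤ (n : ℝ) ^ 2 * ((n : ℝ) ^ (1 / 8 : ℝ) / (n : ℝ) ^ 3) :=
          mul_le_mul_of_nonneg_left h8 (by positivity)
      _ = _ := by
        field_simp
  have h9 : ((n : ℝ) ^ 2 * (2 ^ (r - n) / (2 ^ cl n) ^ 3)) ^ 2 ≤ 1 / n := by
    calc ((n : ℝ) ^ 2 * (2 ^ (r - n) / (2 ^ cl n) ^ 3)) ^ 2
        ≤ ((n : ℝ) ^ (1 / 8 : ℝ) / n) ^ 2 := pow_le_pow_left₀ (by positivity) h6 2
      _ = (n : ℝ) ^ (1 / 4 : ℝ) / n ^ 2 := by
        rw [div_pow, ← Real.rpow_natCast ((n : ℝ) ^ (1 / 8 : ℝ)) 2, ← Real.rpow_mul hn0.le]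
        norm_num
      _ ≤ (n : ℝ) / n ^ 2 := by
        refine div_le_div_of_nonneg_right ?_ (by positivity)
        have : (n : ℝ) ^ (1 / 4 : ℝ) ≤ (n : ℝ) ^ (1 : ℝ) :=
          Real.rpow_le_rpow_of_exponent_le hn1 (by norm_num)
        rwa [Real.rpow_one] at this
      _ = 1 / n := by field_simp
  rw [e, mul_pow]
  have h10 : (b + 6 * max b 1 ^ 2) * (2 * ((15 * s * cEs b 1) ^ 2 *
      ((n : ℝ) ^ 2 * (2 ^ (r - n) / (2 ^ cl n) ^ 3)) ^ 2)) ≤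
      (b + 6 * max b 1 ^ 2) * (2 * ((15 * s * cEs b 1) ^ 2 * (1 / n))) :=
    mul_le_mul_of_nonneg_left (mul_le_mul_of_nonneg_left
      (mul_le_mul_of_nonneg_left h9 (sq_nonneg _)) (by norm_num)) (by positivity)
  refine h10.trans ?_
  have h11 := Q.rho
  have : (b + 6 * max b 1 ^ 2) * (2 * ((15 * s * cEs b 1) ^ 2 * (1 / n))) =
      (b + 6 * max b 1 ^ 2) * (2 * (15 * s * cEs b 1) ^ 2) / n := by
    field_simp
  rw [this, div_le_iff₀ hn0]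
  exact h11

end nums

section det

variable {N : ℕ} [NeZero N] {b s ρ C2 : ℝ} {n r : ℕ} {p q : V N} {d : ℤ × ℤ} {L : ℕ}
  {η : Ed N → ℤ} {f : V N → ℝ}

/-- prices at the two radii -/
lemma price_num (hb : 0 < b) (hC2 : 1 ≤ C2) (Q : QN b s ρ C2 n) (hnr : n ≤ r)
    (hrk : r ≤ n + cl n) {R : ℕ} {β CT0 : ℝ} (hβ1 : β ≤ 1) (hCT : 0 < CT0)
    (hR1 : 2 ^ n ≤ R) (hR2 : R ≤ 2 ^ r)
    (hpr : ∀ s' : ℕ, 1 ≤ s' → s' ≤ R → ua b s' ≤ C2 * ((R : ℝ) / s') ^ β * CT0) :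
    mm b (2 ^ (n - 5 * cl n)) ^ 2 * (1 / CT0) ≤ 64 * C2 * (n : ℝ) ^ 6 ∧
      1 / CT0 ≤ Real.exp ((n : ℝ) ^ 2 / 2) := by
  have h2 := Q.n2
  have h64 := Q.k64
  have hu1 : 0 < ua b 1 := pow_pos (H253.Sm.mm_pos hb 1) 2
  have gen : ∀ s' : ℕ, 1 ≤ s' → s' ≤ R → ua b s' ≤ C2 * ((2 ^ r : ℝ) / s') * CT0 := by
    intro s' h1 h3
    refine (hpr s' h1 h3).trans ?_
    have hs0 : (0 : ℝ) < s' := by exact_mod_cast h1
    have h4 : (1 : ℝ) ≤ (R : ℝ) / s' := by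
      rw [le_div_iff₀ hs0, one_mul]
      exact_mod_cast h3
    have h5 : ((R : ℝ) / s') ^ β ≤ (2 ^ r : ℝ) / s' := by
      calc ((R : ℝ) / s') ^ β ≤ ((R : ℝ) / s') ^ (1 : ℝ) := Real.rpow_le_rpow_of_exponent_le h4 hβ1
        _ = (R : ℝ) / s' := Real.rpow_one _
        _ ≤ (2 ^ r : ℝ) / s' := by
          refine div_le_div_of_nonneg_right ?_ hs0.le
          exact_mod_cast hR2
    exact mul_le_mul_of_nonneg_right (mul_le_mul_of_nonneg_left h5 (by linarith)) hCT.le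
  constructor
  · have h1 := gen (2 ^ (n - 5 * cl n)) Nat.one_le_two_pow
      ((Nat.pow_le_pow_right (by norm_num) (Nat.sub_le _ _)).trans hR1)
    have h3 : (2 ^ r : ℝ) / ((2 ^ (n - 5 * cl n) : ℕ) : ℝ) ≤ 64 * (n : ℝ) ^ 6 := by
      push_cast
      have h4 : (2 : ℝ) ^ r = 2 ^ (r - (n - 5 * cl n)) * 2 ^ (n - 5 * cl n) := by
        rw [← pow_add]
        congr 1
        omega
      rw [h4, mul_div_assoc, div_self (by positivity), mul_one]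
      refine (pw_m h2 (m := 6) (by omega)).trans (le_of_eq ?_)
      ring
    rw [mul_one_div, div_le_iff₀ hCT]
    refine h1.trans ?_
    have h5 := mul_le_mul_of_nonneg_right (mul_le_mul_of_nonneg_left h3
      (by linarith : (0 : ℝ) ≤ C2)) hCT.le
    refine h5.trans (le_of_eq ?_)
    ring
  · have h1 := gen 1 le_rfl (le_trans Nat.one_le_two_pow hR1)
    rw [Nat.cast_one, div_one] at h1
    have h3 : (2 : ℝ) ^ r ≤ 4 ^ n := by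
      have h4 : (4 : ℝ) ^ n = 2 ^ (2 * n) := by rw [pow_mul]; norm_num
      rw [h4]
      exact pow_le_pow_right₀ (by norm_num) (by omega)
    have h4 : ua b 1 * 1 ≤ ua b 1 * (Real.exp ((n : ℝ) ^ 2 / 2) * CT0) := by
      calc ua b 1 * 1 ≤ C2 * 2 ^ r * CT0 := by rw [mul_one]; exact h1
        _ ≤ C2 * 4 ^ n * CT0 := mul_le_mul_of_nonneg_right
          (mul_le_mul_of_nonneg_left h3 (by linarith)) hCT.le
        _ ≤ ua b 1 * Real.exp ((n : ℝ) ^ 2 / 2) * CT0 := mul_le_mul_of_nonneg_right Q.K0 hCT.le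
        _ = _ := by ring
    have h5 := le_of_mul_le_mul_left h4 hu1
    rw [div_le_iff₀ hCT]
    exact h5

/-- **`Q(bad)` at a level, deterministic form** -/
theorem qb_det (hb : 0 < b) (hs : 0 ≤ s) (hC2 : 1 ≤ C2) (Q : QN b s ρ C2 n) (hnr : n ≤ r)
    (hrn : (2 : ℝ) ^ (r - n) ≤ (n : ℝ) ^ (1 / 8 : ℝ)) (hN : N = 2 ^ r)
    (h : H817.IsPath p q d.1 d.2 L η) (hf : ∀ e, (η e : ℝ) + gr f e = bD p q e)
    (hd : 2 ^ n ≤ XY.nm d) (hd' : 4 * XY.nm d ≤ N) {R : ℕ} {β : ℝ} (hβ1 : β ≤ 1)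
    (hR1 : 2 ^ n ≤ R) (hR2 : R ≤ 2 ^ r)
    (hpr : ∀ s' : ℕ, 1 ≤ s' → s' ≤ R → ua b s' ≤ C2 * ((R : ℝ) / s') ^ β * CT N b η)
    (hreg : ∀ (F : V N → ℝ) (c0 B : ℝ), (∀ x, |F x - c0| ≤ B) →
      (∀ e, |gr F e| ≤ 2 * B / 2 ^ (n - 3 * cl n)) → 1 + B ≤ (n : ℝ) ^ (1 / 8 : ℝ) →
      RT N b (tn n) 0 F ≤ ρ) :
    ∫ F in {F | ρ < RT N b (tn n) 0 (s • F)}, Psi (wT b N) (wTD N b η)
        (tn n • (1 : Matrix (V N) (V N) ℝ)) f F ∂(nuM (wT b N) (tn n • (1 : Matrix (V N) (V N) ℝ)) 0) ≤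
      CT N b η * (2 * (nuM (wT b N) (tn n • (1 : Matrix (V N) (V N) ℝ)) 0).real
          {F | ρ < RT N b (tn n) 0 ((3 * s) • F)} + Real.exp (-((n : ℝ) ^ (1 / 16 : ℝ)))) := by
  have h2 := Q.n2
  have h64 := Q.k64
  have hrk := lv_r h2 hrn
  have hk1 : 1 ≤ cl n := Nat.clog_pos (by norm_num) (by omega)
  have hCG := H817.CG_pos
  have hn0 : (0 : ℝ) < n := by exact_mod_cast (by omega : 0 < n)
  have hn1 : (1 : ℝ) ≤ n := by exact_mod_cast (by omega : 1 ≤ n)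
  have hN2 : 2 ≤ N := by
    rw [hN]
    calc 2 = 2 ^ 1 := rfl
      _ ≤ 2 ^ r := Nat.pow_le_pow_right (by norm_num) (by omega)
  have ht : 0 < tn n := by unfold H972.tn; positivity
  have hr0 : 2 * 2 ^ (n - 5 * cl n) + 2 ≤ XY.nm d := by
    refine le_trans ?_ hd
    have h3 : 4 * 2 ^ (n - 5 * cl n) ≤ 2 ^ n := by
      calc 4 * 2 ^ (n - 5 * cl n) = 2 ^ (2 + (n - 5 * cl n)) := by rw [pow_add]; norm_num
        _ ≤ 2 ^ n := Nat.pow_le_pow_right (by norm_num) (by omega)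
    have h4 : 1 ≤ 2 ^ (n - 5 * cl n) := Nat.one_le_two_pow
    omega
  obtain ⟨⟨Bad, hBc, hX⟩, hX0⟩ := expB_gen hN2 hb h (r := 2 ^ (n - 5 * cl n)) hr0 hd'
  have hCT : 0 < CT N b η := by
    have h3 := pr0_pos hb η (0 : V N)
    rw [pr0_CT] at h3
    exact one_div_pos.1 h3
  obtain ⟨hK, hK0⟩ := price_num hb hC2 Q hnr hrk hβ1 hCT hR1 hR2 hpr
  rw [pr0_CT] at hX hX0
  have hK' : 0 ≤ mm b (2 ^ (n - 5 * cl n)) ^ 2 * (1 / CT N b η) := by positivity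
  have hK0' : 0 ≤ 1 / CT N b η := by positivity
  have hkr : n - 3 * cl n ≤ r := by omega
  have hrk0 : (r : ℝ) - ((n - 3 * cl n : ℕ) : ℝ) ≤ 4 * (cl n : ℝ) := by
    have h3 : r ≤ (n - 3 * cl n) + 4 * cl n := by omega
    have h4 : (r : ℝ) ≤ ((n - 3 * cl n : ℕ) : ℝ) + 4 * (cl n : ℝ) := by exact_mod_cast h3
    linarith
  have hrk1 : 0 ≤ (r : ℝ) - ((n - 3 * cl n : ℕ) : ℝ) := by
    have : ((n - 3 * cl n : ℕ) : ℝ) ≤ r := by exact_mod_cast hkr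
    linarith
  have hl0 : 0 ≤ (n : ℝ) ^ (1 / 16 : ℝ) := Real.rpow_nonneg hn0.le _
  have hB : 1 + 3 * s * (((r : ℝ) - ((n - 3 * cl n : ℕ) : ℝ)) *
      ((n : ℝ) ^ (1 / 16 : ℝ) + 1 + (1 + 36 * CG))) ≤ (n : ℝ) ^ (1 / 8 : ℝ) := by
    refine le_trans ?_ Q.B1
    have : 3 * s * (((r : ℝ) - ((n - 3 * cl n : ℕ) : ℝ)) *
        ((n : ℝ) ^ (1 / 16 : ℝ) + 1 + (1 + 36 * CG))) ≤
        3 * s * (4 * (cl n : ℝ) * ((n : ℝ) ^ (1 / 16 : ℝ) + 1 + (1 + 36 * CG))) :=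
      mul_le_mul_of_nonneg_left (mul_le_mul_of_nonneg_right hrk0 (by positivity)) (by positivity)
    linarith
  have hpow : (2 : ℝ) ^ (n / 2) ≤ 2 ^ (n - 3 * cl n) :=
    pow_le_pow_right₀ (by norm_num) (by omega)
  have hu1 : (n : ℝ) ^ (1 / 16 : ℝ) ≤ n := by
    have : (n : ℝ) ^ (1 / 16 : ℝ) ≤ (n : ℝ) ^ (1 : ℝ) :=
      Real.rpow_le_rpow_of_exponent_le hn1 (by norm_num)
    rwa [Real.rpow_one] at this
  have hl1 : (n : ℝ) ^ (1 / 16 : ℝ) / (2 * b) ≤ 2 ^ (n - 3 * cl n) := by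
    refine le_trans ?_ (Q.ll.trans hpow)
    have : (n : ℝ) ^ (1 / 16 : ℝ) / (2 * b) ≤ (n : ℝ) / (2 * b) :=
      div_le_div_of_nonneg_right hu1 (by positivity)
    have h3 : 0 ≤ (n : ℝ) ^ 2 := by positivity
    linarith
  have hl2 : (n : ℝ) ^ 2 ≤ 2 ^ (n - 3 * cl n) := by
    refine le_trans ?_ (Q.ll.trans hpow)
    have : 0 ≤ (n : ℝ) / (2 * b) := by positivity
    linarith
  have hD : nrm (fun e => (η e : ℝ) + gr f e) ≤ 1 * (n : ℝ) ^ 2 := by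
    have e : (fun e => (η e : ℝ) + gr f e) = bD p q := funext hf
    rw [e, one_mul]
    refine (H856.Dl.nrm_bD p q).trans (le_trans ?_ Q.D)
    have h3 : (N : ℝ) ≤ 4 ^ n := by
      rw [hN]
      push_cast
      have h4 : (4 : ℝ) ^ n = 2 ^ (2 * n) := by rw [pow_mul]; norm_num
      rw [h4]
      exact pow_le_pow_right₀ (by norm_num) (by omega)
    have h4 : Real.log (1 + N) ≤ Real.log (1 + 4 ^ n) :=
      Real.log_le_log (by positivity) (by linarith)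
    have h5 : 384 * CG ^ 2 * (1 + Real.log (1 + N)) ≤ 384 * CG ^ 2 * (1 + Real.log (1 + 4 ^ n)) :=
      mul_le_mul_of_nonneg_left (by linarith) (by positivity)
    linarith
  have key := qbad (N := N) (R := r) (k0 := n - 3 * cl n) hN hkr hb ht hf (0 : V N) hX hX0 hK' hK0'
    (A := cEs b 1 * (n : ℝ) ^ 2) (D := 1 * (n : ℝ) ^ 2) (ρ := ρ) (s := s) hD hs (h1_num Q)
    (by
      have h3 := h2_num Q hb hnr hrn
      rw [← hN] at h3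
      exact h3)
    (l := (n : ℝ) ^ (1 / 16 : ℝ) / (2 * b)) (l' := (n : ℝ) ^ 2) (u := (n : ℝ) ^ (1 / 16 : ℝ))
    (v := 1) (by positivity) (by positivity) hl1 hl2 le_rfl
    (fun F c0 hF hG => hreg F c0 _ hF hG hB)
  refine key.trans ?_
  have hCTe : Zp (wTD N b η) 0 / Zp (wT b N) 0 = CT N b η := by
    unfold H883.CT
    rw [H770.wTD_zero]
  rw [hCTe, mul_comm _ (CT N b η)]
  refine mul_le_mul_of_nonneg_left ?_ hCT.le
  have hT1 := es_num (b := b) (C1 := 1) (K0 := 1 / CT N b η) (D := 1 * (n : ℝ) ^ 2) (n := n) (R := r)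
    hb.le (by omega) (by omega) (hK0.trans (Real.exp_le_exp.2 (by nlinarith))) hK0' le_rfl (by norm_num)
  rw [← hN] at hT1
  have hT2 := t2_num hb Q (pw8 h2 hrk) hK hK' hK0 hK0'
    (bad_num (by omega : 5 * cl n ≤ n) (by omega) hBc)
  have h3 := Q.e3
  linarith

end det

section flow

/-- the numbers of the flow: `2^(r-n) <= n^(1/8)`, `n^(5/12) <= y^(-1/2)`, `n^(1/2) <= y^(-5/8)` -/
lemma flow_num {P : Par} {b σ c c1 q2 qx : ℝ} {a y ε xs : ℕ → ℝ} {c' r' q' A : ℝ} {N0 : ℕ}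
    (h : SFlow P b σ c c1 q2 qx a y ε xs c' r' q' A N0) {α β γ δ : ℝ} (hα : 0 ≤ α) (hαβ : α < β)
    (hγ : 0 ≤ γ) (hγδ : γ < δ) :
    ∀ᶠ n in atTop, y n ^ (-α) ≤ (n : ℝ) ^ β ∧ (n : ℝ) ^ γ ≤ y n ^ (-δ) := by
  set ℓ := Real.sqrt (H264.kap * A) with hℓ
  have hℓ0 : 0 < ℓ := Real.sqrt_pos.2 (mul_pos H264.kap_pos h.A0)
  have E1 : ∀ᶠ n : ℕ in atTop, (n : ℝ)⁻¹ * (1 / y n) ≤ ℓ + 1 :=
    h.t3.ny.eventually (Iic_mem_nhds (by linarith))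
  have E2 : ∀ᶠ n : ℕ in atTop, ℓ / 2 ≤ (n : ℝ)⁻¹ * (1 / y n) :=
    h.t3.ny.eventually (Ici_mem_nhds (by linarith))
  have E3 := const_small (p := β - α) (by linarith) ((ℓ + 1) ^ α)
  have E4 := const_small (p := δ - γ) (by linarith) (1 / (ℓ / 2) ^ δ)
  filter_upwards [E1, E2, E3, E4, eventually_ge_atTop 1] with n e1 e2 e3 e4 hn
  have hn0 : (0 : ℝ) < n := by exact_mod_cast hn
  have hy : 0 < y n := h.fl.y0 n
  have hi : ∀ κ : ℝ, y n ^ (-κ) = (1 / y n) ^ κ := fun κ => by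
    rw [one_div, Real.inv_rpow hy.le, Real.rpow_neg hy.le]
  constructor
  · have h1 : 1 / y n ≤ (ℓ + 1) * n := by
      rw [inv_mul_le_iff₀ hn0] at e1
      linarith
    rw [hi]
    calc (1 / y n) ^ α ≤ ((ℓ + 1) * n) ^ α := Real.rpow_le_rpow (by positivity) h1 hα
      _ = (ℓ + 1) ^ α * (n : ℝ) ^ α := Real.mul_rpow (by positivity) hn0.le
      _ ≤ (n : ℝ) ^ (β - α) * (n : ℝ) ^ α := mul_le_mul_of_nonneg_right e3 (by positivity)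
      _ = _ := by
        rw [← Real.rpow_add hn0]
        congr 1
        ring
  · have h1 : ℓ / 2 * n ≤ 1 / y n := by
      have h3 := mul_le_mul_of_nonneg_right e2 hn0.le
      have h4 : (n : ℝ)⁻¹ * (1 / y n) * n = 1 / y n := by field_simp
      rwa [h4] at h3
    rw [hi]
    have h5 : 0 < (ℓ / 2) ^ δ := by positivity
    rw [div_le_iff₀ h5] at e4
    calc (n : ℝ) ^ γ = 1 * (n : ℝ) ^ γ := (one_mul _).symm
      _ ≤ ((n : ℝ) ^ (δ - γ) * (ℓ / 2) ^ δ) * (n : ℝ) ^ γ :=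
          mul_le_mul_of_nonneg_right e4 (by positivity)
      _ = (ℓ / 2) ^ δ * (n : ℝ) ^ δ := by
        have : (n : ℝ) ^ δ = (n : ℝ) ^ (δ - γ) * (n : ℝ) ^ γ := by
          rw [← Real.rpow_add hn0]
          congr 1
          ring
        rw [this]
        ring
      _ = (ℓ / 2 * n) ^ δ := (Real.mul_rpow (by positivity) hn0.le).symm
      _ ≤ _ := Real.rpow_le_rpow (by positivity) h1 (by linarith)

/-- common form: exponents `κ1` (torus), `κ` (regularity) -/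
theorem qb_lvlG {P : Par} {b σ c c1 q2 qx : ℝ} {a y ε xs : ℕ → ℝ} {c' r' q' A : ℝ} {N0 : ℕ}
    (hb : 0 < b) (h : SFlow P b σ c c1 q2 qx a y ε xs c' r' q' A N0) (hc : 0 ≤ c) {κ1 κ β0 : ℝ}
    (hκ1 : 0 ≤ κ1) (hβ0 : κ1 < β0) (hβ8 : β0 ≤ 1 / 8) (hκ : 2 * (β0 + 1 / 8) < κ)
    (hc1 : 2 * c + κ < 7 / 8) (hσ0 : 0 ≤ σ) (hσ : σ ≤ 1 / 6) (hpf : 2 / 3 ≤ P.pf)
    (hSi : ∀ i, 2 / Real.pi ≤ stiff (2 ^ i) b) (hL : LkS b (2 / Real.pi))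
    {ρ s C2 : ℝ} (hρ : 0 < ρ) (hs : 0 ≤ s) (hC2 : 1 ≤ C2) :
    ∀ᶠ n in atTop, ∀ r, P.TT n (ε n) r → (2 : ℝ) ^ (r - n) ≤ y n ^ (-κ1) →
      ∀ (N : ℕ) [NeZero N], N = 2 ^ r → ∀ (p q : V N) (d : ℤ × ℤ) (L : ℕ) (η : Ed N → ℤ)
        (f : V N → ℝ), H817.IsPath p q d.1 d.2 L η → (∀ e, (η e : ℝ) + gr f e = bD p q e) →
      2 ^ n ≤ XY.nm d → 4 * XY.nm d ≤ N → ∀ (R : ℕ) (β : ℝ), β ≤ 1 → 2 ^ n ≤ R → R ≤ 2 ^ r →
      (∀ s' : ℕ, 1 ≤ s' → s' ≤ R → ua b s' ≤ C2 * ((R : ℝ) / s') ^ β * CT N b η) →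
      ∫ F in {F | ρ < RT N b (tn n) 0 (s • F)}, Psi (wT b N) (wTD N b η)
          (tn n • (1 : Matrix (V N) (V N) ℝ)) f F
          ∂(nuM (wT b N) (tn n • (1 : Matrix (V N) (V N) ℝ)) 0) ≤
        CT N b η * (2 * (nuM (wT b N) (tn n • (1 : Matrix (V N) (V N) ℝ)) 0).real
          {F | ρ < RT N b (tn n) 0 ((3 * s) • F)} + Real.exp (-((n : ℝ) ^ (1 / 16 : ℝ)))) := by
  have hreg := H513.reg_flow hb h hc hσ0 hσ hpf hSi hL (κ := κ) (g := 7 / 8) (by linarith)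
    hc1 (by norm_num)
  have hyt : Tendsto (fun n => y n ^ (1 / 8 : ℝ)) atTop (𝓝 0) := by
    have := h.fl.yt.rpow_const (p := 1 / 8) (Or.inr (by norm_num))
    rwa [Real.zero_rpow (by norm_num)] at this
  have hy8 : ∀ᶠ n in atTop, y n ^ (1 / 8 : ℝ) ≤ ρ := hyt.eventually (Iic_mem_nhds hρ)
  filter_upwards [hreg, qn_ev hb hs hρ (C2 := C2), flow_num h hκ1 hβ0
    (by linarith : 0 ≤ 2 * (β0 + 1 / 8)) hκ, hy8] with n hreg Q hfl hy8 r hTT hrn N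
    _ hN p q d L η f hp hf hd hd' R β hβ1 hR1 hR2 hpr
  have hnr : n ≤ r := by
    have := hTT.1
    omega
  have h2 := Q.n2
  have hn0 : (0 : ℝ) < n := by exact_mod_cast (by omega : 0 < n)
  have hn1 : (1 : ℝ) ≤ n := by exact_mod_cast (by omega : 1 ≤ n)
  have h12 := hrn.trans hfl.1
  have h18 : (2 : ℝ) ^ (r - n) ≤ (n : ℝ) ^ (1 / 8 : ℝ) :=
    h12.trans (Real.rpow_le_rpow_of_exponent_le hn1 hβ8)
  have h64 := Q.k64
  have hrk := lv_r h2 h18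
  have hk1 : 1 ≤ cl n := Nat.clog_pos (by norm_num) (by omega)
  refine qb_det hb hs hC2 Q hnr h18 hN hp hf hd hd' hβ1 hR1 hR2 hpr ?_
  subst hN
  intro F c0 B hF hG hB
  have hB0 : 0 ≤ B := (abs_nonneg _).trans (hF 0)
  refine (hreg r hTT F c0 B (2 * B / 2 ^ (n - 3 * cl n)) hF (fun x => hG (x, false))
    (fun x => hG (x, true)) ?_ ?_).trans ?_
  · refine le_trans ?_ hfl.2
    have h3 : (2 : ℝ) ^ (r - n) * (1 + B) ≤ (n : ℝ) ^ β0 * (n : ℝ) ^ (1 / 8 : ℝ) :=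
      mul_le_mul h12 hB (by linarith) (by positivity)
    calc ((2 : ℝ) ^ (r - n) * (1 + B)) ^ 2 ≤ ((n : ℝ) ^ β0 * (n : ℝ) ^ (1 / 8 : ℝ)) ^ 2 :=
          pow_le_pow_left₀ (by positivity) h3 2
      _ = (n : ℝ) ^ (2 * (β0 + 1 / 8)) := by
        rw [← Real.rpow_add hn0, ← Real.rpow_natCast ((n : ℝ) ^ _) 2, ← Real.rpow_mul hn0.le]
        congr 1
        push_cast
        ring
  · have h3 : 16 * B ≤ 2 ^ (n / 8) := by
      refine le_trans ?_ Q.g8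
      linarith
    have h4 : (2 : ℝ) ^ (n / 8) * (2 ^ (r - n) * 2 ^ ((3 * r + 3) / 4)) ≤ 2 ^ (n - 3 * cl n) := by
      rw [← pow_add, ← pow_add]
      exact pow_le_pow_right₀ (by norm_num) (by omega)
    have h5 : 8 * (2 * B / 2 ^ (n - 3 * cl n)) * (2 ^ (r - n) * 2 ^ ((3 * r + 3) / 4)) =
        (16 * B) * (2 ^ (r - n) * 2 ^ ((3 * r + 3) / 4)) / 2 ^ (n - 3 * cl n) := by ring
    rw [h5, div_le_one (by positivity)]
    exact (mul_le_mul_of_nonneg_right h3 (by positivity)).trans h4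
  · have : (1 : ℝ) - 7 / 8 = 1 / 8 := by norm_num
    rw [this]
    exact hy8

/-- **`Q(bad)` AT A LEVEL OF THE FLOW** -/
theorem qb_lvl {P : Par} {b σ c c1 q2 qx : ℝ} {a y ε xs : ℕ → ℝ} {c' r' q' A : ℝ} {N0 : ℕ}
    (hb : 0 < b) (h : SFlow P b σ c c1 q2 qx a y ε xs c' r' q' A N0) (hc : 0 ≤ c)
    (hc1 : c < 3 / 16) (hσ0 : 0 ≤ σ) (hσ : σ ≤ 1 / 6) (hpf : 2 / 3 ≤ P.pf)
    (hSi : ∀ i, 2 / Real.pi ≤ stiff (2 ^ i) b) (hL : LkS b (2 / Real.pi))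
    {ρ s C2 : ℝ} (hρ : 0 < ρ) (hs : 0 ≤ s) (hC2 : 1 ≤ C2) :
    ∀ᶠ n in atTop, ∀ r, P.TT n (ε n) r → (2 : ℝ) ^ (r - n) ≤ y n ^ (-(1 / 16) : ℝ) →
      ∀ (N : ℕ) [NeZero N], N = 2 ^ r → ∀ (p q : V N) (d : ℤ × ℤ) (L : ℕ) (η : Ed N → ℤ)
        (f : V N → ℝ), H817.IsPath p q d.1 d.2 L η → (∀ e, (η e : ℝ) + gr f e = bD p q e) →
      2 ^ n ≤ XY.nm d → 4 * XY.nm d ≤ N → ∀ (R : ℕ) (β : ℝ), β ≤ 1 → 2 ^ n ≤ R → R ≤ 2 ^ r →
      (∀ s' : ℕ, 1 ≤ s' → s' ≤ R → ua b s' ≤ C2 * ((R : ℝ) / s') ^ β * CT N b η) →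
      ∫ F in {F | ρ < RT N b (tn n) 0 (s • F)}, Psi (wT b N) (wTD N b η)
          (tn n • (1 : Matrix (V N) (V N) ℝ)) f F
          ∂(nuM (wT b N) (tn n • (1 : Matrix (V N) (V N) ℝ)) 0) ≤
        CT N b η * (2 * (nuM (wT b N) (tn n • (1 : Matrix (V N) (V N) ℝ)) 0).real
          {F | ρ < RT N b (tn n) 0 ((3 * s) • F)} + Real.exp (-((n : ℝ) ^ (1 / 16 : ℝ)))) := by
  exact qb_lvlG hb h hc (κ1 := 1 / 16) (κ := 1 / 2) (β0 := 1 / 12) (by norm_num) (by norm_num)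
    (by norm_num) (by norm_num) (by linarith) hσ0 hσ hpf hSi hL hρ hs hC2

/-- **`Q(bad)` AT A LEVEL OF THE FLOW**, tori up to `y^(-1/10) ξ` -/
theorem qb_lvl10 {P : Par} {b σ c c1 q2 qx : ℝ} {a y ε xs : ℕ → ℝ} {c' r' q' A : ℝ} {N0 : ℕ}
    (hb : 0 < b) (h : SFlow P b σ c c1 q2 qx a y ε xs c' r' q' A N0) (hc : 0 ≤ c)
    (hc1 : c < 1 / 8) (hσ0 : 0 ≤ σ) (hσ : σ ≤ 1 / 6) (hpf : 2 / 3 ≤ P.pf)
    (hSi : ∀ i, 2 / Real.pi ≤ stiff (2 ^ i) b) (hL : LkS b (2 / Real.pi))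
    {ρ s C2 : ℝ} (hρ : 0 < ρ) (hs : 0 ≤ s) (hC2 : 1 ≤ C2) :
    ∀ᶠ n in atTop, ∀ r, P.TT n (ε n) r → (2 : ℝ) ^ (r - n) ≤ y n ^ (-(1 / 10) : ℝ) →
      ∀ (N : ℕ) [NeZero N], N = 2 ^ r → ∀ (p q : V N) (d : ℤ × ℤ) (L : ℕ) (η : Ed N → ℤ)
        (f : V N → ℝ), H817.IsPath p q d.1 d.2 L η → (∀ e, (η e : ℝ) + gr f e = bD p q e) →
      2 ^ n ≤ XY.nm d → 4 * XY.nm d ≤ N → ∀ (R : ℕ) (β : ℝ), β ≤ 1 → 2 ^ n ≤ R → R ≤ 2 ^ r →
      (∀ s' : ℕ, 1 ≤ s' → s' ≤ R → ua b s' ≤ C2 * ((R : ℝ) / s') ^ β * CT N b η) →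
      ∫ F in {F | ρ < RT N b (tn n) 0 (s • F)}, Psi (wT b N) (wTD N b η)
          (tn n • (1 : Matrix (V N) (V N) ℝ)) f F
          ∂(nuM (wT b N) (tn n • (1 : Matrix (V N) (V N) ℝ)) 0) ≤
        CT N b η * (2 * (nuM (wT b N) (tn n • (1 : Matrix (V N) (V N) ℝ)) 0).real
          {F | ρ < RT N b (tn n) 0 ((3 * s) • F)} + Real.exp (-((n : ℝ) ^ (1 / 16 : ℝ)))) := by
  obtain ⟨κ, h1, h2⟩ := exists_between (show (1 / 2 : ℝ) < 7 / 8 - 2 * c by linarith)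
  obtain ⟨β0, h3, h4⟩ := exists_between (show (1 / 10 : ℝ) < 1 / 8 by norm_num)
  exact qb_lvlG hb h hc (κ1 := 1 / 10) (κ := κ) (β0 := β0) (by norm_num) h3 h4.le (by linarith)
    (by linarith) hσ0 hσ hpf hSi hL hρ hs hC2

end flow

end

end Vale.Agent.P159.H270
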