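import Vale.Agent.P159.H270.Ce3
import Vale.Agent.P159.H446.Cut3
import Vale.Agent.P159.H846.Tp3

/-!
P159 (helper270), **typical sources through a site map along the flow** (`hε`, `hδ` of CUT), part 4:
the maps of the path of CUT (helper446's `cutP_of`).
-/

set_option linter.unusedSectionVars false

namespace Vale.Agent.P159.H270.Ce

open Finset Matrix Filter Topology MeasureTheory
open Vale.Agent.P159.TM.Spec (V)
open Vale.Agent.P159.H972 (Par lg tn FL Good)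
open Vale.Agent.P159.H789 (lvS SMF)
open Vale.Agent.P159.H801 (Ev SFlow)
open Vale.Agent.P159.H447 (nuS)
open Vale.Agent.P159.H963.Core (RF)
open Vale.Agent.P159.H663.Dr (tT)
open Vale.Agent.P159.H37.Sf (kf sf_TT sf_eps sf_big sf_ny sf_k3 sf_ub sf_lb0 lg_le)
open Vale.Agent.P159.H773 (sd nuF)
open Vale.Agent.P159.H816 (tn_pos sf_n2 two_lg lvl_num ev_c1 ev_num ev_small)
open Vale.Agent.P159.H817 (U sz)
open Vale.Agent.P159.H191 (TP)
open Vale.Agent.P159.H145.Sp (lC lR)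
open Vale.Agent.P159.H446.Pr (sj nC RT_RF)
open Vale.Agent.P159.H846.Tp (Pf smf_sj)

noncomputable section

section flow

variable {P : Par} {b σ c c1 q2 qx : ℝ} {a y ε xs : ℕ → ℝ} {c' r q A : ℝ} {N : ℕ}

/-- the number of dyadic scales of the window (helper340's `win_pow`) -/
lemma win_kk (hthp : P.thp ≤ 1 / 96) (h : SFlow P b σ c c1 q2 qx a y ε xs c' r q A N)
    (hσ0 : 0 ≤ σ) (hσ : σ ≤ 1 / 4) {ck : ℝ} (hck : 0 < ck) (hck1 : ck ≤ P.thp) (i : ℕ) :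
    ∀ᶠ n : ℕ in atTop, ∀ R : ℕ, R ≤ 2 ^ (n + P.w (ε n) + kf ck y (n + P.w (ε n))) →
      ((i + Nat.clog 2 R - n : ℕ) : ℝ) ≤ 1 / 10 * Real.logb 2 (1 / y n) := by
  have hth := P.thp0
  have h1 := (H37.Sf.lb_tend h.fl.y0 h.fl.yt).eventually_ge_atTop (60 * ((i : ℝ) + 4))
  filter_upwards [sf_k3 h hσ hck hck1, h1, eventually_ge_atTop N] with n g1 g2 hn R hR
  have hy := h.fl.y0 n
  have hl0 := sf_lb0 h hn
  have g3 : Nat.clog 2 R ≤ n + P.w (ε n) + kf ck y (n + P.w (ε n)) := by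
    have := Nat.clog_mono_right 2 hR
    rwa [Nat.clog_pow 2 _ one_lt_two] at this
  have g4 : i + Nat.clog 2 R - n ≤ i + 4 * P.w (ε n) := by omega
  have g5 : (P.w (ε n) : ℝ) ≤ 2 * P.thp * Real.logb 2 (1 / y n) + 1 := by
    have e2 := sf_ub h hn
    have e3 : (2 - σ) * Real.logb 2 (1 / y n) ≤ 2 * Real.logb 2 (1 / y n) :=
      mul_le_mul_of_nonneg_right (by linarith) hl0
    have e0 : 0 ≤ P.thp * Real.logb 2 (1 / ε n) := by
      refine mul_nonneg hth.le ?_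
      have e4 := H37.Sf.sf_lb h hn
      have e5 : 0 ≤ (2 - 3 * σ) * Real.logb 2 (1 / y n) := mul_nonneg (by linarith) hl0
      linarith
    have e1 : (P.w (ε n) : ℝ) ≤ P.thp * Real.logb 2 (1 / ε n) + 1 := lg_le e0
    have e6 : P.thp * Real.logb 2 (1 / ε n) ≤ P.thp * (2 * Real.logb 2 (1 / y n)) :=
      mul_le_mul_of_nonneg_left (e2.trans e3) hth.le
    linarith
  have e1 : ((i + Nat.clog 2 R - n : ℕ) : ℝ) ≤ ((i + 4 * P.w (ε n) : ℕ) : ℝ) := by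
    exact_mod_cast g4
  push_cast at e1
  have e2 : 8 * P.thp * Real.logb 2 (1 / y n) ≤ 1 / 12 * Real.logb 2 (1 / y n) :=
    mul_le_mul_of_nonneg_right (by linarith) hl0
  linarith

/-- powers of the logarithm against powers of `y` -/
lemma sf_logp (h : SFlow P b σ c c1 q2 qx a y ε xs c' r q A N) {p : ℝ} (hp : 0 < p) (C : ℝ)
    (k : ℕ) : ∀ᶠ n : ℕ in atTop, C * (1 + Real.logb 2 (1 / y n)) ^ k ≤ y n ^ (-p) := by
  have h1 : Tendsto y atTop (𝓝[>] 0) := tendsto_nhdsWithin_iff.2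
    ⟨h.fl.yt, Eventually.of_forall fun n => h.fl.y0 n⟩
  filter_upwards [h1.eventually (ev_small hp C k)] with n g
  rwa [neg_zero, Real.rpow_zero, mul_one] at g

/-- the two events of CUT at one torus -/
def CutE (b t L p Zm : ℝ) (i n k q R : ℕ) (μ : V (sd i R) → ℝ) : Prop :=
  ∀ z : ℝ, |z| ≤ Zm → ∀ j < nC i n k R, ∀ i' : ℕ, ∀ p0 q0 : V (sd i R),
    (nuF b (sd i) t R).real {F | L < H191.RT (sd i R) b t (z • TP (lC n k)
      (U (30 * lR n R) (lR n R)) μ p0 q0 (sj (sd i R) (nC i n k R) (lC n k) j i')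
      (tT (sd i R) q F))} ≤ p

/-- the number of cells against the torus -/
lemma nC_mul {i n k R : ℕ} (h : n + k / 16 ≤ i + Nat.clog 2 R) :
    sd i R = nC i n k R * lC n k := by
  unfold H446.Pr.nC H145.Sp.lC H773.sd
  rw [← pow_add, ← pow_add]
  congr 1
  omega

end flow

/-- **`hε`, `hδ` of CUT along the flow** -/
theorem cut_flow {b b1 b2 pf : ℝ} (hb1 : 0 < b1) (h1 : b1 ≤ b) (hpf : 0 < pf) (Q : ℕ) {δ : ℝ}
    (hδ : 0 < δ) (hδ1 : δ ≤ 1) :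
    Ev b1 b2 pf Q fun P c1 => 0 < c1 ∧ c1 ≤ P.th / 100 ∧
      ∀ {σ c q2 qx : ℝ} {a y ε xs : ℕ → ℝ} {c' r q A : ℝ} {N : ℕ},
      SFlow P b σ c c1 q2 qx a y ε xs c' r q A N → 0 ≤ σ → σ ≤ 1 / 4 →
      ∀ ck : ℝ, 0 < ck → 2 * P.th ≤ ck → ck ≤ P.thp → ∀ i : ℕ, 6 ≤ i → ∀ c3 : ℝ, c3 < 2 * c1 →
      ∀ κ Zm Cm : ℝ, 1 ≤ Cm → ∀ᶠ n in atTop, ∀ R, 2 ^ (n + kf ck y n) ≤ R →
        R ≤ 2 ^ (n + P.w (ε n) + kf ck y (n + P.w (ε n))) →
        ∀ a : ℕ, a ≤ n → ((n - a : ℕ) : ℝ) ≤ y n ^ (-c1) + 1 →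
        ∀ μ : V (sd i R) → ℝ, Pf (lC n (kf ck y n)) μ Cm →
        CutE b (tn n) (y n ^ (2 - 3 * σ - δ)) (Real.exp (-(κ * y n ^ (-c3)))) Zm i n (kf ck y n)
          (2 ^ a) R μ := by
  have hb : 0 < b := hb1.trans_le h1
  refine (map_flow (b2 := b2) hb1 h1 hpf Q hδ hδ1).mono fun P c1 hadm hT => ?_
  obtain ⟨hc0, hc1, H⟩ := hT
  refine ⟨hc0, hc1, ?_⟩
  intro σ c q2 qx a y ε xs c' r q A N h hσ0 hσ ck hck hck2 hck1 i hi c3 hc3 κ Zm Cm hCm
  have hth := P.th0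
  have hthp : P.thp ≤ 1 / 96 := by
    have h2 := hadm.hx
    have h3 := hadm.x11
    linarith
  filter_upwards [H h hσ0 hσ ck hck hck2 hck1 i (by omega) c3 hc3 κ Zm,
    win_kk hthp h hσ0 hσ hck hck1 i,
    sf_logp h (p := P.th / 16) (by positivity) (2 * 10 ^ 12 * Cm ^ 2) 2,
    sf_big h (p := 4 / 5) (M := 40 * Cm) (by norm_num) (by positivity),
    eventually_ge_atTop N] with n g1 g2 g3 g4 hn
  intro R hR1 hR2 a' ha hna μ hμ z hz j hj i' p0 q0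
  have hy := h.fl.y0 n
  have hy1 := h.y1 n hn
  have hl0 := sf_lb0 h hn
  obtain ⟨k, hk⟩ : ∃ k, k = kf ck y n := ⟨_, rfl⟩
  have hR0 : n + k ≤ Nat.clog 2 R := by
    rw [hk]
    have h3 := Nat.clog_mono_right 2 hR1
    rwa [Nat.clog_pow 2 _ one_lt_two] at h3
  have hdiv : k / 16 ≤ k := Nat.div_le_self _ _
  obtain ⟨kk, hkk⟩ : ∃ kk, kk = i + Nat.clog 2 R - (n + k / 16) := ⟨_, rfl⟩
  have hkk6 : 6 ≤ kk := by omega
  have hkkn : kk ≤ i + Nat.clog 2 R - n := by omega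
  have hkkr : (kk : ℝ) ≤ 1 / 10 * Real.logb 2 (1 / y n) :=
    (Nat.cast_le.2 hkkn).trans (g2 R hR2)
  have hnC : nC i n k R = 2 ^ kk := by
    rw [hkk]
    rfl
  have hNl : sd i R = nC i n k R * lC n k := nC_mul (by omega)
  have hlC0 : 0 < lC n k := by unfold H145.Sp.lC; positivity
  have hlR0 : 0 < lR n R := by unfold H145.Sp.lR H145.Sp.lK; positivity
  rw [← hk] at hμ hj ⊢
  have h64 : 64 ≤ nC i n k R := by
    rw [hnC]
    calc 64 = 2 ^ 6 := rfl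
      _ ≤ 2 ^ kk := Nat.pow_le_pow_right (by norm_num) hkk6
  have hnz : NeZero (nC i n k R) := ⟨by omega⟩
  have hS := smf_sj (N := sd i R) (n := nC i n k R) (l := lC n k) (k := kk) hNl hlC0 h64
    hμ hCm hlR0 hj i' p0 q0 hnC.le
  have hx := g1 R hR1 hR2 a' ha hna _ _ _ _ _ _ z hS (by positivity) ?_ (by positivity) ?_ ?_ ?_ hz
  · simp only [RT_RF hb (tn_pos n)]
    exact hx
  · -- k₀
    refine le_trans ?_ g3
    refine mul_le_mul_of_nonneg_left ?_ (by positivity)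
    exact pow_le_pow_left₀ (by positivity) (by linarith) 2
  · -- k₂
    have h5 : (1 : ℝ) / (lC n k : ℝ) ^ 2 ≤ tn n := by
      unfold H972.tn H145.Sp.lC
      rw [one_div]
      refine inv_anti₀ (by positivity) ?_
      push_cast
      have h6 : (4 : ℝ) ^ n = (2 ^ n) ^ 2 := by rw [← pow_mul, mul_comm, pow_mul]; norm_num
      rw [h6]
      exact pow_le_pow_left₀ (by positivity) (pow_le_pow_right₀ one_le_two (by omega)) 2
    have h7 : (4 : ℝ) * 10 ^ 8 * Cm ≤ 2 * 10 ^ 12 * Cm ^ 2 * (1 + kk) ^ 2 := by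
      have h8 : (1 : ℝ) ≤ (1 + (kk : ℝ)) ^ 2 := one_le_pow₀ (by
        have : (0 : ℝ) ≤ kk := Nat.cast_nonneg _
        linarith)
      have h9 : Cm ≤ Cm ^ 2 := by nlinarith
      nlinarith
    calc (4 : ℝ) * 10 ^ 8 * Cm / (lC n k : ℝ) ^ 2 = 4 * 10 ^ 8 * Cm * (1 / (lC n k : ℝ) ^ 2) := by ring
      _ ≤ 2 * 10 ^ 12 * Cm ^ 2 * (1 + kk) ^ 2 * tn n :=
        mul_le_mul h7 h5 (by positivity) (by positivity)
  · -- 1 ≤ kI
    have h5 : (1 : ℝ) ≤ (nC i n k R : ℝ) := by exact_mod_cast (by omega : 1 ≤ nC i n k R)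
    have h6 : (1 : ℝ) ≤ (nC i n k R : ℝ) ^ 2 := one_le_pow₀ h5
    nlinarith
  · -- kI
    have h5 : (2 : ℝ) ^ kk ≤ y n ^ (-(1 / 10) : ℝ) := by
      have h6 : (2 : ℝ) ^ (1 / 10 * Real.logb 2 (1 / y n)) = y n ^ (-(1 / 10) : ℝ) := by
        rw [mul_comm, Real.rpow_mul two_pos.le, Real.rpow_logb two_pos (by norm_num)
          (by positivity), one_div, Real.inv_rpow hy.le, Real.rpow_neg hy.le]
      rw [← h6, ← Real.rpow_natCast]
      exact Real.rpow_le_rpow_of_exponent_le one_lt_two.le hkkr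
    have h7 : (nC i n k R : ℝ) ^ 2 ≤ y n ^ (-(1 / 5) : ℝ) := by
      rw [hnC]
      push_cast
      refine (pow_le_pow_left₀ (by positivity) h5 2).trans (le_of_eq ?_)
      rw [← Real.rpow_natCast, ← Real.rpow_mul hy.le]
      norm_num
    calc 40 * Cm * (nC i n k R : ℝ) ^ 2 ≤ y n ^ (-(4 / 5) : ℝ) * y n ^ (-(1 / 5) : ℝ) :=
          mul_le_mul g4 h7 (by positivity) (Real.rpow_nonneg hy.le _)
      _ = y n ^ (-1 : ℝ) := by
        rw [← Real.rpow_add hy]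
        norm_num

end

end Vale.Agent.P159.H270.Ce
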