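import Vale.Agent.P159.H816.Sm2
import Vale.Agent.P159.H817.Dm2
import Vale.Agent.P159.H789.StM

/-!
P159 (helper270), **typical sources through a site map along the flow** (`hε`, `hδ` of CUT), part 1:
numeric facts of one state and the state form `MapP`.
-/

set_option linter.unusedSectionVars false

namespace Vale.Agent.P159.H270.Ce

open Finset Matrix Filter Topology MeasureTheory
open Vale.Agent.P159.H37 (qf)
open Vale.Agent.P159.TM.Spec (V)
open Vale.Agent.P159.H864 (lapM)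
open Vale.Agent.P159.H972 (Par lg tn one_le_logb)
open Vale.Agent.P159.H789 (lvS)
open Vale.Agent.P159.H816 (ev_pos ev_le ev_ge ev_pow ev_small ev_exp)

noncomputable section

/-- the numbers of one state -/
structure MapN (C c th C0 c1 e : ℝ) : Prop where
  e0 : 0 < e
  e1 : e ≤ 1 / 4
  s1 : (lg C0 e : ℝ) ≤ ⌊e ^ (-(2 * c1))⌋₊
  s2 : 68 * (2 * Real.exp (-(e ^ (-(th / 40))))) ≤ 1 / 2 * Real.exp (-(e ^ (-(7 / 4 * c1))))
  s3 : C * e ^ (-10 : ℝ) * (Real.exp c * Real.exp (-(c / 2 * e ^ (-(2 * c1)))) +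
    24 * e ^ (-2 : ℝ) * Real.exp (-(1 / 4 * e ^ (-(2 * c1))))) * (2 * e ^ (-1 : ℝ)) ≤
    1 / 2 * Real.exp (-(e ^ (-(7 / 4 * c1))))
  s4 : 24 * e ^ (-2 : ℝ) * Real.exp (-(1 / 4 * e ^ (-(2 * c1)))) ≤ 1
  s5 : 4 ≤ e ^ (-c1)
  s6 : 8 ≤ e ^ (-(th / 40))

lemma mapN_ev {C c th C0 c1 : ℝ} (hC : 0 < C) (hc : 0 < c) (hth : 0 < th) (hc1 : 0 < c1)
    (h : c1 ≤ th * (1 / 100)) : ∀ᶠ e in 𝓝[>] (0 : ℝ), MapN C c th C0 c1 e := by
  filter_upwards [ev_pos, ev_le (show (0 : ℝ) < 1 / 4 by norm_num),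
    ev_small (show (0 : ℝ) < 2 * c1 by linarith) (|C0| + 2) 1,
    ev_pow (show 7 / 4 * c1 < th / 40 by linarith) 2,
    ev_ge (show (0 : ℝ) < 7 / 4 * c1 by linarith) 10,
    ev_exp hc1 13 (4 * C * (Real.exp c + 24)) one_pos,
    ev_pow (show 7 / 4 * c1 < 2 * c1 by linarith) (4 / c),
    ev_pow (show 7 / 4 * c1 < 2 * c1 by linarith) 8,
    ev_ge hc1 4, ev_ge (show (0 : ℝ) < th / 40 by positivity) 8, ev_exp hc1 2 24 one_pos]
    with e he he4 g1 g2 g3 g4 g5 g6 g7 g8 g9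
  have he1 : e ≤ 1 := by linarith
  have hl := one_le_logb he (by linarith)
  have P : ∀ a : ℝ, 0 < e ^ a := fun a => Real.rpow_pos_of_pos he a
  have hW1 : e ^ (-c1) ≤ e ^ (-(7 / 4 * c1)) :=
    Real.rpow_le_rpow_of_exponent_ge he he1 (by linarith)
  have hcW : 2 * e ^ (-(7 / 4 * c1)) ≤ c / 2 * e ^ (-(2 * c1)) := by
    have h2 : c / 2 * (4 / c * e ^ (-(7 / 4 * c1))) ≤ c / 2 * e ^ (-(2 * c1)) :=
      mul_le_mul_of_nonneg_left g5 (by positivity)
    have h3 : c / 2 * (4 / c * e ^ (-(7 / 4 * c1))) = 2 * e ^ (-(7 / 4 * c1)) := by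
      field_simp
      ring
    rwa [h3] at h2
  have hqW : 2 * e ^ (-(7 / 4 * c1)) ≤ 1 / 4 * e ^ (-(2 * c1)) := by linarith
  refine ⟨he, he4, ?_, ?_, ?_, ?_, g7, g8⟩
  · rw [neg_zero, Real.rpow_zero, mul_one, pow_one] at g1
    have h1 : (lg C0 e : ℝ) ≤ |C0| * Real.logb 2 (1 / e) + 1 := by
      have h2 : lg C0 e ≤ lg |C0| e := by
        unfold H972.lg
        exact Nat.ceil_mono (mul_le_mul_of_nonneg_right (le_abs_self _) (by linarith))
      have h3 : (lg |C0| e : ℝ) ≤ |C0| * Real.logb 2 (1 / e) + 1 :=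
        (Nat.ceil_lt_add_one (by positivity)).le
      exact (Nat.cast_le.2 h2).trans h3
    have h2 : (lg C0 e : ℝ) ≤ e ^ (-(2 * c1)) - 1 := by
      have h3 := abs_nonneg C0
      nlinarith
    have h3 := Nat.lt_floor_add_one (e ^ (-(2 * c1)))
    have h4 : (lg C0 e : ℝ) < ((⌊e ^ (-(2 * c1))⌋₊ : ℕ) : ℝ) := by linarith
    exact h4.le
  · have h1 : Real.exp (-(e ^ (-(th / 40)))) ≤
        Real.exp (-(e ^ (-(7 / 4 * c1)))) * Real.exp (-10) := by
      rw [← Real.exp_add]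
      exact Real.exp_le_exp.2 (by linarith)
    have h2 : Real.exp (-10) ≤ 1 / 1000 := by
      have h5 : Real.exp (-10) = (Real.exp (-1)) ^ 10 := by
        rw [← Real.exp_nat_mul]
        congr 1
        push_cast
        ring
      have h6 := Real.exp_neg_one_lt_d9
      have h7 : (Real.exp (-1)) ^ 10 ≤ (0.3679 : ℝ) ^ 10 :=
        pow_le_pow_left₀ (Real.exp_pos _).le (by linarith) 10
      rw [h5]
      norm_num at h7
      linarith
    have h3 := Real.exp_pos (-(e ^ (-(7 / 4 * c1))))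
    nlinarith
  · rw [div_one] at g4
    have h1 : Real.exp (-(c / 2 * e ^ (-(2 * c1)))) ≤ Real.exp (-(2 * e ^ (-(7 / 4 * c1)))) :=
      Real.exp_le_exp.2 (by linarith)
    have h2 : Real.exp (-(1 / 4 * e ^ (-(2 * c1)))) ≤ Real.exp (-(2 * e ^ (-(7 / 4 * c1)))) :=
      Real.exp_le_exp.2 (by linarith)
    have h3 : (1 : ℝ) ≤ e ^ (-2 : ℝ) := Real.one_le_rpow_of_pos_of_le_one_of_nonpos he he1 (by norm_num)
    have h4 : Real.exp c * Real.exp (-(c / 2 * e ^ (-(2 * c1)))) +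
        24 * e ^ (-2 : ℝ) * Real.exp (-(1 / 4 * e ^ (-(2 * c1)))) ≤
        ((Real.exp c + 24) * e ^ (-2 : ℝ)) * Real.exp (-(2 * e ^ (-(7 / 4 * c1)))) := by
      have a1 := mul_le_mul_of_nonneg_left h1 (Real.exp_pos c).le
      have a2 := mul_le_mul_of_nonneg_left h2 (show 0 ≤ 24 * e ^ (-2 : ℝ) by have := P (-2); positivity)
      have a3 : Real.exp c * Real.exp (-(2 * e ^ (-(7 / 4 * c1)))) ≤
          Real.exp c * e ^ (-2 : ℝ) * Real.exp (-(2 * e ^ (-(7 / 4 * c1)))) := by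
        refine mul_le_mul_of_nonneg_right ?_ (Real.exp_pos _).le
        have := mul_le_mul_of_nonneg_left h3 (Real.exp_pos c).le
        linarith
      calc _ ≤ Real.exp c * e ^ (-2 : ℝ) * Real.exp (-(2 * e ^ (-(7 / 4 * c1)))) +
            24 * e ^ (-2 : ℝ) * Real.exp (-(2 * e ^ (-(7 / 4 * c1)))) := by linarith
        _ = _ := by ring
    have h5 : e ^ (-13 : ℝ) = e ^ (-10 : ℝ) * e ^ (-2 : ℝ) * e ^ (-1 : ℝ) := by
      rw [← Real.rpow_add he, ← Real.rpow_add he]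
      norm_num
    have h6 : Real.exp (e ^ (-c1)) ≤ Real.exp (e ^ (-(7 / 4 * c1))) := Real.exp_le_exp.2 hW1
    have h7 : Real.exp (-(2 * e ^ (-(7 / 4 * c1)))) =
        Real.exp (-(e ^ (-(7 / 4 * c1)))) * Real.exp (-(e ^ (-(7 / 4 * c1)))) := by
      rw [← Real.exp_add]
      congr 1
      ring
    have h8 : Real.exp (e ^ (-(7 / 4 * c1))) * Real.exp (-(e ^ (-(7 / 4 * c1)))) = 1 := by
      rw [← Real.exp_add, add_neg_cancel, Real.exp_zero]
    have P10 := P (-10)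
    have P2 := P (-2)
    have P1 := P (-1)
    have hE := Real.exp_pos (-(e ^ (-(7 / 4 * c1))))
    calc C * e ^ (-10 : ℝ) * (Real.exp c * Real.exp (-(c / 2 * e ^ (-(2 * c1)))) +
          24 * e ^ (-2 : ℝ) * Real.exp (-(1 / 4 * e ^ (-(2 * c1))))) * (2 * e ^ (-1 : ℝ))
        ≤ C * e ^ (-10 : ℝ) * (((Real.exp c + 24) * e ^ (-2 : ℝ)) *
          Real.exp (-(2 * e ^ (-(7 / 4 * c1))))) * (2 * e ^ (-1 : ℝ)) :=
          mul_le_mul_of_nonneg_right (mul_le_mul_of_nonneg_left h4 (by positivity)) (by positivity)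
      _ = 1 / 2 * (4 * C * (Real.exp c + 24) * (e ^ (-10 : ℝ) * e ^ (-2 : ℝ) * e ^ (-1 : ℝ))) *
          (Real.exp (-(e ^ (-(7 / 4 * c1)))) * Real.exp (-(e ^ (-(7 / 4 * c1))))) := by
          rw [h7]
          ring
      _ = 1 / 2 * (4 * C * (Real.exp c + 24) * e ^ (-13 : ℝ)) *
          (Real.exp (-(e ^ (-(7 / 4 * c1)))) * Real.exp (-(e ^ (-(7 / 4 * c1))))) := by rw [h5]
      _ ≤ 1 / 2 * Real.exp (e ^ (-(7 / 4 * c1))) *
          (Real.exp (-(e ^ (-(7 / 4 * c1)))) * Real.exp (-(e ^ (-(7 / 4 * c1))))) :=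
          mul_le_mul_of_nonneg_right (by linarith) (by positivity)
      _ = 1 / 2 * (Real.exp (e ^ (-(7 / 4 * c1))) * Real.exp (-(e ^ (-(7 / 4 * c1))))) *
          Real.exp (-(e ^ (-(7 / 4 * c1)))) := by ring
      _ = _ := by rw [h8, mul_one]
  · rw [div_one] at g9
    have h1 : 24 * e ^ (-2 : ℝ) ≤ Real.exp (1 / 4 * e ^ (-(2 * c1))) := by
      refine g9.trans (Real.exp_le_exp.2 ?_)
      have := P (-(7 / 4 * c1))
      linarith
    have h2 := Real.exp_pos (-(1 / 4 * e ^ (-(2 * c1))))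
    have h3 : Real.exp (1 / 4 * e ^ (-(2 * c1))) * Real.exp (-(1 / 4 * e ^ (-(2 * c1)))) = 1 := by
      rw [← Real.exp_add, add_neg_cancel, Real.exp_zero]
    exact (mul_le_mul_of_nonneg_right h1 h2.le).trans h3.le

/-- the power of two between the cells and the tent -/
lemma two_neg {c1 e : ℝ} {d g s a n : ℕ} (hg : g = ⌊e ^ (-(2 * c1))⌋₊) (hs : s = n - g)
    (hgn : g ≤ n) (han : a ≤ n) (hd : d = n - a) (hd1 : (d : ℝ) ≤ e ^ (-c1)) (h4 : 4 ≤ e ^ (-c1))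
    (he : 0 < e) : s ≤ a ∧
      ((2 : ℝ) ^ s / 2 ^ a) ≤ 2 * Real.exp (-(1 / 4 * e ^ (-(2 * c1)))) := by
  have h1 : (g : ℝ) ≤ e ^ (-(2 * c1)) := by
    rw [hg]
    exact Nat.floor_le (Real.rpow_pos_of_pos he _).le
  have h2 : e ^ (-(2 * c1)) < g + 1 := by
    rw [hg]
    exact Nat.lt_floor_add_one _
  have h3 : e ^ (-(2 * c1)) = e ^ (-c1) * e ^ (-c1) := by
    rw [← Real.rpow_add he]
    congr 1
    ring
  have h5 : (d : ℝ) ≤ 1 / 4 * e ^ (-(2 * c1)) := by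
    rw [h3]
    nlinarith
  have h6 : 16 ≤ e ^ (-(2 * c1)) := by
    rw [h3]
    nlinarith
  have h7 : (d : ℝ) < g := by linarith
  have h8 : d < g := by exact_mod_cast h7
  have hsa : s ≤ a := by omega
  refine ⟨hsa, ?_⟩
  have e1 : (2 : ℝ) ^ a = 2 ^ s * 2 ^ (g - d) := by
    rw [← pow_add]
    congr 1
    omega
  have e2 : (2 : ℝ) ^ s / 2 ^ a = Real.exp (-(Real.log 2 * ((g - d : ℕ) : ℝ))) := by
    have h9 : (2 : ℝ) ^ (g - d) = Real.exp (Real.log 2 * ((g - d : ℕ) : ℝ)) := by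
      rw [mul_comm, Real.exp_nat_mul, Real.exp_log two_pos]
    rw [e1, Real.exp_neg, ← h9]
    have : (0 : ℝ) < 2 ^ s := by positivity
    field_simp
  have h10 : ((g - d : ℕ) : ℝ) = g - d := by
    rw [Nat.cast_sub h8.le]
  have h11 : (2 : ℝ) = Real.exp (Real.log 2) := (Real.exp_log two_pos).symm
  rw [e2, h10]
  have h12 := Real.log_two_gt_d9
  calc Real.exp (-(Real.log 2 * ((g : ℝ) - d)))
      ≤ Real.exp (Real.log 2 + -(1 / 4 * e ^ (-(2 * c1)))) := by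
        refine Real.exp_le_exp.2 ?_
        have h13 : 3 / 4 * e ^ (-(2 * c1)) - 1 ≤ (g : ℝ) - d := by linarith
        have h14 : Real.log 2 * (3 / 4 * e ^ (-(2 * c1)) - 1) ≤ Real.log 2 * ((g : ℝ) - d) :=
          mul_le_mul_of_nonneg_left h13 (by linarith)
        nlinarith
    _ = _ := by rw [Real.exp_add, Real.exp_log two_pos]

end

end Vale.Agent.P159.H270.Ce
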