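import Vale.Agent.P159.H270.Ce1

/-!
P159 (helper270), **typical sources through a site map along the flow** (`hε`, `hδ` of CUT), part 2:
the state form `MapP`, `ev_map`.
-/

set_option linter.unusedSectionVars false

namespace Vale.Agent.P159.H270.Ce

open Finset Matrix Filter Topology MeasureTheory
open Vale.Agent.P159.H37 (qf)
open Vale.Agent.P159.TM.Spec (V)
open Vale.Agent.P159.H972 (Par lg tn one_le_logb FL Good)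
open Vale.Agent.P159.H789 (lvS SMF map_typF lvS_pos)
open Vale.Agent.P159.H801 (Ev)
open Vale.Agent.P159.H447 (nuS)
open Vale.Agent.P159.H963.Core (RF)
open Vale.Agent.P159.H663.Dr (tT)
open Vale.Agent.P159.H816 (sF sF_g sF_le sF_pow ev_numc ev_M ev_smt SmP tn_pos tn_mul four_pow' tn_N2
  four_t rpow_pow')

noncomputable section

/-- **typical sources through a site map behind the tent, every state** -/
def MapP (P : Par) (b c1 δ : ℝ) : Prop :=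
  ∀ (n : ℕ) (e : ℝ), 0 < e → e ≤ P.es → Good P b n e → 2 * e ^ (-(2 * c1)) ≤ n →
    ∀ a0 : ℝ, 1 ≤ a0 → a0 ≤ 8 / 5 → ∀ r, P.TT n e r → FL b (tn n) a0 (17 * e ^ P.pf) (2 ^ r) →
    ∀ a : ℕ, a ≤ n → ((n - a : ℕ) : ℝ) ≤ e ^ (-c1) →
    ∀ (f f₁ f₂ : (V (2 ^ r) → ℝ) → V (2 ^ r) → ℝ) (k₀ k₂ kI z : ℝ) (j k : ℕ),
      SMF (2 ^ r) k₀ k₂ kI f f₁ f₂ → 0 ≤ k₀ → 0 ≤ k₂ → k₂ ≤ k₀ * tn n → 1 ≤ kI →
      kI ≤ e ^ (-1 : ℝ) → 1 ≤ z → z ≤ e ^ (-1 : ℝ) → (2 : ℝ) ^ (j + k) ≤ e ^ (-(P.th / 16)) →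
      2 * z * √(2 * (5 + k₀ * (2 + 4 * 3 + max 1 (b * 3)))) ≤ 2 ^ j →
    (nuS (2 ^ r) b (tn n)).real {F | 2 * lvS (e ^ (1 - δ)) j k <
        RF (2 ^ r) b (tn n) (z • f (tT (2 ^ r) (2 ^ a) F))} ≤ Real.exp (-(e ^ (-(7 / 4 * c1))))

/-- the arithmetic of the bound -/
lemma map_num {C c th C0 c1 e T4 δ' z kI L p p' X : ℝ} (hC : 0 < C)
    (h : MapN C c th C0 c1 e) (hT4 : T4 ^ 4 ≤ e ^ (-1 : ℝ)) (hz : 1 ≤ z)
    (hz1 : z ≤ e ^ (-1 : ℝ)) (hkI : 1 ≤ kI) (hkI1 : kI ≤ e ^ (-1 : ℝ))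
    (hX0 : 0 ≤ X) (hX : X ≤ Real.exp c * Real.exp (-(c / 2 * e ^ (-(2 * c1)))))
    (hδ0 : 0 ≤ δ') (hδ : z * δ' ≤ 24 * e ^ (-2 : ℝ) * Real.exp (-(1 / 4 * e ^ (-(2 * c1)))))
    (hL : 0 < L) (hL1 : 1 / L ≤ e ^ (-1 : ℝ))
    (hp : p + p' ≤ 2 * Real.exp (-(e ^ (-(th / 40))))) :
    68 * (p + p') + C * (T4 ^ 4 * (z ^ 2 * kI) ^ 3) * (X + z * δ') * (1 + 1 / L) ≤
      Real.exp (-(e ^ (-(7 / 4 * c1)))) := by
  have he := h.e0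
  have he1 : e ≤ 1 := by linarith [h.e1]
  have P : ∀ a : ℝ, 0 < e ^ a := fun a => Real.rpow_pos_of_pos he a
  have P1 := P (-1)
  have P2 := P (-2)
  have P10 := P (-10)
  have h1 : (z ^ 2 * kI) ^ 3 ≤ e ^ (-9 : ℝ) := by
    have h2 : z ^ 2 * kI ≤ e ^ (-3 : ℝ) := by
      have h3 : z ^ 2 ≤ (e ^ (-1 : ℝ)) ^ 2 := pow_le_pow_left₀ (by linarith) hz1 2
      have h4 : z ^ 2 * kI ≤ (e ^ (-1 : ℝ)) ^ 2 * e ^ (-1 : ℝ) :=
        mul_le_mul h3 hkI1 (by linarith) (by positivity)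
      refine h4.trans (le_of_eq ?_)
      rw [rpow_pow' he, ← Real.rpow_add he]
      norm_num
    have h5 := pow_le_pow_left₀ (by positivity) h2 3
    refine h5.trans (le_of_eq ?_)
    rw [rpow_pow' he]
    norm_num
  have h2 : T4 ^ 4 * (z ^ 2 * kI) ^ 3 ≤ e ^ (-10 : ℝ) := by
    have h3 : T4 ^ 4 * (z ^ 2 * kI) ^ 3 ≤ e ^ (-1 : ℝ) * e ^ (-9 : ℝ) :=
      mul_le_mul hT4 h1 (by positivity) P1.le
    refine h3.trans (le_of_eq ?_)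
    rw [← Real.rpow_add he]
    norm_num
  have h3 : 1 + 1 / L ≤ 2 * e ^ (-1 : ℝ) := by
    have : (1 : ℝ) ≤ e ^ (-1 : ℝ) := Real.one_le_rpow_of_pos_of_le_one_of_nonpos he he1 (by norm_num)
    linarith
  have h0 : 0 ≤ 1 + 1 / L := by positivity
  have h4 : C * (T4 ^ 4 * (z ^ 2 * kI) ^ 3) * (X + z * δ') * (1 + 1 / L) ≤
      C * e ^ (-10 : ℝ) * (Real.exp c * Real.exp (-(c / 2 * e ^ (-(2 * c1)))) +
        24 * e ^ (-2 : ℝ) * Real.exp (-(1 / 4 * e ^ (-(2 * c1))))) * (2 * e ^ (-1 : ℝ)) := by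
    refine mul_le_mul (mul_le_mul (mul_le_mul_of_nonneg_left h2 hC.le) (add_le_add hX hδ)
      (by positivity) (by positivity)) h3 h0 ?_
    have := Real.exp_pos c
    have := Real.exp_pos (-(c / 2 * e ^ (-(2 * c1))))
    have := Real.exp_pos (-(1 / 4 * e ^ (-(2 * c1))))
    positivity
  have h5 := h.s3
  have h6 := h.s2
  linarith

/-- the mass of the torus -/
lemma mass_num {e x1 : ℝ} {m : ℕ} (he : 0 < e) (he1 : e ≤ 1) (hx : 48 * x1 ≤ 1)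
    (hM1 : (2 : ℝ) ^ m ≤ e ^ (-(6 * x1))) : (((2 : ℝ) ^ m) ^ 2) ^ 4 ≤ e ^ (-1 : ℝ) := by
  have h2 := pow_le_pow_left₀ (by positivity) hM1 8
  calc (((2 : ℝ) ^ m) ^ 2) ^ 4 = ((2 : ℝ) ^ m) ^ 8 := by rw [← pow_mul]
    _ ≤ (e ^ (-(6 * x1))) ^ 8 := h2
    _ = e ^ (-(48 * x1)) := by
      rw [rpow_pow' he]
      congr 1
      push_cast
      ring
    _ ≤ e ^ (-1 : ℝ) := Real.rpow_le_rpow_of_exponent_ge he he1 (by linarith)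

/-- the level is not too small -/
lemma lvS_lo {e δ : ℝ} {j k : ℕ} (he : 0 < e) (he1 : e ≤ 1) (hδ : 0 ≤ δ) :
    e ≤ lvS (e ^ (1 - δ)) j k := by
  unfold H789.lvS
  have hk0 : 0 ≤ (1 / 2 : ℝ) ^ k := by positivity
  have hk1 : (1 / 2 : ℝ) ^ k ≤ 1 := pow_le_one₀ (by norm_num) (by norm_num)
  have hexp : (1 - δ) * (1 - (1 / 2 : ℝ) ^ k) ≤ 1 := by
    have h5 : (1 - δ) * (1 - (1 / 2 : ℝ) ^ k) ≤ 1 * 1 :=
      mul_le_mul (by linarith) (by linarith) (by linarith) (by norm_num)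
    linarith
  have h3 : e ≤ (e ^ (1 - δ)) ^ (1 - (1 / 2 : ℝ) ^ k) := by
    rw [← Real.rpow_mul he.le]
    calc e = e ^ (1 : ℝ) := (Real.rpow_one e).symm
      _ ≤ _ := Real.rpow_le_rpow_of_exponent_ge he he1 hexp
  have h4 : (1 : ℝ) ≤ 576 * 16 ^ j := by
    have : (1 : ℝ) ≤ 16 ^ j := one_le_pow₀ (by norm_num)
    linarith
  have h5 : 0 ≤ (e ^ (1 - δ)) ^ (1 - (1 / 2 : ℝ) ^ k) := he.le.trans h3
  calc e ≤ 1 * (e ^ (1 - δ)) ^ (1 - (1 / 2 : ℝ) ^ k) := by linarith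
    _ ≤ _ := mul_le_mul_of_nonneg_right h4 h5

/-- the tent and the cells -/
lemma dlt_num {e z x : ℝ} {s a : ℕ} (he : 0 < e) (hz1 : z ≤ e ^ (-1 : ℝ))
    (hcell : (2 : ℝ) ^ s / 2 ^ a ≤ 2 * Real.exp (-(1 / 4 * x))) :
    z * (12 * e ^ (-1 : ℝ) * ((2 : ℝ) ^ s / 2 ^ a)) ≤
      24 * e ^ (-2 : ℝ) * Real.exp (-(1 / 4 * x)) := by
  have P1 : 0 < e ^ (-1 : ℝ) := Real.rpow_pos_of_pos he _
  have h2 : z * (12 * e ^ (-1 : ℝ) * ((2 : ℝ) ^ s / 2 ^ a)) ≤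
      e ^ (-1 : ℝ) * (12 * e ^ (-1 : ℝ) * (2 * Real.exp (-(1 / 4 * x)))) :=
    mul_le_mul hz1 (mul_le_mul_of_nonneg_left hcell (by positivity)) (by positivity) P1.le
  have h3 : e ^ (-2 : ℝ) = e ^ (-1 : ℝ) * e ^ (-1 : ℝ) := by
    rw [← Real.rpow_add he]
    norm_num
  rw [h3]
  refine h2.trans (le_of_eq ?_)
  ring

lemma dlt_num2 {e kI : ℝ} {s a : ℕ} (hkI1 : kI ≤ e ^ (-1 : ℝ)) (h11 : (1 : ℝ) ≤ e ^ (-1 : ℝ)) :
    128 * kI * ((2 : ℝ) ^ s / ((2 ^ a : ℕ) : ℝ)) ^ 2 ≤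
      (12 * e ^ (-1 : ℝ) * ((2 : ℝ) ^ s / 2 ^ a)) ^ 2 := by
  push_cast
  rw [mul_pow, mul_pow]
  refine mul_le_mul_of_nonneg_right ?_ (sq_nonneg _)
  have h1 : e ^ (-1 : ℝ) ≤ (e ^ (-1 : ℝ)) ^ 2 := by
    rw [pow_two]
    exact le_mul_of_one_le_left (by linarith) h11
  linarith

theorem ev_map {b b1 b2 pf : ℝ} (hb1 : 0 < b1) (h1 : b1 ≤ b) (hpf : 0 < pf) (Q : ℕ) {δ : ℝ}
    (hδ : 0 < δ) (hδ1 : δ ≤ 1) : Ev b1 b2 pf Q fun P c1 => MapP P b c1 δ := by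
  have hb : 0 < b := hb1.trans_le h1
  obtain ⟨C, c, hC, hc, hc1, H⟩ := map_typF hb
  refine (((ev_smt (b2 := b2) hb1 h1 hpf Q hδ hδ1).and
    (ev_M (b1 := b1) (b2 := b2) (pf := pf) Q)).and
    (ev_numc (b1 := b1) (b2 := b2) (pf := pf) Q
      (F := fun P c1 e => MapN C c P.th P.C0 c1 e ∧ P.x1 ≤ 1 / 48 ∧ P.th ≤ 1)
      (x0 := 1 / 48) (k := 1 / 100) 1 (by norm_num) (by norm_num)
      fun x1 thp th C0 c1 hth htt htx hx hC0 hc1 hk => by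
        filter_upwards [mapN_ev (C := C) (C0 := C0) hC hc hth hc1 hk] with e g
        intro P e1 e2 e3 e4 e5
        rw [e1, e3, e4]
        exact ⟨g, hx, by linarith⟩)).mono fun P c1 hadm hT => ?_
  obtain ⟨⟨hT, hM⟩, hc10, hc1k, hN⟩ := hT
  intro n e he hes hG hn a0 ha1 ha2 r hr F0 a han hna f f₁ f₂ k₀ k₂ kI z j k hf hk₀ hk₂ hk2t hkI
    hkI1 hz hz1 hjk hzk
  obtain ⟨hMN, hx, hth1⟩ := hN e he hes
  have he4 := hMN.e1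
  obtain ⟨hM1, -⟩ := hM n e r he hes hr
  have he1 : e ≤ 1 := by linarith
  have P' : ∀ a : ℝ, 0 < e ^ a := fun a => Real.rpow_pos_of_pos he a
  have hth := P.th0
  obtain ⟨g, hg⟩ : ∃ g : ℕ, g = ⌊e ^ (-(2 * c1))⌋₊ := ⟨_, rfl⟩
  have hgn : g ≤ n := by
    have := sF_g he hn
    omega
  obtain ⟨s, hs⟩ : ∃ s : ℕ, s = sF c1 n e := ⟨_, rfl⟩
  have hsg : s = n - g := by
    rw [hs, hg]
    rfl
  have hsn : s ≤ n := by omega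
  obtain ⟨hsa, hcell⟩ := two_neg hg hsg hgn han rfl hna hMN.s5 he
  have hnr : n + 3 ≤ r := by
    have h6 : 3 ≤ P.kE e := hadm.hk.trans (H972.lg_anti P.th0.le he hes)
    have := hr.1
    omega
  have ht0 := tn_pos n
  have hne : NeZero (2 ^ r / 2 ^ s) := ⟨by
    rw [Nat.pow_div (by omega) two_pos]
    positivity⟩
  have htn1 : tn n * ((2 : ℝ) ^ n) ^ 2 = 1 := by rw [four_pow', tn_mul]
  have hts : tn n * ((2 : ℝ) ^ s) ^ 2 ≤ 1 := by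
    refine le_trans (mul_le_mul_of_nonneg_left ?_ ht0.le) htn1.le
    exact pow_le_pow_left₀ (by positivity) (pow_le_pow_right₀ one_le_two hsn) 2
  have htN2 := tn_N2 (n := n) (r := r) (by omega)
  have htN : 9 ≤ tn n * (((2 ^ r : ℕ)) : ℝ) ^ 2 := by
    have h2 : (2 : ℝ) ^ 3 ≤ 2 ^ (r - n) := pow_le_pow_right₀ one_le_two (by omega)
    have h3 := pow_le_pow_left₀ (by positivity) h2 2
    rw [htN2]
    norm_num at h3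
    linarith
  have hρ : 0 < e ^ (1 - δ) := P' _
  subst hs
  obtain ⟨_, htyp, hY, hρ1, hpp, _, hP⟩ := hT n e he hes hG hn a0 ha1 ha2 r hr F0 j k hjk
  have hE1 := Real.exp_pos (-(e ^ (-(P.th / 16))))
  have hE2 := Real.exp_pos (-(e ^ (-(P.th / 40))))
  have hcell0 : (0 : ℝ) < (2 : ℝ) ^ sF c1 n e / 2 ^ a := by positivity
  have P1 := P' (-1)
  have hδ'0 : 0 < 12 * e ^ (-1 : ℝ) * ((2 : ℝ) ^ sF c1 n e / 2 ^ a) := by positivity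
  have h11 : (1 : ℝ) ≤ e ^ (-1 : ℝ) := hz.trans hz1
  have hzδ : z * (12 * e ^ (-1 : ℝ) * ((2 : ℝ) ^ sF c1 n e / 2 ^ a)) ≤
      24 * e ^ (-2 : ℝ) * Real.exp (-(1 / 4 * e ^ (-(2 * c1)))) := dlt_num he hz1 hcell
  have hδ2 : 128 * kI * ((2 : ℝ) ^ sF c1 n e / ((2 ^ a : ℕ) : ℝ)) ^ 2 ≤
      (12 * e ^ (-1 : ℝ) * ((2 : ℝ) ^ sF c1 n e / 2 ^ a)) ^ 2 := dlt_num2 hkI1 h11
  have key := H (2 ^ r) (sF c1 n e) n (2 ^ a) (pow_dvd_pow 2 (by omega)) (pow_dvd_pow 2 (by omega))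
    (by positivity) (pow_dvd_pow 2 hsa) (tn n) ht0 hts htn1.le (four_t n) htN f f₁ f₂ k₀ k₂ kI
    (12 * e ^ (-1 : ℝ) * ((2 : ℝ) ^ sF c1 n e / 2 ^ a)) hf hk₀ hk₂ hk2t hkI hδ'0 hδ2
    (e ^ (-(P.th / 16))) (e ^ (1 - δ)) (Real.exp (-(e ^ (-(P.th / 16)))))
    (Real.exp (-(e ^ (-(P.th / 40))))) 3 z j k hY hρ hρ1 (by linarith) (by linarith) (by norm_num)
    hP hz (hzδ.trans hMN.s4) hzk htyp
  refine key.trans (map_num hC hMN (T4 := tn n * (((2 ^ r : ℕ)) : ℝ) ^ 2) ?_ hz hz1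
    hkI hkI1 (Real.rpow_nonneg (by positivity) _) (sF_pow hc he hn) hδ'0.le hzδ (lvS_pos hρ j k)
    ?_ ?_)
  · rw [htN2]
    exact mass_num he he1 (by linarith) hM1
  · rw [Real.rpow_neg_one, ← one_div]
    exact one_div_le_one_div_of_le he (lvS_lo he he1 hδ.le)
  · have h2 : Real.exp (-(e ^ (-(P.th / 16)))) ≤ Real.exp (-(e ^ (-(P.th / 40)))) := by
      refine Real.exp_le_exp.2 (neg_le_neg ?_)
      exact Real.rpow_le_rpow_of_exponent_ge he he1 (by linarith)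
    linarith

end

end Vale.Agent.P159.H270.Ce
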