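import Vale.Agent.P159.H270.Ce2

/-!
P159 (helper270), **typical sources through a site map along the flow** (`hε`, `hδ` of CUT), part 3:
the tori of the window.

* `MapAt` : one torus, every map of helper789's class `SMF` behind the tent of side `2 ^ a`;
* `sf_map`, `map_flow` : along the flow, `Ev` form.
-/

set_option linter.unusedSectionVars false

namespace Vale.Agent.P159.H270.Ce

open Finset Matrix Filter Topology MeasureTheory
open Vale.Agent.P159.TM.Spec (V)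
open Vale.Agent.P159.H972 (Par lg tn FL Good)
open Vale.Agent.P159.H789 (lvS SMF)
open Vale.Agent.P159.H801 (Ev SFlow)
open Vale.Agent.P159.H447 (nuS)
open Vale.Agent.P159.H963.Core (RF)
open Vale.Agent.P159.H663.Dr (tT)
open Vale.Agent.P159.H37.Sf (kf sf_TT sf_eps sf_big sf_ny)
open Vale.Agent.P159.H773 (sd)
open Vale.Agent.P159.H816 (tn_pos sf_n2 two_lg lvl_num ev_c1 ev_num)

noncomputable section

/-- typical sources through the maps of the split class behind a tent, one torus -/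
def MapAt (b t L p K kM Zm : ℝ) (n : ℕ) (d : ℝ) (N : ℕ) [NeZero N] : Prop :=
  ∀ a : ℕ, a ≤ n → ((n - a : ℕ) : ℝ) ≤ d →
    ∀ (f f₁ f₂ : (V N → ℝ) → V N → ℝ) (k₀ k₂ kI z : ℝ), SMF N k₀ k₂ kI f f₁ f₂ →
      0 ≤ k₀ → k₀ ≤ K → 0 ≤ k₂ → k₂ ≤ k₀ * t → 1 ≤ kI → kI ≤ kM → |z| ≤ Zm →
    (nuS N b t).real {F | L < RF N b t (z • f (tT N (2 ^ a) F))} ≤ p

lemma MapAt.cast {b t L p K kM Zm d : ℝ} {n N M : ℕ} [NeZero N] [NeZero M] (h : N = M)
    (H : MapAt b t L p K kM Zm n d N) : MapAt b t L p K kM Zm n d M := by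
  subst h
  exact H

/-- amplitudes -/
lemma RF_ray {N : ℕ} [NeZero N] {b t z Y : ℝ} (hb : 0 < b) (ht : 0 < t) (h : |z| ≤ Y)
    (G : V N → ℝ) : RF N b t (z • G) ≤ RF N b t (Y • G) := by
  rw [H447.RF_src, H447.RF_src, H447.src_smul, H447.src_smul]
  have h5 : H37.Rs (H963.nwt N b t 0) (z • H447.src N t G) =
      H37.Rs (H963.nwt N b t 0) (|z| • H447.src N t G) := by
    rcases abs_cases z with ⟨h6, -⟩ | ⟨h6, -⟩
    · rw [h6]
    · rw [h6, neg_smul]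
      exact (H789.Rs_neg ((H963.gw_wT hb.le).ev_nM
        (t • (1 : Matrix (V N) (V N) ℝ)) t 0) _).symm
  rw [h5]
  exact H239.rs_ray hb.le ht _ (abs_nonneg z) h

/-- the amplitude -/
lemma amp_num {y th b z Zm k₀ J : ℝ} (hy : 0 < y) (hz : 1 ≤ z) (hzm : z ≤ Zm)
    (hk1 : k₀ ≤ y ^ (-(th / 16))) (h1 : 1 ≤ y ^ (-(th / 16)))
    (hJ : y ^ (-(th / 16)) ≤ J)
    (hbig : 2 * Zm * √(2 * (5 + (2 + 4 * 3 + max 1 (b * 3)))) ≤ y ^ (-(th / 32))) :
    2 * z * √(2 * (5 + k₀ * (2 + 4 * 3 + max 1 (b * 3)))) ≤ J := by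
  have hm : (1 : ℝ) ≤ max 1 (b * 3) := le_max_left _ _
  have e1 : y ^ (-(th / 16)) = y ^ (-(th / 32)) * y ^ (-(th / 32)) := by
    rw [← Real.rpow_add hy]
    congr 1
    ring
  have h32 : 0 < y ^ (-(th / 32)) := Real.rpow_pos_of_pos hy _
  have h2 : 2 * (5 + k₀ * (2 + 4 * 3 + max 1 (b * 3))) ≤
      (2 * (5 + (2 + 4 * 3 + max 1 (b * 3)))) * (y ^ (-(th / 32))) ^ 2 := by
    rw [pow_two, ← e1]
    have h3 : k₀ * (2 + 4 * 3 + max 1 (b * 3)) ≤ y ^ (-(th / 16)) * (2 + 4 * 3 + max 1 (b * 3)) :=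
      mul_le_mul_of_nonneg_right hk1 (by linarith)
    linarith
  have h3 : √(2 * (5 + k₀ * (2 + 4 * 3 + max 1 (b * 3)))) ≤
      √(2 * (5 + (2 + 4 * 3 + max 1 (b * 3)))) * y ^ (-(th / 32)) := by
    refine (Real.sqrt_le_sqrt h2).trans (le_of_eq ?_)
    rw [Real.sqrt_mul (by linarith), Real.sqrt_sq h32.le]
  have h4 := Real.sqrt_nonneg (2 * (5 + (2 + 4 * 3 + max 1 (b * 3))))
  calc 2 * z * √(2 * (5 + k₀ * (2 + 4 * 3 + max 1 (b * 3))))
      ≤ 2 * Zm * (√(2 * (5 + (2 + 4 * 3 + max 1 (b * 3)))) * y ^ (-(th / 32))) :=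
        mul_le_mul (by linarith) h3 (Real.sqrt_nonneg _) (by linarith)
    _ = (2 * Zm * √(2 * (5 + (2 + 4 * 3 + max 1 (b * 3))))) * y ^ (-(th / 32)) := by ring
    _ ≤ y ^ (-(th / 32)) * y ^ (-(th / 32)) := mul_le_mul_of_nonneg_right hbig h32.le
    _ ≤ J := by rw [← e1]; exact hJ

section flow

variable {P : Par} {b σ c c1 q2 qx : ℝ} {a y ε xs : ℕ → ℝ} {c' r q A : ℝ} {N : ℕ}

theorem sf_map {δ' δ : ℝ} {k : ℕ} (hS : MapP P b c1 δ')
    (h : SFlow P b σ c c1 q2 qx a y ε xs c' r q A N) (hA : P.Adm) (hb : 0 < b)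
    (hσ0 : 0 ≤ σ) (hσ : σ ≤ 1 / 4) (hc1 : 0 < c1) (hc18 : c1 ≤ 1 / 8) {ck : ℝ} (hck : 0 < ck)
    (hck1 : ck ≤ P.thp) (hck2 : 2 * P.th ≤ ck) {i : ℕ} (hi : 1 ≤ i) {c3 : ℝ}
    (hc3 : c3 < 2 * c1) (κ : ℝ) (hδ' : 0 < δ') (hδ'1 : δ' ≤ 1 / 2) (hk : (1 / 2 : ℝ) ^ k ≤ δ')
    (hδ : 4 * δ' + P.th / 4 < δ / 2) (hδ0 : 0 < δ) (Zm : ℝ) :
    ∀ᶠ n in atTop, ∀ R, 2 ^ (n + kf ck y n) ≤ R →
      R ≤ 2 ^ (n + P.w (ε n) + kf ck y (n + P.w (ε n))) →
      MapAt b (tn n) (y n ^ (2 - 3 * σ - δ)) (Real.exp (-(κ * y n ^ (-c3))))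
        (y n ^ (-(P.th / 16))) (y n ^ (-1 : ℝ)) Zm n (y n ^ (-c1) + 1) (sd i R) := by
  have hth := P.th0
  have hπ := Real.pi_gt_d2
  have hπ4 := Real.pi_lt_d2
  have hg := h.lim.eventually (lt_mem_nhds (show (1 : ℝ) < Real.pi / 2 by linarith))
  have hg2 := h.lim.eventually (gt_mem_nhds (show Real.pi / 2 < 8 / 5 by linarith))
  filter_upwards [sf_TT h hA hσ0 hσ hck hck1 hck2 hi, sf_n2 h hσ0 hc1 hc18, hg, hg2,
    sf_big h (p := P.th / 64) (M := 2 * 2 ^ k) (by positivity) (by positivity),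
    h.fl.ev_pow (b := δ / 2 - (4 * δ' + P.th / 4)) (e := 1 / (576 * 16)) (by linarith) (by norm_num),
    sf_big h (p := 2 * c1 - c3) (M := |κ| + 2) (by linarith) (by positivity),
    sf_big h (p := δ / 2) (M := 2) (by positivity) two_pos,
    sf_big h (p := c1 / 4) (M := 2) (by positivity) two_pos,
    sf_big h (p := P.th / 32) (M := |2 * (|Zm| + 1) * √(2 * (5 + (2 + 4 * 3 + max 1 (b * 3))))| + 1)
      (by positivity) (by positivity),
    sf_big h (p := 1) (M := |Zm| + 1) one_pos (by positivity),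
    eventually_ge_atTop N] with n gT gn ga1 ga2 g1 g2 g3 g4 g5 g6 g7 hn
  have hy := h.fl.y0 n
  have hy1 := h.y1 n hn
  have hε := sf_eps h hn
  have hes := h.es n hn
  have Py : ∀ a : ℝ, 0 < y n ^ a := fun a => Real.rpow_pos_of_pos hy a
  have hup0 : ε n ≤ y n ^ (2 - 3 * σ) := h.up n hn
  have hup : ε n ≤ y n ^ (5 / 4 : ℝ) :=
    hup0.trans (Real.rpow_le_rpow_of_exponent_ge hy hy1 (by linarith))
  have hεy : ε n ≤ y n := by
    refine hup.trans ?_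
    calc y n ^ (5 / 4 : ℝ) ≤ y n ^ (1 : ℝ) :=
          Real.rpow_le_rpow_of_exponent_ge hy hy1 (by norm_num)
      _ = y n := Real.rpow_one _
  intro R h1 h2
  have e0 : 2 ^ (i + Nat.clog 2 R) = sd i R := by
    unfold H773.sd
    rw [pow_add]
  refine MapAt.cast e0 ?_
  have hTT := gT R h1 h2
  obtain ⟨j, hj⟩ : ∃ j, j = lg (P.th / 16) (y n) := ⟨_, rfl⟩
  have hj1 : y n ^ (-(P.th / 16)) ≤ 2 ^ j := hj ▸ H37.Sf.rpow_le_two_pow hy
  have hj2 : (2 : ℝ) ^ j ≤ 2 * y n ^ (-(P.th / 16)) := hj ▸ two_lg hy hy1 (by positivity)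
  have hY : (2 : ℝ) ^ (j + k) ≤ ε n ^ (-(P.th / 16)) := by
    have h3 : y n ^ (-(P.th / 16) + -(P.th / 64)) ≤ ε n ^ (-(P.th / 16)) := by
      have h4 := Real.rpow_le_rpow_of_nonpos hε hup (by linarith : -(P.th / 16) ≤ 0)
      rw [← Real.rpow_mul hy.le] at h4
      refine le_trans (le_of_eq ?_) h4
      congr 1
      ring
    rw [Real.rpow_add hy] at h3
    rw [pow_add]
    have h5 := Py (-(P.th / 16))
    have h6 : (0 : ℝ) < 2 ^ k := by positivity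
    have h7 : (2 : ℝ) ^ j * 2 ^ k ≤ 2 * y n ^ (-(P.th / 16)) * 2 ^ k :=
      mul_le_mul_of_nonneg_right hj2 h6.le
    have h8 := mul_le_mul_of_nonneg_left g1 h5.le
    linarith
  have hy16 : 1 ≤ y n ^ (-(P.th / 16)) :=
    Real.one_le_rpow_of_pos_of_le_one_of_nonpos hy hy1 (by linarith)
  intro a' ha hna f f₁ f₂ k₀ k₂ kI z hf hk₀ hkK hk₂ hk2t hkI hkM hzZ
  obtain ⟨z', hz'⟩ : ∃ z', z' = max |z| 1 := ⟨_, rfl⟩
  have hz : 1 ≤ z' := hz' ▸ le_max_right _ _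
  have hzz : |z| ≤ z' := hz' ▸ le_max_left _ _
  have hzm : z' ≤ |Zm| + 1 := by
    rw [hz']
    exact max_le (by linarith [le_abs_self Zm]) (by linarith [abs_nonneg Zm])
  have hεinv : y n ^ (-1 : ℝ) ≤ ε n ^ (-1 : ℝ) :=
    Real.rpow_le_rpow_of_nonpos hε hεy (by norm_num)
  have hna' : ((n - a' : ℕ) : ℝ) ≤ ε n ^ (-c1) := by
    have h3 : y n ^ (-(5 / 4 * c1)) ≤ ε n ^ (-c1) := by
      have h4 := Real.rpow_le_rpow_of_nonpos hε hup (by linarith : -c1 ≤ 0)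
      rw [← Real.rpow_mul hy.le] at h4
      refine le_trans (le_of_eq ?_) h4
      congr 1
      ring
    have h5 : y n ^ (-(5 / 4 * c1)) = y n ^ (-(c1 / 4)) * y n ^ (-c1) := by
      rw [← Real.rpow_add hy]
      congr 1
      ring
    have h6 : 1 ≤ y n ^ (-c1) := Real.one_le_rpow_of_pos_of_le_one_of_nonpos hy hy1 (by linarith)
    have h7 : 2 * y n ^ (-c1) ≤ y n ^ (-(c1 / 4)) * y n ^ (-c1) :=
      mul_le_mul_of_nonneg_right g5 (by linarith)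
    linarith
  have key := hS n (ε n) hε hes (h.good n hn) gn (a n) ga1.le ga2.le _ hTT
    (h.flc n (ε n) hε hes (h.good n hn) (ε n) le_rfl hes _ hTT) a' ha hna' f f₁ f₂ k₀ k₂ kI z' j k
    hf hk₀ hk₂ hk2t hkI (hkM.trans hεinv) hz (hzm.trans (g7.trans hεinv)) hY
    (amp_num hy hz hzm hkK hy16 hj1
      ((le_abs_self _).trans ((le_add_of_nonneg_right zero_le_one).trans g6)))
  have hpr := H447.prob_nuS (N := 2 ^ (i + Nat.clog 2 R)) hb (tn_pos n)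
  refine (measureReal_mono fun F hF => ?_).trans (key.trans (Real.exp_le_exp.2 (neg_le_neg ?_)))
  · -- the level
    have hl := lvl_num (δ := δ / 2) (th := P.th) hy hy1 hε hup0 hσ0 hσ hδ' hδ'1 hk hj2 g2
    have h3 : y n ^ (2 - 3 * σ - δ / 2) = y n ^ (2 - 3 * σ - δ) * y n ^ (δ / 2) := by
      rw [← Real.rpow_add hy]
      congr 1
      ring
    have h4 : 2 * y n ^ (δ / 2) ≤ 1 := by
      have h5 := mul_le_mul_of_nonneg_right g4 (Py (δ / 2)).le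
      have h6 : y n ^ (-(δ / 2)) * y n ^ (δ / 2) = 1 := by
        rw [← Real.rpow_add hy, neg_add_cancel, Real.rpow_zero]
      linarith
    have h7 : 2 * lvS (ε n ^ (1 - δ')) j k ≤ y n ^ (2 - 3 * σ - δ) := by
      have h8 := mul_le_mul_of_nonneg_left h4 (Py (2 - 3 * σ - δ)).le
      rw [h3] at hl
      linarith
    have hF' : y n ^ (2 - 3 * σ - δ) <
      RF (2 ^ (i + Nat.clog 2 R)) b (tn n) (z • f (tT (2 ^ (i + Nat.clog 2 R)) (2 ^ a') F)) := hF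
    exact lt_of_le_of_lt h7 (hF'.trans_le (RF_ray hb (tn_pos n) hzz _))
  · have h4 := Real.rpow_le_rpow_of_nonpos hε hup (by linarith : -(7 / 4 * c1) ≤ 0)
    rw [← Real.rpow_mul hy.le] at h4
    have h5 : y n ^ (-(2 * c1)) ≤ y n ^ (5 / 4 * -(7 / 4 * c1)) :=
      Real.rpow_le_rpow_of_exponent_ge hy hy1 (by linarith)
    have h6 : y n ^ (-(2 * c1)) = y n ^ (-(2 * c1 - c3)) * y n ^ (-c3) := by
      rw [← Real.rpow_add hy]
      congr 1
      ring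
    have h7 : 0 < y n ^ (-c3) := Real.rpow_pos_of_pos hy _
    have h8 : κ * y n ^ (-c3) ≤ y n ^ (-(2 * c1 - c3)) * y n ^ (-c3) :=
      mul_le_mul_of_nonneg_right (by linarith [le_abs_self κ]) h7.le
    linarith

end flow

/-- **typical sources through the maps of the split class behind the tent, along the flow** -/
theorem map_flow {b b1 b2 pf : ℝ} (hb1 : 0 < b1) (h1 : b1 ≤ b) (hpf : 0 < pf) (Q : ℕ) {δ : ℝ}
    (hδ : 0 < δ) (hδ1 : δ ≤ 1) :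
    Ev b1 b2 pf Q fun P c1 => 0 < c1 ∧ c1 ≤ P.th / 100 ∧
      ∀ {σ c q2 qx : ℝ} {a y ε xs : ℕ → ℝ} {c' r q A : ℝ} {N : ℕ},
      SFlow P b σ c c1 q2 qx a y ε xs c' r q A N → 0 ≤ σ → σ ≤ 1 / 4 →
      ∀ ck : ℝ, 0 < ck → 2 * P.th ≤ ck → ck ≤ P.thp → ∀ i : ℕ, 1 ≤ i → ∀ c3 : ℝ, c3 < 2 * c1 →
      ∀ κ Zm : ℝ, ∀ᶠ n in atTop, ∀ R, 2 ^ (n + kf ck y n) ≤ R →
        R ≤ 2 ^ (n + P.w (ε n) + kf ck y (n + P.w (ε n))) →
        MapAt b (tn n) (y n ^ (2 - 3 * σ - δ)) (Real.exp (-(κ * y n ^ (-c3))))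
          (y n ^ (-(P.th / 16))) (y n ^ (-1 : ℝ)) Zm n (y n ^ (-c1) + 1) (sd i R) := by
  have hb : 0 < b := hb1.trans_le h1
  obtain ⟨k, hk⟩ := exists_pow_lt_of_lt_one (show (0 : ℝ) < δ / 32 by positivity)
    (show (1 / 2 : ℝ) < 1 by norm_num)
  refine (((ev_map (b2 := b2) hb1 h1 hpf Q (δ := δ / 32) (by positivity) (by linarith)).and
    (ev_c1 (b1 := b1) (b2 := b2) (pf := pf) Q (show (0 : ℝ) < 1 / 100 by norm_num))).and
    (ev_num (b1 := b1) (b2 := b2) (pf := pf) Q (F := fun P _ => P.th ≤ δ) (x0 := δ) 0 hδ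
      fun x1 thp th C0 hth htt htx hx _ => Eventually.of_forall fun e P e1 _ _ _ _ => by
        rw [e1]
        linarith)).mono fun P c1 hadm hT => ?_
  obtain ⟨⟨hS, hc0, hc1⟩, hth⟩ := hT
  have hthδ : P.th ≤ δ := hth P.es P.es0 le_rfl
  have hth1 : P.th ≤ 1 := by linarith
  refine ⟨hc0, by linarith, ?_⟩
  intro σ c q2 qx a y ε xs c' r q A N h hσ0 hσ ck hck hck2 hck1 i hi c3 hc3 κ Zm
  exact sf_map (k := k) hS h hadm hb hσ0 hσ hc0 (by linarith) hck hck1 hck2 hi hc3 κ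
    (by positivity) (by linarith) hk.le (by linarith) hδ Zm

end

end Vale.Agent.P159.H270.Ce
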