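import Vale.Agent.P159.H270.Ce3

/-!
P159 (helper270), **typical sources through a site map along the flow**, part 5: helper773's form
(fixed constants, `q = 2 ^ (n - ⌈y^(-c1)⌉)`, level `y ^ (6/5)`).
-/

set_option linter.unusedSectionVars false

namespace Vale.Agent.P159.H270.Ce

open Finset Matrix Filter Topology MeasureTheory
open Vale.Agent.P159.TM.Spec (V)
open Vale.Agent.P159.H972 (Par lg tn)
open Vale.Agent.P159.H789 (SMF)
open Vale.Agent.P159.H801 (Ev SFlow)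
open Vale.Agent.P159.H963.Core (RF)
open Vale.Agent.P159.H663.Dr (tT)
open Vale.Agent.P159.H37.Sf (kf sf_big)
open Vale.Agent.P159.H773 (sd nuF)

noncomputable section

/-- **typical sources through a map of the split class, fixed constants** -/
theorem mapF_flow {b b1 b2 pf : ℝ} (hb1 : 0 < b1) (h1 : b1 ≤ b) (hpf : 0 < pf) (Q : ℕ) :
    Ev b1 b2 pf Q fun P c1 => 0 < c1 ∧ c1 ≤ P.th / 100 ∧
      ∀ {σ c q2 qx : ℝ} {a y ε xs : ℕ → ℝ} {c' r q A : ℝ} {N : ℕ},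
      SFlow P b σ c c1 q2 qx a y ε xs c' r q A N → 0 ≤ σ → σ ≤ 1 / 4 →
      ∀ ck : ℝ, 0 < ck → 2 * P.th ≤ ck → ck ≤ P.thp → ∀ i : ℕ, 1 ≤ i →
      ∀ K Zm : ℝ, 1 ≤ K → ∀ᶠ n in atTop, ∀ R, 2 ^ (n + kf ck y n) ≤ R →
        R ≤ 2 ^ (n + P.w (ε n) + kf ck y (n + P.w (ε n))) →
        ∀ (f f₁ f₂ : (V (sd i R) → ℝ) → V (sd i R) → ℝ) (k₂ : ℝ), SMF (sd i R) K k₂ K f f₁ f₂ →
          0 ≤ k₂ → k₂ ≤ K * tn n → ∀ z : ℝ, |z| ≤ Zm →
        (nuF b (sd i) (tn n) R).real {F | y n ^ (6 / 5 : ℝ) <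
          RF (sd i R) b (tn n) (z • f (tT (sd i R) (2 ^ (n - ⌈y n ^ (-c1)⌉₊)) F))} ≤
          Real.exp (-(y n ^ (-(3 / 2 * c1)))) := by
  have hb : 0 < b := hb1.trans_le h1
  refine (map_flow (b2 := b2) hb1 h1 hpf Q (δ := 1 / 20) (by norm_num) (by norm_num)).mono
    fun P c1 hadm hT => ?_
  obtain ⟨hc0, hc1, H⟩ := hT
  refine ⟨hc0, hc1, ?_⟩
  intro σ c q2 qx a y ε xs c' r q A N h hσ0 hσ ck hck hck2 hck1 i hi K Zm hK
  have hth := P.th0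
  filter_upwards [H h hσ0 hσ ck hck hck2 hck1 i hi (3 / 2 * c1) (by linarith) 1 Zm,
    sf_big h (p := P.th / 16) (M := K) (by positivity) (by positivity),
    sf_big h (p := 1) (M := K) one_pos (by positivity),
    eventually_ge_atTop N] with n g1 g2 g3 hn
  intro R hR1 hR2 f f₁ f₂ k₂ hS hk0 hk z hz
  have hy := h.fl.y0 n
  have hy1 := h.y1 n hn
  have hyc : 0 ≤ y n ^ (-c1) := (Real.rpow_pos_of_pos hy _).le
  have hx := g1 R hR1 hR2 (n - ⌈y n ^ (-c1)⌉₊) (Nat.sub_le _ _) (by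
      have h2 : n - (n - ⌈y n ^ (-c1)⌉₊) ≤ ⌈y n ^ (-c1)⌉₊ := by omega
      have h3 : ((n - (n - ⌈y n ^ (-c1)⌉₊) : ℕ) : ℝ) ≤ ⌈y n ^ (-c1)⌉₊ := Nat.cast_le.2 h2
      exact h3.trans (Nat.ceil_lt_add_one hyc).le) f f₁ f₂ K k₂ K z hS (by linarith) g2 hk0 hk hK
      g3 hz
  rw [one_mul] at hx
  have hpr := H447.prob_nuS (N := sd i R) hb (H816.tn_pos n)
  refine le_trans (measureReal_mono (μ := H447.nuS (sd i R) b (tn n)) fun F hF => ?_) hx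
  have hF' : y n ^ (6 / 5 : ℝ) < RF (sd i R) b (tn n)
    (z • f (tT (sd i R) (2 ^ (n - ⌈y n ^ (-c1)⌉₊)) F)) := hF
  refine lt_of_le_of_lt ?_ hF'
  exact Real.rpow_le_rpow_of_exponent_ge hy hy1 (by linarith)

end

end Vale.Agent.P159.H270.Ce
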