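import Vale.Agent.P159.H529.Qf3
import Vale.Agent.P159.TM.H77.PosF

/-!
P159 (helper270), EXP-D, part 1: spins. Messager, Miracle-Sole, Pfister with a phase: for every
boundary condition the conditional expectation of a character has modulus at most its value at the
wired boundary condition; hence a complex observable of the outer spins costs only its modulus.
-/

open MeasureTheory Filter Topology
open scoped BigOperators

set_option linter.all false

namespace Vale.Agent.P159.H270

open Vale.Agent.P159 Vale.Agent.P159.H353 Vale.Agent.P159.T1.H42 Vale.Agent.P159.TM.H389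
open Vale.Agent.P159.TM.H331 Vale.Agent.P159.H773 Vale.Agent.P159.H529.Qf
open Vale.Agent.P159.TM.H77 (FS continuous_FS summable_FS norm_FS_le Dom dom_wI)

section mmp

variable {V : Type} [Fintype V]

/-- boundary phases, with a phase of the character -/
theorem phase2 {w : C(V → T, ℝ)} (hw : pl w * mi w ∈ (PG (V → T)).S) (q : V → ℤ) (ψ : T)
    (S : Set V) (ζ : V → T) :
    (∫ θ, w (pin S ζ θ) * cosT (chq q (pin S ζ θ) + ψ) ∂(torusHaar V)) *
      (∫ θ, w (pin S 0 θ) ∂(torusHaar V)) ≤
    (∫ θ, w (pin S 0 θ) * cosT (chq q (pin S 0 θ)) ∂(torusHaar V)) *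
      ∫ θ, w (pin S ζ θ) ∂(torusHaar V) := by
  obtain ⟨η, hη⟩ := pi_div2 ζ
  obtain ⟨ψ', hψ⟩ : ∃ ψ' : T, ψ' + ψ' = ψ := by
    obtain ⟨y, hy⟩ := pi_div2 (V := Unit) fun _ => ψ
    exact ⟨y (), congrFun hy ()⟩
  -- the cone is stable under pinning both replicas at `η`
  have hK : ∀ F ∈ (PG (V → T)).S, 0 ≤ ∫ p : (V → T) × (V → T), F (pin S η p.1, pin S η p.2)
      ∂((torusHaar V).prod (torusHaar V)) := by
    set κ : C((V → T) × (V → T), (V → T) × (V → T)) :=
      ⟨fun p => (pin S η p.1, pin S η p.2), by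
        have h1 := pin_cont S η
        exact (h1.comp continuous_fst).prodMk (h1.comp continuous_snd)⟩ with hκ
    intro F hF
    have hcl : IsClosed {f : C((V → T) × (V → T), ℝ) |
        0 ≤ ∫ p, f (κ p) ∂((torusHaar V).prod (torusHaar V))} := by
      refine isClosed_le continuous_const ?_
      have h1 := continuous_int ((torusHaar V).prod (torusHaar V))
      have h2 : Continuous fun f : C((V → T) × (V → T), ℝ) => f.comp κ :=
        ContinuousMap.continuous_precomp κ
      exact h1.comp h2
    have hsub : ((Subsemiring.closure (MG (V → T) : Set C((V → T) × (V → T), ℝ)) :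
        Subsemiring _) : Set C((V → T) × (V → T), ℝ)) ⊆
        {f | 0 ≤ ∫ p, f (κ p) ∂((torusHaar V).prod (torusHaar V))} := by
      intro g hg
      rw [SetLike.mem_coe, Subsemiring.mem_closure_iff, Submonoid.closure_eq] at hg
      induction hg using AddSubmonoid.closure_induction with
      | mem x hx =>
        obtain ⟨r, f, hr, h⟩ := hx
        have h1 : ∀ p : (V → T) × (V → T), x (κ p) =
            r * (f (pin S η p.1) * f (pin S η p.2)) := fun p => h _
        show 0 ≤ ∫ p, x (κ p) ∂((torusHaar V).prod (torusHaar V))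
        simp_rw [h1]
        rw [integral_const_mul, integral_prod_mul (fun x => f (pin S η x))
          (fun x => f (pin S η x))]
        exact mul_nonneg hr (mul_self_nonneg _)
      | zero => simp
      | add x y _ _ hx hy =>
        simp only [Set.mem_setOf_eq, ContinuousMap.coe_add, Pi.add_apply] at hx hy ⊢
        have h1 : Integrable (fun p => x (κ p)) ((torusHaar V).prod (torusHaar V)) :=
          cint (x.continuous.comp κ.continuous)
        have h2 : Integrable (fun p => y (κ p)) ((torusHaar V).prod (torusHaar V)) :=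
          cint (y.continuous.comp κ.continuous)
        rw [integral_add h1 h2]
        exact add_nonneg hx hy
    exact closure_minimal hsub hcl hF
  -- the product of the sines
  have hcs : Continuous fun θ : V → T => sinT (chq q θ + ψ') :=
    cont_sin.comp ((chq_cont q).add continuous_const)
  set X : C((V → T) × (V → T), ℝ) :=
    ⟨fun p => 2 * (sinT (chq q p.1 + ψ') * sinT (chq q p.2 + ψ')),
      continuous_const.mul ((hcs.comp continuous_fst).mul (hcs.comp continuous_snd))⟩ with hX
  have hXm : X ∈ (PG (V → T)).S := by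
    refine mem_mkPos (hM := MG_const) ⟨2, ⟨fun θ => sinT (chq q θ + ψ'), hcs⟩, by norm_num,
      fun p => rfl⟩
  have h1 := hK _ ((PG (V → T)).S.mul_mem hw hXm)
  have hc : Continuous (fun p : (V → T) × (V → T) => w (pin S ζ p.1) * w (pin S 0 p.2) *
      (cosT (chq q (pin S 0 p.2)) - cosT (chq q (pin S ζ p.1) + ψ))) := by
    have c1 := pin_cont S ζ
    have c2 := pin_cont S (0 : V → T)
    exact ((w.continuous.comp (c1.comp continuous_fst)).mul
      (w.continuous.comp (c2.comp continuous_snd))).mul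
      ((cont_cos.comp ((chq_cont q).comp (c2.comp continuous_snd))).sub
        (cont_cos.comp (((chq_cont q).comp (c1.comp continuous_fst)).add continuous_const)))
  have hrot := integral_rot (torusHaar V) pi_div2 hc
  have e0 : ∀ x y : V → T, pin S η x + pin S η y = pin S ζ (x + y) := by
    intro x y
    funext v
    by_cases h : v ∈ S
    · rw [Pi.add_apply, pin_mem h, pin_mem h, pin_mem h, ← hη]
      rfl
    · rw [Pi.add_apply, pin_notMem h, pin_notMem h, pin_notMem h]
      rfl
  have e0' : ∀ x y : V → T, pin S η x - pin S η y = pin S 0 (x - y) := by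
    intro x y
    funext v
    by_cases h : v ∈ S
    · rw [Pi.sub_apply, pin_mem h, pin_mem h, pin_mem h, sub_self]
      rfl
    · rw [Pi.sub_apply, pin_notMem h, pin_notMem h, pin_notMem h]
      rfl
  have etr : ∀ a c : T, 2 * (sinT (a + ψ') * sinT (c + ψ')) =
      cosT (a - c) - cosT (a + c + ψ) := by
    intro a c
    have k1 : cosT ((a + ψ') - (c + ψ')) =
        cosT (a + ψ') * cosT (-(c + ψ')) - sinT (a + ψ') * sinT (-(c + ψ')) := by
      rw [sub_eq_add_neg]
      exact Real.Angle.cos_add _ _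
    have k2 : cosT ((a + ψ') + (c + ψ')) =
        cosT (a + ψ') * cosT (c + ψ') - sinT (a + ψ') * sinT (c + ψ') := Real.Angle.cos_add _ _
    have k3 : cosT (-(c + ψ')) = cosT (c + ψ') := Real.Angle.cos_neg _
    have k4 : sinT (-(c + ψ')) = -sinT (c + ψ') := Real.Angle.sin_neg _
    have k5 : (a + ψ') - (c + ψ') = a - c := by abel
    have k6 : (a + ψ') + (c + ψ') = a + c + ψ := by rw [← hψ]; abel
    rw [k5, k3, k4] at k1
    rw [k6] at k2
    rw [k1, k2]
    ring
  have hsub : ∀ x y : V → T, chq q (x - y) = chq q x - chq q y := by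
    intro x y
    rw [sub_eq_add_neg, chq_add_arg, chq_neg_arg, ← sub_eq_add_neg]
  have e1 : ∫ p : (V → T) × (V → T), (pl w * mi w * X) (pin S η p.1, pin S η p.2)
      ∂((torusHaar V).prod (torusHaar V)) =
      ∫ p : (V → T) × (V → T), w (pin S ζ p.1) * w (pin S 0 p.2) *
      (cosT (chq q (pin S 0 p.2)) - cosT (chq q (pin S ζ p.1) + ψ))
        ∂((torusHaar V).prod (torusHaar V)) := by
    rw [← hrot]
    refine integral_congr_ae (Eventually.of_forall fun p => ?_)
    show w (pin S η p.1 + pin S η p.2) * w (pin S η p.1 - pin S η p.2) *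
      (2 * (sinT (chq q (pin S η p.1) + ψ') * sinT (chq q (pin S η p.2) + ψ'))) = _
    rw [etr, ← hsub, ← chq_add_arg, e0, e0']
  rw [e1] at h1
  have e2 : ∀ p : (V → T) × (V → T), w (pin S ζ p.1) * w (pin S 0 p.2) *
      (cosT (chq q (pin S 0 p.2)) - cosT (chq q (pin S ζ p.1) + ψ)) =
      w (pin S ζ p.1) * (w (pin S 0 p.2) * cosT (chq q (pin S 0 p.2))) -
      (w (pin S ζ p.1) * cosT (chq q (pin S ζ p.1) + ψ)) * w (pin S 0 p.2) := by
    intro p; ring
  simp_rw [e2] at h1
  have i : ∀ {f g : (V → T) → ℝ}, Continuous f → Continuous g →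
      Integrable (fun p : (V → T) × (V → T) => f p.1 * g p.2)
        ((torusHaar V).prod (torusHaar V)) := fun hf hg =>
    cint ((hf.comp continuous_fst).mul (hg.comp continuous_snd))
  have k1 : Continuous (fun x => w (pin S ζ x)) := w.continuous.comp (pin_cont S ζ)
  have k2 : Continuous (fun x => w (pin S (0 : V → T) x)) := w.continuous.comp (pin_cont S 0)
  have k3 : Continuous (fun x => w (pin S ζ x) * cosT (chq q (pin S ζ x) + ψ)) :=
    k1.mul (cont_cos.comp (((chq_cont q).comp (pin_cont S ζ)).add continuous_const))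
  have k4 : Continuous (fun x => w (pin S (0 : V → T) x) * cosT (chq q (pin S 0 x))) :=
    k2.mul (cont_cos.comp ((chq_cont q).comp (pin_cont S 0)))
  rw [integral_sub (i k1 k4) (i k3 k2),
    integral_prod_mul (fun x => w (pin S ζ x))
      (fun x => w (pin S (0 : V → T) x) * cosT (chq q (pin S 0 x))),
    integral_prod_mul (fun x => w (pin S ζ x) * cosT (chq q (pin S ζ x) + ψ))
      (fun x => w (pin S (0 : V → T) x))] at h1
  linarith

/-- a complex number is bounded by the real parts of its rotations -/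
lemma norm_le_of_rot {z : ℂ} {B : ℝ} (h : ∀ ψ : T, ((fourier 1 ψ : ℂ) * z).re ≤ B) : ‖z‖ ≤ B := by
  have h1 := h (((-Complex.arg z : ℝ)) : T)
  have e : (fourier 1 (((-Complex.arg z : ℝ)) : T) : ℂ) = Complex.exp (-(Complex.arg z : ℂ) * Complex.I) := by
    rw [fourier_coe_apply]
    congr 1
    push_cast
    have : (Real.pi : ℂ) ≠ 0 := by exact_mod_cast Real.pi_ne_zero
    field_simp
  rw [e] at h1
  have h2 : Complex.exp (-(Complex.arg z : ℂ) * Complex.I) * z = (‖z‖ : ℂ) := by
    conv_lhs => rw [← Complex.norm_mul_exp_arg_mul_I z]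
    rw [mul_left_comm, ← Complex.exp_add]
    simp
  rw [h2, Complex.ofReal_re] at h1
  exact h1

lemma cosT_re' (x : T) : (fourier 1 x : ℂ).re = cosT x := (cosT_re x).symm

/-- **the conditional expectation of a character at an arbitrary boundary condition** -/
theorem cond_le {w : C(V → T, ℝ)} (hw : pl w * mi w ∈ (PG (V → T)).S) (h0 : ∀ θ, 0 < w θ)
    (q : V → ℤ) (S : Set V) (ζ : V → T) :
    ‖∫ θ, (w (pin S ζ θ) : ℂ) * (fourier 1 (chq q (pin S ζ θ)) : ℂ) ∂(torusHaar V)‖ ≤
      eP w S (fun θ => cosT (chq q θ)) * ∫ θ, w (pin S ζ θ) ∂(torusHaar V) := by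
  have hp := eP_den_pos h0 S
  refine norm_le_of_rot fun ψ => ?_
  have hc : Continuous fun θ : V → T => (w (pin S ζ θ) : ℂ) * (fourier 1 (chq q (pin S ζ θ)) : ℂ) :=
    (Complex.continuous_ofReal.comp (w.continuous.comp (pin_cont S ζ))).mul
      ((fourier 1).continuous.comp ((chq_cont q).comp (pin_cont S ζ)))
  have e1 : ((fourier 1 ψ : ℂ) * ∫ θ, (w (pin S ζ θ) : ℂ) *
      (fourier 1 (chq q (pin S ζ θ)) : ℂ) ∂(torusHaar V)).re =
      ∫ θ, w (pin S ζ θ) * cosT (chq q (pin S ζ θ) + ψ) ∂(torusHaar V) := by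
    rw [← integral_const_mul]
    have hi : Integrable (fun θ : V → T => (fourier 1 ψ : ℂ) * ((w (pin S ζ θ) : ℂ) *
        (fourier 1 (chq q (pin S ζ θ)) : ℂ))) (torusHaar V) :=
      (continuous_const.mul hc).integrable_of_hasCompactSupport
        (HasCompactSupport.of_compactSpace _)
    have := integral_re (𝕜 := ℂ) hi
    rw [← RCLike.re_eq_complex_re, ← this]
    refine integral_congr_ae (Eventually.of_forall fun θ => ?_)
    show ((fourier 1 ψ : ℂ) * ((w (pin S ζ θ) : ℂ) * (fourier 1 (chq q (pin S ζ θ)) : ℂ))).re = _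
    rw [show (fourier 1 ψ : ℂ) * ((w (pin S ζ θ) : ℂ) * (fourier 1 (chq q (pin S ζ θ)) : ℂ)) =
      (w (pin S ζ θ) : ℂ) * (fourier 1 (chq q (pin S ζ θ) + ψ) : ℂ) by
        rw [fourier_add_arg]; ring, Complex.re_ofReal_mul, cosT_re']
  rw [e1]
  unfold eP
  rw [div_mul_eq_mul_div, le_div_iff₀ hp]
  exact phase2 hw q ψ S ζ

/-- **outer observables cost only their modulus** -/
theorem outer_le {w : C(V → T, ℝ)} (hw : pl w * mi w ∈ (PG (V → T)).S) (h0 : ∀ θ, 0 < w θ)
    (q : V → ℤ) (S : Set V) {h : (V → T) → ℂ} (hc : Continuous h)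
    (hS : ∀ θ θ', (∀ v ∈ S, θ v = θ' v) → h θ = h θ') :
    ‖∫ θ, (w θ : ℂ) * (fourier 1 (chq q θ) : ℂ) * h θ ∂(torusHaar V)‖ ≤
      eP w S (fun θ => cosT (chq q θ)) * ∫ θ, w θ * ‖h θ‖ ∂(torusHaar V) := by
  set E := eP w S (fun θ => cosT (chq q θ)) with hE
  have cw : Continuous fun θ : V → T => (w θ : ℂ) := Complex.continuous_ofReal.comp w.continuous
  have cf : Continuous fun θ : V → T => (fourier 1 (chq q θ) : ℂ) :=
    (fourier 1).continuous.comp (chq_cont q)
  have cF : Continuous fun θ : V → T => (w θ : ℂ) * (fourier 1 (chq q θ) : ℂ) * h θ :=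
    (cw.mul cf).mul hc
  have cn : Continuous fun θ : V → T => w θ * ‖h θ‖ := w.continuous.mul hc.norm
  -- disintegration, complex form
  have d1 : ∫ θ, (w θ : ℂ) * (fourier 1 (chq q θ) : ℂ) * h θ ∂(torusHaar V) =
      ∫ ζ, h ζ * ∫ θ, (w (pin S ζ θ) : ℂ) * (fourier 1 (chq q (pin S ζ θ)) : ℂ) ∂(torusHaar V)
        ∂(torusHaar V) := by
    have hm := glue_mp (V := V) S
    have h1 := integral_map (μ := (torusHaar V).prod (torusHaar V)) hm.measurable.aemeasurable
      (f := fun θ : V → T => (w θ : ℂ) * (fourier 1 (chq q θ) : ℂ) * h θ) cF.aestronglyMeasurable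
    rw [hm.map_eq] at h1
    have h2 : Integrable (fun x : (V → T) × (V → T) => (w (glue S x) : ℂ) *
        (fourier 1 (chq q (glue S x)) : ℂ) * h (glue S x)) ((torusHaar V).prod (torusHaar V)) :=
      (cF.comp (glue_cont S)).integrable_of_hasCompactSupport (HasCompactSupport.of_compactSpace _)
    rw [h1, integral_prod _ h2]
    refine integral_congr_ae (Eventually.of_forall fun ζ => ?_)
    simp only
    rw [← integral_const_mul]
    refine integral_congr_ae (Eventually.of_forall fun θ => ?_)
    simp only [glue_eq]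
    rw [hS (pin S ζ θ) ζ fun v hv => pin_mem hv]
    ring
  have d2 : ∫ θ, w θ * ‖h θ‖ ∂(torusHaar V) =
      ∫ ζ, ‖h ζ‖ * ∫ θ, w (pin S ζ θ) ∂(torusHaar V) ∂(torusHaar V) := by
    rw [← integral_pin S cn]
    refine integral_congr_ae (Eventually.of_forall fun ζ => ?_)
    simp only
    rw [← integral_const_mul]
    refine integral_congr_ae (Eventually.of_forall fun θ => ?_)
    simp only
    rw [hS (pin S ζ θ) ζ fun v hv => pin_mem hv]
    ring
  rw [d1, d2, ← integral_const_mul]
  refine (norm_integral_le_integral_norm _).trans ?_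
  have cpi : Continuous fun ζ : V → T => ∫ θ, w (pin S ζ θ) ∂(torusHaar V) :=
    pin_int_cont S w.continuous
  refine integral_mono_of_nonneg (Eventually.of_forall fun ζ => norm_nonneg _)
    (cint (continuous_const.mul (hc.norm.mul cpi))) (Eventually.of_forall fun ζ => ?_)
  simp only
  rw [norm_mul]
  have h2 := cond_le hw h0 q S ζ
  calc ‖h ζ‖ * _ ≤ ‖h ζ‖ * (E * ∫ θ, w (pin S ζ θ) ∂(torusHaar V)) :=
        mul_le_mul_of_nonneg_left h2 (norm_nonneg _)
    _ = _ := by ring

end mmp

end Vale.Agent.P159.H270
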