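import Vale.Agent.P159.H270.Ed1

/-!
P159 (helper270), EXP-D, part 2: the sum over the heights of a product of general edge weights
with a dislocation, as an integral over spins and twists.
-/

open MeasureTheory Filter Topology
open scoped BigOperators

set_option linter.all false

namespace Vale.Agent.P159.H270

open Vale.Agent.P159 Vale.Agent.P159.H353 Vale.Agent.P159.T1.H42 Vale.Agent.P159.TM.H389
open Vale.Agent.P159.TM.H331 Vale.Agent.P159.H773 Vale.Agent.P159.H529.Qf
open Vale.Agent.P159.TM.H77 (FS continuous_FS summable_FS norm_FS_le Dom dom_wI)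

section gen

variable {V ι κ : Type} [Fintype V] [DecidableEq V] [Fintype ι] [Fintype κ] [DecidableEq κ]

/-- the angle of a bond: difference of the spins, plus the twist of its label -/
noncomputable def xb (s t : ι → V) (l : ι → Option κ) (α : κ → T) (θ : V → T) (i : ι) : T :=
  θ (s i) - θ (t i) + (l i).elim 0 α

/-- the total of a current over the bonds of a label -/
def totL (l : ι → Option κ) (n : ι → ℤ) (k : κ) : ℤ := ∑ i, if l i = some k then n i else 0

omit [Fintype V] [DecidableEq V] [Fintype ι] [Fintype κ] [DecidableEq κ] in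
lemma xb_cont (s t : ι → V) (l : ι → Option κ) (i : ι) :
    Continuous fun p : (κ → T) × (V → T) => xb s t l p.1 p.2 i := by
  unfold xb
  have h1 : Continuous fun p : (κ → T) × (V → T) => p.2 (s i) - p.2 (t i) :=
    ((continuous_apply (s i)).comp continuous_snd).sub
      ((continuous_apply (t i)).comp continuous_snd)
  refine h1.add ?_
  cases h : l i with
  | none => exact continuous_const
  | some k => exact (continuous_apply k).comp continuous_fst

lemma fourier_one_zsmul (n : ℤ) (x : T) : (fourier 1 (n • x) : ℂ) = (fourier n x : ℂ) := by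
  rw [fourier_apply, fourier_apply, one_zsmul]

omit [DecidableEq V] [Fintype V] [Fintype κ] [DecidableEq κ] in
lemma prod_fourier_xb (s t : ι → V) (l : ι → Option κ) (n : ι → ℤ) (α : κ → T) (θ : V → T) :
    ∏ i, (fourier (n i) (xb s t l α θ i) : ℂ) =
      (fourier 1 (∑ i, n i • xb s t l α θ i) : ℂ) := by
  have h1 : ∀ (F : Finset ι), (fourier 1 (∑ i ∈ F, n i • xb s t l α θ i) : ℂ) =
      ∏ i ∈ F, (fourier (n i) (xb s t l α θ i) : ℂ) := by
    classical
    intro F
    induction F using Finset.induction_on with
    | empty => simp [fourier_zero_arg']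
    | insert i F hi ih =>
      rw [Finset.sum_insert hi, Finset.prod_insert hi, fourier_add_arg, ih, fourier_one_zsmul]
  exact (h1 Finset.univ).symm

lemma sum_xb (s t : ι → V) (l : ι → Option κ) (n : ι → ℤ) (α : κ → T) (θ : V → T) :
    ∑ i, n i • xb s t l α θ i = chq (dvg s t n) θ + chq (totL l n) α := by
  rw [← ph_chq]
  unfold ph chq totL xb
  simp_rw [Finset.sum_smul]
  rw [Finset.sum_comm (s := (Finset.univ : Finset κ)), ← Finset.sum_add_distrib]
  refine Finset.sum_congr rfl fun i _ => ?_
  rw [smul_add]
  congr 1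
  cases h : l i with
  | none => simp
  | some k =>
    have e : ∀ k' : κ, (if (some k : Option κ) = some k' then n i else 0) • α k' =
        if k = k' then n i • α k' else 0 := by
      intro k'
      by_cases hk : k = k'
      · rw [if_pos hk, if_pos (by rw [hk])]
      · rw [if_neg hk, if_neg (by simpa using hk), zero_smul]
    rw [Finset.sum_congr rfl fun k' _ => e k', Finset.sum_ite_eq, if_pos (Finset.mem_univ _)]
    rfl

instance : IsProbabilityMeasure (torusHaar V) := by unfold torusHaar; infer_instance

lemma int_chr (q : V → ℤ) :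
    ∫ θ, (fourier 1 (chq q θ) : ℂ) ∂(torusHaar V) = if ∀ v, q v = 0 then 1 else 0 := by
  simp_rw [fourier_chq]
  exact Vale.Agent.P159.T1.H857.integral_prod_fourierA q

/-- currents with prescribed divergence and totals -/
def CS (s t : ι → V) (l : ι → Option κ) (q : V → ℤ) (p : κ → ℤ) : Set (ι → ℤ) :=
  {n | (∀ v, dvg s t n v = q v) ∧ ∀ k, totL l n k = p k}

/-- **sums over currents with prescribed divergence and totals** -/
theorem repA (s t : ι → V) (l : ι → Option κ) {f : ι → ℤ → ℝ}
    (hf : ∀ i, Summable fun n => |f i n|) (q : V → ℤ) (p : κ → ℤ) :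
    HasSum (fun n : CS s t l q p => ((∏ i, f i (n.1 i) : ℝ) : ℂ))
      (∫ z : (κ → T) × (V → T), (fourier 1 (chq (-p) z.1) : ℂ) * (fourier 1 (chq (-q) z.2) : ℂ) *
        ∏ i, FS (f i) (xb s t l z.1 z.2 i) ∂((torusHaar κ).prod (torusHaar V))) := by
  have cp : Continuous fun z : (κ → T) × (V → T) => (fourier 1 (chq (-p) z.1) : ℂ) :=
    (fourier 1).continuous.comp ((chq_cont _).comp continuous_fst)
  have cq : Continuous fun z : (κ → T) × (V → T) => (fourier 1 (chq (-q) z.2) : ℂ) :=
    (fourier 1).continuous.comp ((chq_cont _).comp continuous_snd)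
  set F : (ι → ℤ) → (κ → T) × (V → T) → ℂ := fun n z =>
    (fourier 1 (chq (-p) z.1) : ℂ) * (fourier 1 (chq (-q) z.2) : ℂ) *
      ∏ i, ((f i (n i) : ℂ) * (fourier (n i) (xb s t l z.1 z.2 i) : ℂ)) with hF
  have hcont : ∀ n, Continuous (F n) := by
    intro n
    refine (cp.mul cq).mul (continuous_finsetProd _ fun i _ => ?_)
    exact continuous_const.mul ((fourier (n i)).continuous.comp (xb_cont s t l i))
  have hnorm : ∀ n z, ‖F n z‖ = ∏ i, |f i (n i)| := by
    intro n z
    simp only [hF]
    rw [norm_mul, norm_mul, fourier_norm_one, fourier_norm_one, one_mul, one_mul, norm_prod]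
    refine Finset.prod_congr rfl fun i _ => ?_
    rw [norm_mul, fourier_norm_one, mul_one, Complex.norm_real, Real.norm_eq_abs]
  have hpr := prod_tsum_all ℤ ι (fun i n => (f i n : ℂ)) (fun i => (hf i).congr fun n => by
    rw [Complex.norm_real, Real.norm_eq_abs])
  have hpn : Summable fun n : ι → ℤ => ∏ i, |f i (n i)| := by
    refine hpr.1.congr fun n => ?_
    rw [norm_prod]
    refine Finset.prod_congr rfl fun x _ => ?_
    rw [Complex.norm_real, Real.norm_eq_abs]
  have hint : ∀ n, Integrable (F n) ((torusHaar κ).prod (torusHaar V)) := fun n =>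
    (hcont n).integrable_of_hasCompactSupport (HasCompactSupport.of_compactSpace _)
  have hsum := hasSum_integral_of_summable_integral_norm (F := F) hint (by
    refine hpn.congr fun n => ?_
    simp only [hnorm]
    simp)
  have e1 : ∀ z, ∑' n, F n z = (fourier 1 (chq (-p) z.1) : ℂ) * (fourier 1 (chq (-q) z.2) : ℂ) *
      ∏ i, FS (f i) (xb s t l z.1 z.2 i) := by
    intro z
    simp only [hF]
    rw [tsum_mul_left]
    congr 1
    exact (prod_tsum_all ℤ ι (fun i n => (f i n : ℂ) * (fourier n (xb s t l z.1 z.2 i) : ℂ))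
      (fun i => summable_FS (hf i) _)).2
  simp only [e1] at hsum
  have e2 : Set.indicator (CS s t l q p) (fun n : ι → ℤ => ((∏ i, f i (n i) : ℝ) : ℂ)) =
        fun n => ∫ z, F n z ∂((torusHaar κ).prod (torusHaar V)) := by
    funext n
    have e3 : ∀ z, F n z = (∏ i, (f i (n i) : ℂ)) * ((fourier 1 (chq (totL l n - p) z.1) : ℂ) *
        (fourier 1 (chq (dvg s t n - q) z.2) : ℂ)) := by
      intro z
      simp only [hF]
      rw [Finset.prod_mul_distrib, prod_fourier_xb, sum_xb, sub_eq_add_neg, sub_eq_add_neg,
        chq_add, chq_add, fourier_add_arg, fourier_add_arg, fourier_add_arg]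
      ring
    simp only [e3]
    rw [integral_const_mul, integral_prod_mul (fun x => (fourier 1 (chq (totL l n - p) x) : ℂ))
      (fun x => (fourier 1 (chq (dvg s t n - q) x) : ℂ)), int_chr, int_chr]
    have c1 : (∀ k, (totL l n - p) k = 0) ↔ ∀ k, totL l n k = p k :=
      forall_congr' fun k => by rw [Pi.sub_apply, sub_eq_zero]
    have c2 : (∀ v, (dvg s t n - q) v = 0) ↔ ∀ v, dvg s t n v = q v :=
      forall_congr' fun v => by rw [Pi.sub_apply, sub_eq_zero]
    rw [if_congr c1 rfl rfl, if_congr c2 rfl rfl]
    by_cases h1 : ∀ v, dvg s t n v = q v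
    · by_cases h2 : ∀ k, totL l n k = p k
      · rw [Set.indicator_of_mem (show n ∈ CS s t l q p from ⟨h1, h2⟩), if_pos h1, if_pos h2]
        push_cast
        ring
      · rw [Set.indicator_of_notMem (show n ∉ CS s t l q p from fun h => h2 h.2), if_neg h2]
        simp
    · rw [Set.indicator_of_notMem (show n ∉ CS s t l q p from fun h => h1 h.1), if_neg h1]
      simp
  rw [← e2] at hsum
  exact (hasSum_subtype_iff_indicator (f := fun n : ι → ℤ => ((∏ i, f i (n i) : ℝ) : ℂ))
    (s := CS s t l q p)).2 hsum

end gen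

end Vale.Agent.P159.H270
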