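import Vale.Agent.P159.H270.Ed2t

/-!
P159 (helper270), EXP-D, part 3: domination of a dislocated sum by the wired correlation of its
charges.
-/

open MeasureTheory Filter Topology
open scoped BigOperators

set_option linter.all false

namespace Vale.Agent.P159.H270

open Vale.Agent.P159 Vale.Agent.P159.H353 Vale.Agent.P159.T1.H42 Vale.Agent.P159.TM.H389
open Vale.Agent.P159.TM.H331 Vale.Agent.P159.H773 Vale.Agent.P159.H529.Qf
open Vale.Agent.P159.TM.H77 (FS continuous_FS summable_FS norm_FS_le Dom dom_wI)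

variable {M : ℕ} {b : ℝ}

/-- the edge crossed by a bond -/
def eD (i : BB M) : EF M := ((eA i).1, !(eA i).2)

/-- bonds of the region -/
def Tch (Λ : Finset (ℤ × ℤ)) (e : EF M) : Prop :=
  cv e.1 ∈ Λ ∨ cv (e.1 - (if e.2 then (1, 0) else (0, 1))) ∈ Λ

lemma sA_eq' (i : BB M) : sA i = (eD i).1 - (if (eD i).2 then (1, 0) else (0, 1)) := by
  have h := sA_eq i
  rw [eq_sub_iff_add_eq]
  unfold eD dir at *
  rw [← h]
  cases (eA i).2 <;> simp

lemma tA_eq' (i : BB M) : tA i = (eD i).1 := tA_eq i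

lemma tch_iff (Λ : Finset (ℤ × ℤ)) (i : BB M) :
    Tch Λ (eD i) ↔ cv (tA i) ∈ Λ ∨ cv (sA i) ∈ Λ := by
  unfold Tch
  rw [← sA_eq', ← tA_eq']

lemma prod_eD (K : EF M → ℝ) : ∏ i : BB M, K (eD i) = ∏ e : EF M, K e := by
  rw [show (∏ i : BB M, K (eD i)) = ∏ i : BB M, (fun c : EF M => K (c.1, !c.2)) (eA i) from rfl,
    Equiv.prod_comp eA (fun c : EF M => K (c.1, !c.2)), prod_EF, prod_EF]
  refine Finset.prod_congr rfl fun x _ => ?_
  simp only [Bool.not_false, Bool.not_true]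
  rw [mul_comm]

lemma gS_neg (b : ℝ) (x : T) : gS b (-x) = gS b x := by
  unfold gS
  congr 2
  exact Real.Angle.cos_neg _

lemma gS_pos (b : ℝ) (x : T) : 0 < gS b x := Real.exp_pos _

lemma FS_wI (hb : 0 ≤ b) (x : T) : FS (wI b) x = (gS b x : ℂ) := (hasSum_gS hb x).tsum_eq

lemma FS_neg (f : ℤ → ℝ) (x : T) : FS (fun n => f (-n)) x = FS f (-x) := by
  unfold FS
  rw [← (Equiv.neg ℤ).tsum_eq]
  refine tsum_congr fun n => ?_
  simp only [Equiv.neg_apply, neg_neg]
  rw [fourier_neg_arg]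

lemma fB_true {g : EF M → ℤ → ℝ} {i : BB M} (h : (eA i).2 = true) :
    fB g i = fun n => g (eD i) (-n) := by
  funext n
  unfold fB eD
  rw [if_pos h, h]
  rfl

lemma fB_false {g : EF M → ℤ → ℝ} {i : BB M} (h : (eA i).2 = false) : fB g i = g (eD i) := by
  funext n
  unfold fB eD
  rw [if_neg (by simp [h]), h]
  rfl

lemma summable_fB {g : EF M → ℤ → ℝ} (hg : ∀ e, Summable fun n => |g e n|) (i : BB M) :
    Summable fun n => |fB g i n| := by
  cases h : (eA i).2 with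
  | true =>
    rw [fB_true h]
    exact (Equiv.neg ℤ).summable_iff.2 (hg (eD i))
  | false =>
    rw [fB_false h]
    exact hg (eD i)

lemma FS_fB_le (hb : 0 ≤ b) {g : EF M → ℤ → ℝ} {K : EF M → ℝ}
    (hg : ∀ e, Dom (K e) (g e) (wI b)) (i : BB M) (x : T) :
    ‖FS (fB g i) x‖ ≤ K (eD i) * gS b x := by
  have key : ∀ y : T, ‖FS (g (eD i)) y‖ ≤ K (eD i) * gS b y := by
    intro y
    obtain ⟨r, h1, h2⟩ := (hg (eD i)).2.2 y
    have h3 : (r : ℂ) = (gS b y : ℂ) := by rw [← h1]; exact FS_wI hb y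
    have h4 : r = gS b y := by exact_mod_cast h3
    rw [← h4]
    exact h2
  cases h : (eA i).2 with
  | true =>
    rw [fB_true h, FS_neg]
    have := key (-x)
    rwa [gS_neg] at this
  | false =>
    rw [fB_false h]
    exact key x

lemma FS_fB_eq (hb : 0 ≤ b) {g : EF M → ℤ → ℝ} {i : BB M} (h : g (eD i) = wI b) (x : T) :
    FS (fB g i) x = (gS b x : ℂ) := by
  cases h' : (eA i).2 with
  | true =>
    rw [fB_true h', FS_neg, h, FS_wI hb, gS_neg]
  | false =>
    rw [fB_false h', h, FS_wI hb]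

lemma WF_prod (M : ℕ) (b : ℝ) (θ : St M → T) :
    WF M b θ = ∏ e : Bd M, gS b (θ (bs e) - θ (bt e)) := by
  unfold WF
  rw [cexp_apply, EN_apply, Real.exp_sum]
  rfl

/-- the factor of the spins off the region -/
noncomputable def hA (b : ℝ) (g : EF M → ℤ → ℝ) (α : Bool → T) (θ : St M → T) : ℂ :=
  (∏ w : Fin (M + 2) ⊕ Fin (M + 2), FS (fB g (Sum.inl w : BB M)) (xb sA tA lA α θ (Sum.inl w))) *
    ∏ e : Bd M, (FS (fB g (Sum.inr e : BB M)) (θ (bs e) - θ (bt e)) /
      (gS b (θ (bs e) - θ (bt e)) : ℂ))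

lemma xb_inr (α : Bool → T) (θ : St M → T) (e : Bd M) :
    xb sA tA lA α θ (Sum.inr e : BB M) = θ (bs e) - θ (bt e) := by
  unfold xb
  show θ (bs e) - θ (bt e) + 0 = _
  rw [add_zero]

lemma prod_hA (b : ℝ) (g : EF M → ℤ → ℝ) (α : Bool → T) (θ : St M → T) :
    ∏ i : BB M, FS (fB g i) (xb sA tA lA α θ i) = (WF M b θ : ℂ) * hA b g α θ := by
  rw [Fintype.prod_sum_type]
  unfold hA
  rw [Finset.prod_div_distrib, WF_prod]
  have e1 : ∀ e : Bd M, FS (fB g (Sum.inr e : BB M)) (xb sA tA lA α θ (Sum.inr e)) =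
      FS (fB g (Sum.inr e : BB M)) (θ (bs e) - θ (bt e)) := fun e => by rw [xb_inr]
  rw [Finset.prod_congr rfl fun e _ => e1 e]
  push_cast
  have h0 : (∏ e : Bd M, (gS b (θ (bs e) - θ (bt e)) : ℂ)) ≠ 0 :=
    Finset.prod_ne_zero_iff.2 fun e _ => by
      exact_mod_cast (gS_pos b _).ne'
  field_simp

lemma hA_cont {g : EF M → ℤ → ℝ} (hg : ∀ e, Summable fun n => |g e n|) (α : Bool → T) :
    Continuous (hA b g α) := by
  unfold hA
  refine (continuous_finsetProd _ fun w _ => ?_).mul (continuous_finsetProd _ fun e _ => ?_)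
  · refine (continuous_FS (summable_fB hg _)).comp ?_
    have h := xb_cont (V := St M) sA tA lA (Sum.inl w : BB M)
    exact h.comp (continuous_const.prodMk continuous_id)
  · have h1 : Continuous fun θ : St M → T => θ (bs e) - θ (bt e) :=
      (continuous_apply _).sub (continuous_apply _)
    refine Continuous.div ((continuous_FS (summable_fB hg _)).comp h1)
      (Complex.continuous_ofReal.comp ((gS_cont b).comp h1)) fun θ => ?_
    exact_mod_cast (gS_pos b _).ne'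

lemma wrap_off {Λ : Finset (ℤ × ℤ)} (hΛ : Λ ⊆ inner (M + 1)) (w : Fin (M + 2) ⊕ Fin (M + 2)) :
    ws w ∈ off M Λ ∧ wt w ∈ off M Λ := by
  have key : ∀ v : St M, (v.1 = 0 ∨ v.1 = Fin.last (M + 1) ∨ v.2 = 0 ∨ v.2 = Fin.last (M + 1)) →
      v ∈ off M Λ := by
    intro v hv hm
    have h1 := mem_inner_iff.1 (hΛ hm)
    unfold cv at h1
    simp only at h1
    push_cast at h1
    rcases hv with h | h | h | h <;> rw [h] at h1 <;> simp at h1
  rcases w with j | i
  · exact ⟨key _ (Or.inr (Or.inl rfl)), key _ (Or.inl rfl)⟩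
  · exact ⟨key _ (Or.inr (Or.inr (Or.inr rfl))), key _ (Or.inr (Or.inr (Or.inl rfl)))⟩

lemma hA_dep (hb : 0 ≤ b) {Λ : Finset (ℤ × ℤ)} (hΛ : Λ ⊆ inner (M + 1)) {g : EF M → ℤ → ℝ}
    (hj : ∀ e, Tch Λ e → g e = wI b) (α : Bool → T) (θ θ' : St M → T)
    (h : ∀ v ∈ off M Λ, θ v = θ' v) : hA b g α θ = hA b g α θ' := by
  unfold hA
  congr 1
  · refine Finset.prod_congr rfl fun w _ => ?_
    congr 1
    unfold xb
    have h1 := wrap_off hΛ w
    show θ (ws w) - θ (wt w) + _ = θ' (ws w) - θ' (wt w) + _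
    rw [h _ h1.1, h _ h1.2]
  · refine Finset.prod_congr rfl fun e _ => ?_
    by_cases ht : Tch Λ (eD (Sum.inr e : BB M))
    · have h1 := hj _ ht
      rw [FS_fB_eq hb h1, FS_fB_eq hb h1, div_self, div_self]
      · exact_mod_cast (gS_pos b _).ne'
      · exact_mod_cast (gS_pos b _).ne'
    · rw [tch_iff, not_or] at ht
      have h1 : θ (bt e) = θ' (bt e) := h _ ht.1
      have h2 : θ (bs e) = θ' (bs e) := h _ ht.2
      rw [h1, h2]

lemma hA_norm (hb : 0 ≤ b) {g : EF M → ℤ → ℝ} {K : EF M → ℝ}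
    (hg : ∀ e, Dom (K e) (g e) (wI b)) (α : Bool → T) (θ : St M → T) :
    WF M b θ * ‖hA b g α θ‖ ≤
      (∏ e : EF M, K e) * ∏ i : BB M, gS b (xb sA tA lA α θ i) := by
  have h0 : 0 < WF M b θ := by
    rw [WF_prod]
    exact Finset.prod_pos fun e _ => gS_pos b _
  have e1 : WF M b θ * ‖hA b g α θ‖ = ‖∏ i : BB M, FS (fB g i) (xb sA tA lA α θ i)‖ := by
    rw [prod_hA b g α θ, norm_mul, Complex.norm_real, Real.norm_eq_abs, abs_of_pos h0]
  rw [e1, norm_prod, ← prod_eD, ← Finset.prod_mul_distrib]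
  exact Finset.prod_le_prod (fun i _ => norm_nonneg _) fun i _ => FS_fB_le hb hg i _

/-- the integrand of the undislocated model -/
lemma zz_eq (hb : 0 ≤ b) (x₀ : Fin (M + 2) × Fin (M + 2)) :
    HasSum (fun h : {h : Fin (M + 2) × Fin (M + 2) → ℤ // h x₀ = 0} =>
        ∏ e : EF M, wI b (incF 0 h.1 e))
      (∫ z : (Bool → T) × (St M → T), ∏ i : BB M, gS b (xb sA tA lA z.1 z.2 i)
          ∂((torusHaar Bool).prod (torusHaar (St M)))) := by
  have h := repT (M := M) (g := fun _ => wI b) (fun _ => (summable_wI hb).abs) 0 x₀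
  have e : ∀ z : (Bool → T) × (St M → T), (fourier 1 (chq (-(pT (0 : EF M → ℤ))) z.1) : ℂ) *
        (fourier 1 (chq (-(curl (0 : EF M → ℤ))) z.2) : ℂ) *
        ∏ i : BB M, FS (fB (fun _ => wI b) i) (xb sA tA lA z.1 z.2 i) =
        ((∏ i : BB M, gS b (xb sA tA lA z.1 z.2 i) : ℝ) : ℂ) := by
    intro z
    have p0 : pT (0 : EF M → ℤ) = 0 := by
      funext k
      unfold pT
      simp
    have c0 : curl (0 : EF M → ℤ) = 0 := by
      funext v
      unfold curl
      simp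
    have z1 : ∀ (α : Bool → T), chq (-(0 : Bool → ℤ)) α = 0 := fun α => by
      unfold chq
      simp
    have z2 : ∀ (α : St M → T), chq (-(0 : St M → ℤ)) α = 0 := fun α => by
      unfold chq
      simp
    rw [p0, c0, z1, z2, fourier_zero_arg', one_mul, one_mul]
    push_cast
    exact Finset.prod_congr rfl fun i _ => FS_fB_eq hb rfl _
  simp only [e] at h
  rw [integral_complex_ofReal] at h
  exact_mod_cast h

end Vale.Agent.P159.H270
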