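import Vale.Agent.P159.H270.Ed2c

/-!
P159 (helper270), EXP-D: exponential moments of the increments, relative to the plain partition
function, with the wired correlation of the charges of the dislocation in front.
-/

open MeasureTheory Filter Topology
open scoped BigOperators

set_option linter.all false

namespace Vale.Agent.P159.H270

open Vale.Agent.P159 Vale.Agent.P159.H353 Vale.Agent.P159.T1.H42 Vale.Agent.P159.TM.H389
open Vale.Agent.P159.TM.H331 Vale.Agent.P159.H773 Vale.Agent.P159.H529.Qf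
open Vale.Agent.P159.TM.H77 (FS continuous_FS summable_FS norm_FS_le Dom dom_wI)

section fin

variable {M : ℕ} {b : ℝ}

lemma eP_neg (w : C(St M → T, ℝ)) (S : Set (St M)) (q : St M → ℤ) :
    eP w S (fun θ => cosT (chq (-q) θ)) = eP w S (fun θ => cosT (chq q θ)) := by
  congr 1
  funext θ
  rw [chq_neg]
  exact Real.Angle.cos_neg _

/-- **domination by the wired correlation**, `Fin` letters -/
theorem dom_fin (hb : 0 ≤ b) {Λ : Finset (ℤ × ℤ)} (hΛ : Λ ⊆ inner (M + 1)) (η : EF M → ℤ)
    {g : EF M → ℤ → ℝ} {K : EF M → ℝ} (hg : ∀ e, Dom (K e) (g e) (wI b))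
    (hj : ∀ e, Tch Λ e → g e = wI b) (x₀ : Fin (M + 2) × Fin (M + 2)) :
    (Summable fun h : {h : Fin (M + 2) × Fin (M + 2) → ℤ // h x₀ = 0} =>
        ∏ e : EF M, g e (incF η h.1 e)) ∧
    |∑' h : {h : Fin (M + 2) × Fin (M + 2) → ℤ // h x₀ = 0}, ∏ e : EF M, g e (incF η h.1 e)| ≤
      eP (WF M b) (off M Λ) (fun θ => cosT (chq (curl η) θ)) * (∏ e : EF M, K e) *
        ∑' h : {h : Fin (M + 2) × Fin (M + 2) → ℤ // h x₀ = 0},
          ∏ e : EF M, wI b (incF 0 h.1 e) := by
  have hs : ∀ e, Summable fun n => |g e n| := fun e => (hg e).1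
  have h1 := repT hs η x₀
  have hsum : Summable fun h : {h : Fin (M + 2) × Fin (M + 2) → ℤ // h x₀ = 0} =>
      ∏ e : EF M, g e (incF η h.1 e) := by
    have h2 := h1.summable
    exact_mod_cast h2
  refine ⟨hsum, ?_⟩
  have h2 := (zz_eq (M := M) hb x₀).tsum_eq
  rw [h2]
  set E := eP (WF M b) (off M Λ) (fun θ => cosT (chq (curl η) θ)) with hE
  have hK : 0 ≤ ∏ e : EF M, K e := Finset.prod_nonneg fun e _ => by
    have h3 := (norm_nonneg _).trans (FS_fB_le hb hg (eA.symm (e.1, !e.2)) 0)
    have e4 : eD (eA.symm (e.1, !e.2) : BB M) = e := by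
      unfold eD
      rw [Equiv.apply_symm_apply]
      simp
    rw [e4] at h3
    exact nonneg_of_mul_nonneg_left h3 (gS_pos b 0)
  set Kt := ∏ e : EF M, K e with hKt
  have e1 : |∑' h : {h : Fin (M + 2) × Fin (M + 2) → ℤ // h x₀ = 0},
      ∏ e : EF M, g e (incF η h.1 e)| = ‖∫ z : (Bool → T) × (St M → T),
        (fourier 1 (chq (-(pT η)) z.1) : ℂ) * (fourier 1 (chq (-(curl η)) z.2) : ℂ) *
        ∏ i : BB M, FS (fB g i) (xb sA tA lA z.1 z.2 i)
          ∂((torusHaar Bool).prod (torusHaar (St M)))‖ := by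
    rw [← h1.tsum_eq, ← Complex.ofReal_tsum, Complex.norm_real, Real.norm_eq_abs]
  rw [e1]
  -- continuity of the integrands
  have cG : Continuous fun z : (Bool → T) × (St M → T) =>
      ∏ i : BB M, gS b (xb sA tA lA z.1 z.2 i) :=
    continuous_finsetProd _ fun i _ => (gS_cont b).comp (xb_cont (V := St M) sA tA lA i)
  have cF : Continuous fun z : (Bool → T) × (St M → T) =>
      (fourier 1 (chq (-(pT η)) z.1) : ℂ) * (fourier 1 (chq (-(curl η)) z.2) : ℂ) *
        ∏ i : BB M, FS (fB g i) (xb sA tA lA z.1 z.2 i) :=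
    (((fourier 1).continuous.comp ((chq_cont _).comp continuous_fst)).mul
      ((fourier 1).continuous.comp ((chq_cont _).comp continuous_snd))).mul
      (continuous_finsetProd _ fun i _ => (continuous_FS (summable_fB hs i)).comp
        (xb_cont (V := St M) sA tA lA i))
  have iG : Integrable (fun z : (Bool → T) × (St M → T) =>
      ∏ i : BB M, gS b (xb sA tA lA z.1 z.2 i)) ((torusHaar Bool).prod (torusHaar (St M))) :=
    cG.integrable_of_hasCompactSupport (HasCompactSupport.of_compactSpace _)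
  have iF := cF.integrable_of_hasCompactSupport
    (μ := (torusHaar Bool).prod (torusHaar (St M))) (HasCompactSupport.of_compactSpace _)
  rw [integral_prod _ iF, integral_prod _ iG, ← integral_const_mul]
  refine (norm_integral_le_integral_norm _).trans ?_
  have hPG : pl (WF M b) * mi (WF M b) ∈ (PG (St M → T)).S := (WF_fer hb).wt
  have hpos : ∀ θ, 0 < WF M b θ := (WF_fer hb).pos
  have hE0 : 0 ≤ E := by
    rw [hE, ← eP_neg]
    have h5 := cond_le hPG hpos (-(curl η)) (off M Λ) 0
    have h6 := (norm_nonneg _).trans h5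
    exact nonneg_of_mul_nonneg_left h6 (eP_den_pos hpos (off M Λ))
  refine integral_mono_of_nonneg (Eventually.of_forall fun α => norm_nonneg _)
    (iG.integral_prod_left.const_mul _) (Eventually.of_forall fun α => ?_)
  simp only
  have e2 : ∀ θ : St M → T, (fourier 1 (chq (-(pT η)) α) : ℂ) *
      (fourier 1 (chq (-(curl η)) θ) : ℂ) * ∏ i : BB M, FS (fB g i) (xb sA tA lA α θ i) =
      (fourier 1 (chq (-(pT η)) α) : ℂ) * ((WF M b θ : ℂ) *
        (fourier 1 (chq (-(curl η)) θ) : ℂ) * hA b g α θ) := by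
    intro θ
    rw [prod_hA b g α θ]
    ring
  simp only [e2]
  rw [integral_const_mul, norm_mul, fourier_norm_one, one_mul]
  have h7 := outer_le hPG hpos (-(curl η)) (off M Λ) (hA_cont hs α)
    (fun θ θ' h => hA_dep hb hΛ hj α θ θ' h)
  rw [eP_neg] at h7
  refine h7.trans ?_
  rw [mul_assoc]
  refine mul_le_mul_of_nonneg_left ?_ hE0
  rw [← integral_const_mul]
  have cA : Continuous fun θ : St M → T => ∏ i : BB M, gS b (xb sA tA lA α θ i) :=
    cG.comp (continuous_const.prodMk continuous_id)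
  refine integral_mono_of_nonneg (Eventually.of_forall fun θ => ?_)
    (cint (continuous_const.mul cA)) (Eventually.of_forall fun θ => hA_norm hb hg α θ)
  exact mul_nonneg (hpos θ).le (norm_nonneg _)

end fin

end Vale.Agent.P159.H270
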