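import Vale.Agent.P159.H270.Ed2

/-!
P159 (helper270), EXP-D, part 2: the torus.
-/

open MeasureTheory Filter Topology
open scoped BigOperators

set_option linter.all false

namespace Vale.Agent.P159.H270

open Vale.Agent.P159 Vale.Agent.P159.H353 Vale.Agent.P159.T1.H42 Vale.Agent.P159.TM.H389
open Vale.Agent.P159.TM.H331 Vale.Agent.P159.H773 Vale.Agent.P159.H529.Qf
open Vale.Agent.P159.TM.H77 (FS continuous_FS summable_FS norm_FS_le Dom dom_wI)

variable {M : ℕ}

/-- edges, in `Fin` letters -/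
abbrev EF (M : ℕ) : Type := (Fin (M + 2) × Fin (M + 2)) × Bool

/-- increment of the heights along an edge, with the dislocation -/
def incF (η : EF M → ℤ) (h : Fin (M + 2) × Fin (M + 2) → ℤ) (e : EF M) : ℤ :=
  if e.2 then h (e.1 + (0, 1)) - h e.1 + η e else h (e.1 + (1, 0)) - h e.1 + η e

/-- weight of a bond of the spins -/
def fB (g : EF M → ℤ → ℝ) (i : BB M) (n : ℤ) : ℝ :=
  if (eA i).2 then g ((eA i).1, false) (-n) else g ((eA i).1, true) n

/-- label of a bond -/
def lA : BB M → Option Bool := Sum.elim (fun w => some (wu w)) fun _ => none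

/-- totals of the dislocation -/
def pT (η : EF M → ℤ) (k : Bool) : ℤ :=
  if k then -∑ i : Fin (M + 2), η ((i, 0), false) else ∑ j : Fin (M + 2), η ((0, j), true)

lemma prod_EF (F : EF M → ℝ) :
    ∏ c : EF M, F c = ∏ x : Fin (M + 2) × Fin (M + 2), (F (x, false) * F (x, true)) := by
  rw [Fintype.prod_prod_type]
  refine Finset.prod_congr rfl fun x _ => ?_
  rw [Fintype.prod_bool, mul_comm]

lemma prod_fB (g : EF M → ℤ → ℝ) (η : EF M → ℤ) (h : Fin (M + 2) × Fin (M + 2) → ℤ) :
    ∏ i : BB M, fB g i ((cuT η h ∘ eA) i) = ∏ e : EF M, g e (incF η h e) := by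
  have e : ∀ i : BB M, fB g i ((cuT η h ∘ eA) i) = (fun c : EF M =>
      if c.2 then g (c.1, false) (-cuT η h c) else g (c.1, true) (cuT η h c)) (eA i) :=
    fun i => rfl
  rw [Finset.prod_congr rfl fun i _ => e i, Equiv.prod_comp eA (fun c : EF M =>
      if c.2 then g (c.1, false) (-cuT η h c) else g (c.1, true) (cuT η h c)),
    prod_EF, prod_EF]
  refine Finset.prod_congr rfl fun x _ => ?_
  unfold cuT incF
  simp only [Bool.false_eq_true, if_false, if_true]
  rw [neg_neg, mul_comm]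

lemma totL_lA (n : BB M → ℤ) (k : Bool) : totL lA n k = tot wu (n ∘ Sum.inl) k := by
  unfold totL tot lA
  rw [Fintype.sum_sum_type]
  have e2 : ∑ x : Bd M, (if Sum.elim (fun w => some (wu w)) (fun _ => (none : Option Bool))
      (Sum.inr x : BB M) = some k then n (Sum.inr x) else 0) = 0 :=
    Finset.sum_eq_zero fun x _ => if_neg (by simp)
  rw [e2, add_zero]
  refine Finset.sum_congr rfl fun w _ => ?_
  refine if_congr ?_ rfl rfl
  show some (wu w) = some k ↔ wu w = k
  exact Option.some_inj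

lemma cut_mem (η : EF M → ℤ) (h : Fin (M + 2) × Fin (M + 2) → ℤ) :
    cuT η h ∘ eA ∈ CS (sA (M := M)) tA lA (curl η) (pT η) := by
  refine ⟨fun v => dvg_cuT η _ v, fun k' => ?_⟩
  rw [totL_lA]
  unfold pT
  cases k' with
  | false => rw [if_neg (by simp), tot_cuT_false]
  | true => rw [if_pos rfl, tot_cuT_true]

lemma cut_inj (η : EF M → ℤ) {h h' : Fin (M + 2) × Fin (M + 2) → ℤ}
    {x₀ : Fin (M + 2) × Fin (M + 2)} (e : cuT η h = cuT η h') (h0 : h x₀ = 0) (h0' : h' x₀ = 0) :
    h = h' := by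
  have h3 : ∀ x : Fin (M + 2) × Fin (M + 2), h x - h' x = h x₀ - h' x₀ := by
    intro x
    refine fin_const (fun x => h x - h' x) ?_ ?_ x x₀
    · intro x
      have h4 := congrFun e (x, true)
      simp only [cuT, if_true] at h4
      linarith
    · intro x
      have h4 := congrFun e (x, false)
      simp only [cuT, Bool.false_eq_true, if_false] at h4
      linarith
  funext x
  have h5 := h3 x
  rw [h0, h0', sub_zero] at h5
  linarith

lemma tot_true (m : EF M → ℤ) :
    tot wu ((m ∘ eA) ∘ Sum.inl) true = ∑ i : Fin (M + 2), m ((i, 0), true) := by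
  unfold tot
  rw [Fintype.sum_sum_type]
  have e1 : ∀ j : Fin (M + 2), (if wu (Sum.inl j) = true then
      ((m ∘ eA) ∘ Sum.inl) (Sum.inl j : Fin (M + 2) ⊕ Fin (M + 2)) else 0) = 0 := by
    intro i
    rw [if_neg (by simp [wu])]
  have e2 : ∀ i : Fin (M + 2), (if wu (Sum.inr i) = true then
      ((m ∘ eA) ∘ Sum.inl) (Sum.inr i : Fin (M + 2) ⊕ Fin (M + 2)) else 0) =
      m ((i, 0), true) := by
    intro i
    rw [if_pos (show wu (Sum.inr i : Fin (M + 2) ⊕ Fin (M + 2)) = true from rfl)]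
    rfl
  rw [Finset.sum_congr rfl fun j _ => e1 j, Finset.sum_congr rfl fun j _ => e2 j,
    Finset.sum_const_zero, zero_add]

lemma tot_false (m : EF M → ℤ) :
    tot wu ((m ∘ eA) ∘ Sum.inl) false = ∑ j : Fin (M + 2), m ((0, j), false) := by
  unfold tot
  rw [Fintype.sum_sum_type]
  have e1 : ∀ j : Fin (M + 2), (if wu (Sum.inl j) = false then
      ((m ∘ eA) ∘ Sum.inl) (Sum.inl j : Fin (M + 2) ⊕ Fin (M + 2)) else 0) =
      m ((0, j), false) := by
    intro i
    rw [if_pos (show wu (Sum.inl i : Fin (M + 2) ⊕ Fin (M + 2)) = false from rfl)]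
    rfl
  have e2 : ∀ i : Fin (M + 2), (if wu (Sum.inr i) = false then
      ((m ∘ eA) ∘ Sum.inl) (Sum.inr i : Fin (M + 2) ⊕ Fin (M + 2)) else 0) = 0 := by
    intro i
    rw [if_neg (by simp [wu])]
  rw [Finset.sum_congr rfl fun j _ => e1 j, Finset.sum_congr rfl fun j _ => e2 j,
    Finset.sum_const_zero, add_zero]

lemma cut_surj (η : EF M → ℤ) (x₀ : Fin (M + 2) × Fin (M + 2)) (m : EF M → ℤ)
    (hn : m ∘ eA ∈ CS (sA (M := M)) tA lA (curl η) (pT η)) :
    ∃ h : Fin (M + 2) × Fin (M + 2) → ℤ, h x₀ = 0 ∧ cuT η h = m := by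
  obtain ⟨h1, h2⟩ := hn
  have hcurl : ∀ x : Fin (M + 2) × Fin (M + 2),
      (-m (x, true) - η (x, false)) + (m (x + (1, 0), false) - η (x + (1, 0), true)) -
        (-m (x + (0, 1), true) - η (x + (0, 1), false)) - (m (x, false) - η (x, true)) = 0 := by
    intro x
    have h3 := h1 x
    rw [dvg_tor] at h3
    unfold curl at h3
    linarith
  have hA : ∑ i : Fin (M + 2), (-m ((i, 0), true) - η ((i, 0), false)) = 0 := by
    have h3 := h2 true
    rw [totL_lA, tot_true] at h3
    rw [Finset.sum_sub_distrib, Finset.sum_neg_distrib, h3]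
    unfold pT
    rw [if_pos rfl]
    ring
  have hB : ∑ j : Fin (M + 2), (m ((0, j), false) - η ((0, j), true)) = 0 := by
    have h3 := h2 false
    rw [totL_lA, tot_false] at h3
    rw [Finset.sum_sub_distrib, h3]
    unfold pT
    rw [if_neg (by simp)]
    ring
  obtain ⟨h0, hh0⟩ := fin_pot (fun x => -m (x, true) - η (x, false))
    (fun x => m (x, false) - η (x, true)) hcurl hA hB
  refine ⟨fun x => h0 x - h0 x₀, sub_self _, ?_⟩
  funext c
  obtain ⟨x, k⟩ := c
  have h5 := hh0 x
  rcases k with _ | _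
  · simp only [cuT, Bool.false_eq_true, if_false]
    linarith [h5.2]
  · simp only [cuT, if_true]
    linarith [h5.1]

/-- pinned heights and currents -/
noncomputable def hcE (η : EF M → ℤ) (x₀ : Fin (M + 2) × Fin (M + 2)) :
    {h : Fin (M + 2) × Fin (M + 2) → ℤ // h x₀ = 0} ≃
      CS (sA (M := M)) tA lA (curl η) (pT η) :=
  Equiv.ofBijective (fun h => ⟨cuT η h.1 ∘ eA, cut_mem η h.1⟩) (by
    constructor
    · intro h h' hh
      have h1 : cuT η h.1 ∘ eA = cuT η h'.1 ∘ eA := congrArg Subtype.val hh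
      have h2 : cuT η h.1 = cuT η h'.1 := by
        funext c
        have h2 := congrFun h1 (eA.symm c)
        simpa using h2
      exact Subtype.ext (cut_inj η h2 h.2 h'.2)
    · intro n
      obtain ⟨h, h0, h1⟩ := cut_surj η x₀ (n.1 ∘ eA.symm) (by
        have e : (n.1 ∘ eA.symm) ∘ eA = n.1 := by
          funext i
          simp
        rw [e]
        exact n.2)
      refine ⟨⟨h, h0⟩, Subtype.ext ?_⟩
      show cuT η h ∘ eA = n.1
      rw [h1]
      funext i
      simp)

/-- **sums over pinned heights with a dislocation** -/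
theorem repT {g : EF M → ℤ → ℝ} (hg : ∀ e, Summable fun n => |g e n|) (η : EF M → ℤ)
    (x₀ : Fin (M + 2) × Fin (M + 2)) :
    HasSum (fun h : {h : Fin (M + 2) × Fin (M + 2) → ℤ // h x₀ = 0} =>
        ((∏ e : EF M, g e (incF η h.1 e) : ℝ) : ℂ))
      (∫ z : (Bool → T) × (St M → T), (fourier 1 (chq (-(pT η)) z.1) : ℂ) *
        (fourier 1 (chq (-(curl η)) z.2) : ℂ) *
        ∏ i : BB M, FS (fB g i) (xb sA tA lA z.1 z.2 i)
          ∂((torusHaar Bool).prod (torusHaar (St M)))) := by
  have hf : ∀ i : BB M, Summable fun n => |fB g i n| := by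
    intro i
    unfold fB
    by_cases h : (eA i).2 = true
    · simp only [h, if_true]
      exact (Equiv.neg ℤ).summable_iff.2 (hg ((eA i).1, false))
    · simp only [h, if_false]
      exact hg ((eA i).1, true)
  have h := repA (sA (M := M)) tA lA hf (curl η) (pT η)
  have h1 := (hcE η x₀).hasSum_iff.2 h
  convert h1 using 1
  funext k
  show _ = ((∏ i : BB M, fB g i ((cuT η k.1 ∘ eA) i) : ℝ) : ℂ)
  rw [prod_fB]

end Vale.Agent.P159.H270
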