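import Vale.Agent.P159.H883.Brg5
import Vale.Agent.P159.H883.Twr5

/-!
P159 (helper270), Ed3 (i): the law of the field under `Psi nu / C` (heights of the dislocated model
plus white noise), the noise part of the event `R(2 s F) > r`, and the union bound.
-/

set_option linter.unusedSectionVars false

namespace Vale.Agent.P159.H270

open Finset Matrix MeasureTheory
open Vale.Agent.P159.H37 (re gau)
open Vale.Agent.P159.H963 (pin MF GW)
open Vale.Agent.P159.H883 (BW CI XG Zp Psi Enu nuM mf_one nuM_ci)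

noncomputable section

variable {V : Type} [Fintype V] [DecidableEq V] [Nonempty V] {w wD : (V → ℤ) → ℝ} {t : ℝ}
  {x₀ : V}

/-- the indicator as a real function -/
def ind (S : Set (V → ℝ)) (F : V → ℝ) : ℝ := S.indicator (fun _ => (1 : ℝ)) F

lemma ind_ci {S : Set (V → ℝ)} (hc : CI fun F => F ∈ S) : CI (ind S) := by
  intro F c
  unfold ind
  have h : ((fun x => F x + c) ∈ S) = (F ∈ S) := hc F c
  by_cases h0 : F ∈ S
  · have h1 : (fun x => F x + c) ∈ S := by rw [h]; exact h0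
    rw [Set.indicator_of_mem h0, Set.indicator_of_mem h1]
  · have h1 : (fun x => F x + c) ∉ S := by rw [h]; exact h0
    rw [Set.indicator_of_notMem h0, Set.indicator_of_notMem h1]

lemma ind_meas {S : Set (V → ℝ)} (hS : MeasurableSet S) : Measurable (ind S) :=
  measurable_const.indicator hS

lemma ind_xg {S : Set (V → ℝ)} (hS : MeasurableSet S) : XG (ind S) := by
  refine XG.of_bdd (ind_meas hS) (C := 1) fun g => ?_
  unfold ind
  by_cases h : g ∈ S
  · rw [Set.indicator_of_mem h]; simp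
  · rw [Set.indicator_of_notMem h]; simp

/-- probability that the height `h` plus noise is in `S` -/
def pN (t : ℝ) (S : Set (V → ℝ)) (u : V → ℝ) : ℝ :=
  (gau V).real {g | u + (√t)⁻¹ • g ∈ S}

lemma pN_nonneg (t : ℝ) (S : Set (V → ℝ)) (u : V → ℝ) : 0 ≤ pN t S u := measureReal_nonneg

lemma pN_le_one (t : ℝ) (S : Set (V → ℝ)) (u : V → ℝ) : pN t S u ≤ 1 := measureReal_le_one

lemma meas_line (t : ℝ) (u : V → ℝ) : Measurable fun g : V → ℝ => u + (√t)⁻¹ • g :=
  (continuous_const.add (continuous_const_smul _)).measurable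

lemma pN_eq (t : ℝ) {S : Set (V → ℝ)} (hS : MeasurableSet S) (u : V → ℝ) :
    ∫ g, ind S (u + (√t)⁻¹ • g) ∂(gau V) = pN t S u := by
  unfold pN ind
  have h : MeasurableSet {g : V → ℝ | u + (√t)⁻¹ • g ∈ S} := meas_line t u hS
  rw [← integral_indicator_one h]
  rfl

/-- **the law of the dislocated model: heights plus white noise** -/
theorem law_set (ht : 0 < t) (hG : GW w) (hw : BW w) (hD : BW wD) (x₀ : V) (φ : V → ℝ)
    {S : Set (V → ℝ)} (hc : CI fun F => F ∈ S) (hS : MeasurableSet S) :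
    Summable (fun h => pin wD x₀ h * pN t S (re h - φ)) ∧
    ∫ F in S, Psi w wD (t • (1 : Matrix V V ℝ)) φ F ∂(nuM w (t • (1 : Matrix V V ℝ)) x₀) =
      (∑' h, pin wD x₀ h * pN t S (re h - φ)) / Zp w x₀ := by
  have hM := mf_one (V := V) ht
  have hic := ind_ci hc
  have hime := ind_meas hS
  have hPc := (H883.continuous_Psi hw hD hM φ).measurable
  have hcs : CI fun F : V → ℝ => ind S (F - φ) := by
    have := hic.shift (-φ)
    simpa only [sub_eq_add_neg] using this
  have hxs : XG fun F : V → ℝ => ind S (F - φ) := by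
    have h1 := (ind_xg hS).shift (-φ)
    have e : (fun F : V → ℝ => ind S (-φ + F)) = fun F : V → ℝ => ind S (F - φ) := by
      funext F
      rw [sub_eq_add_neg, add_comm]
    rw [← e]
    exact h1
  have g1 := H883.Enu_gau ht hD x₀ hcs hxs
  have e1 : ∀ h : V → ℤ, ∫ g, ind S (re h + (√t)⁻¹ • g - φ) ∂(gau V) = pN t S (re h - φ) := by
    intro h
    rw [← pN_eq t hS]
    refine integral_congr_ae (Filter.Eventually.of_forall fun g => ?_)
    simp only
    congr 1
    abel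
  simp only [e1] at g1
  refine ⟨g1.1, ?_⟩
  have h2 : ∫ F in S, Psi w wD (t • (1 : Matrix V V ℝ)) φ F ∂(nuM w (t • (1 : Matrix V V ℝ)) x₀) =
      ∫ F, Psi w wD (t • (1 : Matrix V V ℝ)) φ F * ind S F
        ∂(nuM w (t • (1 : Matrix V V ℝ)) x₀) := by
    rw [← integral_indicator hS]
    refine integral_congr_ae (Filter.Eventually.of_forall fun F => ?_)
    simp only
    unfold ind
    by_cases h : F ∈ S
    · rw [Set.indicator_of_mem h, Set.indicator_of_mem h, mul_one]
    · rw [Set.indicator_of_notMem h, Set.indicator_of_notMem h, mul_zero]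
  rw [h2, (nuM_ci hG hw hM x₀ ((H883.ci_Psi hw hD φ).mul hic) (hPc.mul hime)).2,
    H883.EQ_eq hw hD hM x₀ φ hic]
  unfold H883.EQ
  rw [g1.2]
  have h3 := (hD.Zp_pos x₀).ne'
  field_simp

/-- the law itself -/
theorem nu_set (ht : 0 < t) (hG : GW w) (hw : BW w) (x₀ : V)
    {S : Set (V → ℝ)} (hc : CI fun F => F ∈ S) (hS : MeasurableSet S) :
    Summable (fun h => pin w x₀ h * pN t S (re h)) ∧
    (nuM w (t • (1 : Matrix V V ℝ)) x₀).real S = (∑' h, pin w x₀ h * pN t S (re h)) / Zp w x₀ := by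
  have hM := mf_one (V := V) ht
  have g1 := H883.Enu_gau ht hw x₀ (ind_ci hc) (ind_xg hS)
  have e1 : ∀ h : V → ℤ, ∫ g, ind S (re h + (√t)⁻¹ • g) ∂(gau V) = pN t S (re h) :=
    fun h => pN_eq t hS (re h)
  simp only [e1] at g1
  refine ⟨g1.1, ?_⟩
  rw [← g1.2, ← (nuM_ci hG hw hM x₀ (ind_ci hc) (ind_meas hS)).2]
  unfold ind
  exact (integral_indicator_one hS).symm

/-! ### convex even functionals -/

/-- superlevel set -/
def Sup (Rf : (V → ℝ) → ℝ) (s r : ℝ) : Set (V → ℝ) := {F | r < Rf (s • F)}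

lemma sup_meas {Rf : (V → ℝ) → ℝ} (hR : Continuous Rf) (s r : ℝ) : MeasurableSet (Sup Rf s r) :=
  measurableSet_lt measurable_const (hR.comp (continuous_const_smul s)).measurable

lemma sup_ci {Rf : (V → ℝ) → ℝ} (hc : CI Rf) (s r : ℝ) : CI fun F => F ∈ Sup Rf s r := by
  intro F c
  unfold Sup
  have e : s • (fun x => F x + c) = fun x => (s • F) x + s * c := by
    funext x
    simp only [Pi.smul_apply, smul_eq_mul]
    ring
  show (r < Rf (s • fun x => F x + c)) = (r < Rf (s • F))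
  rw [e, hc]

/-- midpoint convexity -/
lemma conv_mid {Rf : (V → ℝ) → ℝ} (hc : ConvexOn ℝ Set.univ Rf) (F G : V → ℝ) :
    Rf F ≤ (Rf (F + G) + Rf (F - G)) / 2 := by
  have h1 := hc.2 (Set.mem_univ (F + G)) (Set.mem_univ (F - G))
    (show (0 : ℝ) ≤ 1 / 2 by norm_num) (show (0 : ℝ) ≤ 1 / 2 by norm_num) (by norm_num)
  have e : (1 / 2 : ℝ) • (F + G) + (1 / 2 : ℝ) • (F - G) = F := by
    funext x
    simp only [Pi.add_apply, Pi.smul_apply, Pi.sub_apply, smul_eq_mul]
    ring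
  rw [e] at h1
  simp only [smul_eq_mul] at h1
  linarith

/-- three pieces -/
lemma conv3 {Rf : (V → ℝ) → ℝ} (hc : ConvexOn ℝ Set.univ Rf) (s : ℝ) (F G H : V → ℝ) :
    Rf (s • (F + G + H)) ≤ (Rf ((3 * s) • F) + Rf ((3 * s) • G) + Rf ((3 * s) • H)) / 3 := by
  have h1 := hc.2 (Set.mem_univ ((3 * s) • F)) (Set.mem_univ ((3 * s) • G))
    (show (0 : ℝ) ≤ 1 / 2 by norm_num) (show (0 : ℝ) ≤ 1 / 2 by norm_num) (by norm_num)
  have h2 := hc.2 (Set.mem_univ ((1 / 2 : ℝ) • (3 * s) • F + (1 / 2 : ℝ) • (3 * s) • G))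
    (Set.mem_univ ((3 * s) • H)) (show (0 : ℝ) ≤ 2 / 3 by norm_num)
    (show (0 : ℝ) ≤ 1 / 3 by norm_num) (by norm_num)
  have e : s • (F + G + H) =
      (2 / 3 : ℝ) • ((1 / 2 : ℝ) • (3 * s) • F + (1 / 2 : ℝ) • (3 * s) • G) +
        (1 / 3 : ℝ) • ((3 * s) • H) := by
    funext x
    simp only [Pi.add_apply, Pi.smul_apply, smul_eq_mul]
    ring
  rw [e]
  simp only [smul_eq_mul] at h1 h2
  linarith

/-- **the noise part**: pure noise is at most as bad as twice the law itself -/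
theorem noise_le (ht : 0 < t) (hG : GW w) (hw : BW w) (x₀ : V) {Rf : (V → ℝ) → ℝ}
    (hR : Continuous Rf) (hci : CI Rf) (hc : ConvexOn ℝ Set.univ Rf) (s r : ℝ) :
    pN t (Sup Rf s r) 0 ≤ 2 * (nuM w (t • (1 : Matrix V V ℝ)) x₀).real (Sup Rf s r) := by
  obtain ⟨h1, h2⟩ := nu_set ht hG hw x₀ (sup_ci hci s r) (sup_meas hR s r)
  have hZ := hw.Zp_pos x₀
  have hsum : Summable (pin w x₀) := by
    have := (hw.em0 x₀).sum 0
    simpa using this
  have hpin : ∀ h, 0 ≤ pin w x₀ h := H963.pin_nonneg hw.nn x₀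
  have hneg : ∀ h, pin w x₀ (-h) = pin w x₀ h := by
    intro h
    by_cases h0 : h x₀ = 0
    · have h0' : (-h) x₀ = 0 := by rw [Pi.neg_apply, h0, neg_zero]
      rw [H963.pin_of_zero h0, H963.pin_of_zero h0', hG.ev]
    · have h0' : (-h) x₀ ≠ 0 := by rw [Pi.neg_apply]; exact neg_ne_zero.2 h0
      rw [H963.pin_of_ne h0, H963.pin_of_ne h0']
  -- pointwise
  have key : ∀ h : V → ℤ, pN t (Sup Rf s r) 0 ≤
      pN t (Sup Rf s r) (re h) + pN t (Sup Rf s r) (re (-h)) := by
    intro h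
    unfold pN
    refine le_trans (measureReal_mono (s₂ := {g | re h + (√t)⁻¹ • g ∈ Sup Rf s r} ∪
      {g | re (-h) + (√t)⁻¹ • g ∈ Sup Rf s r}) ?_ (measure_ne_top _ _))
      (measureReal_union_le _ _)
    intro g hg
    have hg' : r < Rf (s • (0 + (√t)⁻¹ • g)) := hg
    rw [zero_add] at hg'
    by_contra hn
    rw [Set.mem_union, not_or] at hn
    have n1 : Rf (s • (re h + (√t)⁻¹ • g)) ≤ r := not_lt.1 hn.1
    have n2 : Rf (s • (re (-h) + (√t)⁻¹ • g)) ≤ r := not_lt.1 hn.2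
    have n3 := conv_mid hc (s • (√t)⁻¹ • g) (s • re h)
    have e1 : s • (√t)⁻¹ • g + s • re h = s • (re h + (√t)⁻¹ • g) := by
      rw [smul_add, add_comm]
    have e2 : s • (√t)⁻¹ • g - s • re h = s • (re (-h) + (√t)⁻¹ • g) := by
      have : re (-h) = -re h := by
        funext x
        show (((-h) x : ℤ) : ℝ) = -((h x : ℤ) : ℝ)
        rw [Pi.neg_apply]
        push_cast
        rfl
      rw [this, smul_add, smul_neg]
      abel
    rw [e1, e2] at n3
    linarith
  have hs2 : Summable fun h => pin w x₀ h * pN t (Sup Rf s r) (re (-h)) := by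
    have := (Equiv.neg (V → ℤ)).summable_iff.2 h1
    refine this.congr fun h => ?_
    simp only [Function.comp_apply, Equiv.neg_apply]
    rw [hneg]
  have e3 : ∑' h, pin w x₀ h * pN t (Sup Rf s r) (re (-h)) =
      ∑' h, pin w x₀ h * pN t (Sup Rf s r) (re h) := by
    rw [← (Equiv.neg (V → ℤ)).tsum_eq fun h => pin w x₀ h * pN t (Sup Rf s r) (re h)]
    refine tsum_congr fun h => ?_
    simp only [Equiv.neg_apply]
    rw [hneg]
  have h4 : Zp w x₀ * pN t (Sup Rf s r) 0 ≤
      2 * ∑' h, pin w x₀ h * pN t (Sup Rf s r) (re h) := by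
    have h5 : Zp w x₀ * pN t (Sup Rf s r) 0 = ∑' h, pin w x₀ h * pN t (Sup Rf s r) 0 := by
      unfold H883.Zp
      rw [tsum_mul_right]
    have h6 : ∑' h, (pin w x₀ h * pN t (Sup Rf s r) (re h) +
        pin w x₀ h * pN t (Sup Rf s r) (re (-h))) =
        2 * ∑' h, pin w x₀ h * pN t (Sup Rf s r) (re h) := by
      rw [h1.tsum_add hs2, e3, two_mul]
    rw [h5, ← h6]
    refine Summable.tsum_le_tsum (fun h => ?_) (hsum.mul_right _) (h1.add hs2)
    rw [← mul_add]
    exact mul_le_mul_of_nonneg_left (key h) (hpin h)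
  rw [h2]
  have h7 : pN t (Sup Rf s r) 0 = Zp w x₀ * pN t (Sup Rf s r) 0 / Zp w x₀ := by
    field_simp
  rw [h7, ← mul_div_assoc]
  exact div_le_div_of_nonneg_right h4 hZ.le

/-- **the union bound** under `Psi nu`: noise, and two pieces of the heights -/
theorem union_le (ht : 0 < t) (hG : GW w) (hw : BW w) (hD : BW wD) (x₀ : V) (φ : V → ℝ)
    {Rf : (V → ℝ) → ℝ} (hR : Continuous Rf) (hci : CI Rf) (hc : ConvexOn ℝ Set.univ Rf)
    (s r : ℝ) (A B : (V → ℤ) → (V → ℝ)) (hAB : ∀ h, re h - φ = A h + B h) {qA qB : ℝ}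
    (hA : ∑' h, Set.indicator {h | r < Rf ((3 * s) • A h)} (pin wD x₀) h ≤ qA * Zp wD x₀)
    (hB : ∑' h, Set.indicator {h | r < Rf ((3 * s) • B h)} (pin wD x₀) h ≤ qB * Zp wD x₀) :
    ∫ F in Sup Rf s r, Psi w wD (t • (1 : Matrix V V ℝ)) φ F
        ∂(nuM w (t • (1 : Matrix V V ℝ)) x₀) ≤
      (2 * (nuM w (t • (1 : Matrix V V ℝ)) x₀).real (Sup Rf (3 * s) r) + qA + qB) *
        (Zp wD x₀ / Zp w x₀) := by
  classical
  obtain ⟨h1, h2⟩ := law_set ht hG hw hD x₀ φ (sup_ci hci s r) (sup_meas hR s r)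
  have hZ := hw.Zp_pos x₀
  have hsum : Summable (pin wD x₀) := by
    have := (hD.em0 x₀).sum 0
    simpa using this
  have hpin : ∀ h, 0 ≤ pin wD x₀ h := H963.pin_nonneg hD.nn x₀
  set iA : (V → ℤ) → ℝ := fun h => if r < Rf ((3 * s) • A h) then 1 else 0 with hiA
  set iB : (V → ℤ) → ℝ := fun h => if r < Rf ((3 * s) • B h) then 1 else 0 with hiB
  have key : ∀ h : V → ℤ, pN t (Sup Rf s r) (re h - φ) ≤
      pN t (Sup Rf (3 * s) r) 0 + iA h + iB h := by
    intro h
    by_cases ha : r < Rf ((3 * s) • A h)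
    · have e1 : iA h = 1 := if_pos ha
      have e2 : 0 ≤ iB h := by
        simp only [hiB]
        split_ifs <;> norm_num
      have := pN_le_one t (Sup Rf s r) (re h - φ)
      have := pN_nonneg t (Sup Rf (3 * s) r) 0
      linarith
    by_cases hb : r < Rf ((3 * s) • B h)
    · have e1 : iB h = 1 := if_pos hb
      have e2 : 0 ≤ iA h := by
        simp only [hiA]
        split_ifs <;> norm_num
      have := pN_le_one t (Sup Rf s r) (re h - φ)
      have := pN_nonneg t (Sup Rf (3 * s) r) 0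
      linarith
    have e1 : iA h = 0 := if_neg ha
    have e2 : iB h = 0 := if_neg hb
    rw [e1, e2, add_zero, add_zero]
    unfold pN
    refine measureReal_mono ?_ (measure_ne_top _ _)
    intro g hg
    have hg' : r < Rf (s • (re h - φ + (√t)⁻¹ • g)) := hg
    show r < Rf ((3 * s) • (0 + (√t)⁻¹ • g))
    rw [zero_add]
    by_contra hn
    have n1 := not_lt.1 hn
    have n2 := not_lt.1 ha
    have n3 := not_lt.1 hb
    have n4 := conv3 hc s (A h) (B h) ((√t)⁻¹ • g)
    rw [← hAB] at n4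
    linarith
  have hsA : Summable (Set.indicator {h | r < Rf ((3 * s) • A h)} (pin wD x₀)) :=
    hsum.indicator _
  have hsB : Summable (Set.indicator {h | r < Rf ((3 * s) • B h)} (pin wD x₀)) :=
    hsum.indicator _
  have eA : ∀ h, pin wD x₀ h * iA h = Set.indicator {h | r < Rf ((3 * s) • A h)} (pin wD x₀) h := by
    intro h
    by_cases ha : r < Rf ((3 * s) • A h)
    · rw [Set.indicator_of_mem (show h ∈ {h | r < Rf ((3 * s) • A h)} from ha)]
      simp only [hiA, if_pos ha, mul_one]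
    · rw [Set.indicator_of_notMem (show h ∉ {h | r < Rf ((3 * s) • A h)} from ha)]
      simp only [hiA, if_neg ha, mul_zero]
  have eB : ∀ h, pin wD x₀ h * iB h = Set.indicator {h | r < Rf ((3 * s) • B h)} (pin wD x₀) h := by
    intro h
    by_cases ha : r < Rf ((3 * s) • B h)
    · rw [Set.indicator_of_mem (show h ∈ {h | r < Rf ((3 * s) • B h)} from ha)]
      simp only [hiB, if_pos ha, mul_one]
    · rw [Set.indicator_of_notMem (show h ∉ {h | r < Rf ((3 * s) • B h)} from ha)]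
      simp only [hiB, if_neg ha, mul_zero]
  have h3 : ∑' h, pin wD x₀ h * pN t (Sup Rf s r) (re h - φ) ≤
      Zp wD x₀ * pN t (Sup Rf (3 * s) r) 0 + qA * Zp wD x₀ + qB * Zp wD x₀ := by
    have h4 : ∑' h, ((pin wD x₀ h * pN t (Sup Rf (3 * s) r) 0 +
        Set.indicator {h | r < Rf ((3 * s) • A h)} (pin wD x₀) h) +
        Set.indicator {h | r < Rf ((3 * s) • B h)} (pin wD x₀) h) ≤
        Zp wD x₀ * pN t (Sup Rf (3 * s) r) 0 + qA * Zp wD x₀ + qB * Zp wD x₀ := by
      rw [((hsum.mul_right _).add hsA).tsum_add hsB, (hsum.mul_right _).tsum_add hsA]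
      refine add_le_add (add_le_add (le_of_eq ?_) hA) hB
      unfold H883.Zp
      rw [tsum_mul_right]
    refine le_trans (Summable.tsum_le_tsum (fun h => ?_) h1
      (((hsum.mul_right _).add hsA).add hsB)) h4
    rw [← eA, ← eB, ← mul_add, ← mul_add]
    exact mul_le_mul_of_nonneg_left (key h) (hpin h)
  have h5 := noise_le ht hG hw x₀ hR hci hc (3 * s) r
  have hZD := hD.Zp_pos x₀
  rw [h2]
  calc (∑' h, pin wD x₀ h * pN t (Sup Rf s r) (re h - φ)) / Zp w x₀
      ≤ (Zp wD x₀ * pN t (Sup Rf (3 * s) r) 0 + qA * Zp wD x₀ + qB * Zp wD x₀) / Zp w x₀ :=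
        div_le_div_of_nonneg_right h3 hZ.le
    _ = (pN t (Sup Rf (3 * s) r) 0 + qA + qB) * (Zp wD x₀ / Zp w x₀) := by ring
    _ ≤ _ := by
        refine mul_le_mul_of_nonneg_right ?_ (div_nonneg hZD.le hZ.le)
        linarith

end

end Vale.Agent.P159.H270
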