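import Vale.Agent.P159.H270.Ed2e
import Vale.Agent.P159.H340.Ed3c

/-!
P159 (helper270), Ed3: the hypotheses `ExpD`, `ExpB` of helper276 / helper340 from EXP-D, with
their prices.
-/

set_option linter.unusedSectionVars false

namespace Vale.Agent.P159.H270

open Finset
open Vale.Agent.P159 (inner)
open Vale.Agent.P159.TM.SpecC (wT Tor)
open Vale.Agent.P159.H773 (cv curl off)
open Vale.Agent.P159.H529.Qf (bxq)
open Vale.Agent.P159.H963 (pin)
open Vale.Agent.P159.H883 (Zp CT)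
open Vale.Agent.P159.H770 (Ed eS eT wTD)
open Vale.Agent.P159.H276 (ExpD)
open Vale.Agent.P159.H340 (ExpB)

noncomputable section

variable {M : ℕ} {b : ℝ}

/-- the price of a dislocation -/
def pr0 (N : ℕ) [NeZero N] (b : ℝ) (η : Ed N → ℤ) (x₀ : Tor N) : ℝ :=
  Zp (wT b N) x₀ / Zp (wTD N b η) x₀

lemma pr0_pos {N : ℕ} [NeZero N] (hb : 0 < b) (η : Ed N → ℤ) (x₀ : Tor N) : 0 < pr0 N b η x₀ :=
  div_pos ((H883.bw_wT hb).Zp_pos x₀) ((H883.bw_wTD hb η).Zp_pos x₀)

lemma pr0_mul {N : ℕ} [NeZero N] (hb : 0 < b) (η : Ed N → ℤ) (x₀ : Tor N) :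
    pr0 N b η x₀ * Zp (wTD N b η) x₀ = Zp (wT b N) x₀ :=
  div_mul_cancel₀ _ ((H883.bw_wTD hb η).Zp_pos x₀).ne'

/-- at the site `0` the price is `1 / CT` -/
lemma pr0_CT {N : ℕ} [NeZero N] (η : Ed N → ℤ) : pr0 N b η 0 = 1 / CT N b η := by
  unfold pr0 H883.CT
  rw [H770.wTD_zero, one_div_div]

/-- **the bare bound**, price `1 / CT` -/
theorem expD_of (hb : 0 < b) (η : Ed (M + 2) → ℤ) (x₀ : Tor (M + 2)) :
    ExpD (M + 2) b η x₀ (pr0 (M + 2) b η x₀) := by
  intro j
  have h := expD0 (M := M) hb.le η x₀ j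
  refine ⟨h.1, h.2.trans (le_of_eq ?_)⟩
  rw [mul_assoc, mul_comm (pr0 (M + 2) b η x₀), mul_assoc, mul_comm _ (pr0 (M + 2) b η x₀),
    pr0_mul hb]

/-- the edges which touch the region -/
def tchS (M : ℕ) (Λ : Finset (ℤ × ℤ)) : Finset (Ed (M + 2)) :=
  @Finset.filter (Ed (M + 2)) (fun e => Tch (M := M) Λ e) (Classical.decPred _) Finset.univ

lemma mem_tchS {Λ : Finset (ℤ × ℤ)} {e : Ed (M + 2)} : e ∈ tchS M Λ ↔ Tch (M := M) Λ e := by
  exact (@Finset.mem_filter _ _ (Classical.decPred _) _ _).trans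
    ⟨fun h => h.2, fun h => ⟨Finset.mem_univ _, h⟩⟩

/-- **EXP-D**, price `EQ / CT` off the bad edges -/
theorem expB_of (hb : 0 < b) {Λ : Finset (ℤ × ℤ)} (hΛ : Λ ⊆ inner (M + 1)) {q : ℤ × ℤ → ℤ}
    {η : Ed (M + 2) → ℤ} (hη : ∀ v, curl (M := M) η v = bxq M q v) (x₀ : Tor (M + 2)) :
    ExpB (M + 2) b η x₀ (tchS M Λ) (H529.Qf.EQ b Λ q * pr0 (M + 2) b η x₀) := by
  intro j hj
  have h := expD (M := M) hb.le hΛ hη x₀ j fun e he => hj e (mem_tchS.2 he)
  refine ⟨h.1, h.2.trans (le_of_eq ?_)⟩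
  rw [← pr0_mul hb η x₀]
  ring

/-- number of bad edges -/
lemma tchS_card (M : ℕ) (Λ : Finset (ℤ × ℤ)) : (tchS M Λ).card ≤ 4 * Λ.card := by
  classical
  -- shifted preimages
  have key : ∀ (d : Tor (M + 2)),
      (Finset.univ.filter fun x : Tor (M + 2) => cv (M := M) ((x - d : Tor (M + 2))) ∈ Λ).card ≤ Λ.card := by
    intro d
    refine Finset.card_le_card_of_injOn (fun x : Tor (M + 2) => cv (M := M) ((x - d : Tor (M + 2)))) ?_ ?_
    · intro x hx
      exact (Finset.mem_filter.1 hx).2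
    · intro x _ y _ h
      exact sub_left_injective (H773.cv_inj h)
  have hsub : tchS M Λ ⊆
      (((Finset.univ.filter fun x : Tor (M + 2) => cv (M := M) ((x - 0 : Tor (M + 2))) ∈ Λ) ×ˢ
        (Finset.univ : Finset Bool)) ∪
      (Finset.univ.filter fun x : Tor (M + 2) => cv (M := M) ((x - (1, 0) : Tor (M + 2))) ∈ Λ) ×ˢ {true}) ∪
      (Finset.univ.filter fun x : Tor (M + 2) => cv (M := M) ((x - (0, 1) : Tor (M + 2))) ∈ Λ) ×ˢ {false} := by
    rintro ⟨x, k⟩ he
    rw [mem_tchS] at he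
    rcases he with he | he
    · refine Finset.mem_union_left _ (Finset.mem_union_left _ (Finset.mem_product.2 ⟨?_, ?_⟩))
      · refine Finset.mem_filter.2 ⟨Finset.mem_univ _, ?_⟩
        rw [sub_zero]
        exact he
      · exact Finset.mem_univ _
    · cases k with
      | true =>
        refine Finset.mem_union_left _ (Finset.mem_union_right _ (Finset.mem_product.2 ⟨?_, ?_⟩))
        · exact Finset.mem_filter.2 ⟨Finset.mem_univ _, he⟩
        · exact Finset.mem_singleton_self _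
      | false =>
        refine Finset.mem_union_right _ (Finset.mem_product.2 ⟨?_, ?_⟩)
        · exact Finset.mem_filter.2 ⟨Finset.mem_univ _, he⟩
        · exact Finset.mem_singleton_self _
  refine (Finset.card_le_card hsub).trans ?_
  refine (Finset.card_union_le _ _).trans ?_
  refine (Nat.add_le_add_right (Finset.card_union_le _ _) _).trans ?_
  rw [Finset.card_product, Finset.card_product, Finset.card_product, Finset.card_singleton,
    Finset.card_singleton, Finset.card_univ, Fintype.card_bool]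
  have k1 := key 0
  have k2 := key (1, 0)
  have k3 := key (0, 1)
  omega

end

end Vale.Agent.P159.H270
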