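import Vale.Agent.P159.H270.Ed3p
import Vale.Agent.P159.H883.Trl3
import Vale.Agent.P159.H253.Sm6

/-!
P159 (helper270), Ed3: prices of far pairs in general position on the torus: `ExpB` with the price
`mm b r ^ 2 / CT` off the balls of radius `r` around the two cores.
-/

set_option linter.unusedSectionVars false

namespace Vale.Agent.P159.H270

open Finset
open Vale.Agent.P159 (inner)
open Vale.Agent.P159.TM.SpecC (wT Tor)
open Vale.Agent.P159.H773 (cv curl off mm)
open Vale.Agent.P159.H529.Qf (bxq)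
open Vale.Agent.P159.H963 (pin)
open Vale.Agent.P159.H883 (Zp CT trE)
open Vale.Agent.P159.H770 (Ed eS eT wTD)
open Vale.Agent.P159.H276 (ExpD)
open Vale.Agent.P159.H340 (ExpB)
open Vale.Agent.P159.H513 (cuZ)
open Vale.Agent.P159.H253.Sm (cz qs)

noncomputable section

section tr

variable {N : ℕ} [NeZero N] {b : ℝ}

/-- translation of heights -/
def trH (a : Tor N) : (Tor N → ℤ) ≃ (Tor N → ℤ) :=
  Equiv.arrowCongr (Equiv.subRight a) (Equiv.refl ℤ)

lemma trH_apply (a : Tor N) (h : Tor N → ℤ) : trH a h = fun x => h (x + a) := rfl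

/-- translated edge -/
def shE (a : Tor N) : Ed N ≃ Ed N := (Equiv.addRight a).prodCongr (Equiv.refl Bool)

lemma shE_apply (a : Tor N) (e : Ed N) : shE a e = (e.1 + a, e.2) := rfl

lemma sum_tr (a : Tor N) (η : Ed N → ℤ) (j : Ed N → ℝ) (h : Tor N → ℤ) :
    ∑ e, j (shE a e) * ((trH a h (eT N e) - trH a h (eS N e) + trE a η e : ℤ) : ℝ) =
      ∑ e, j e * ((h (eT N e) - h (eS N e) + η e : ℤ) : ℝ) := by
  rw [← Equiv.sum_comp (shE a) fun e => j e * ((h (eT N e) - h (eS N e) + η e : ℤ) : ℝ)]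
  refine Finset.sum_congr rfl fun e _ => ?_
  have e1 : eT N (shE a e) = eT N e + a := by
    unfold H770.eT
    rw [shE_apply]
    obtain ⟨x, k⟩ := e
    cases k
    · show x + a + (1, 0) = x + (1, 0) + a
      abel
    · show x + a + (0, 1) = x + (0, 1) + a
      abel
  rw [e1]
  rfl

lemma pin_tr (a x₀ : Tor N) (η : Ed N → ℤ) (h : Tor N → ℤ) :
    pin (wTD N b (trE a η)) (x₀ - a) (trH a h) = pin (wTD N b η) x₀ h := by
  unfold H963.pin
  rw [trH_apply]
  simp only [sub_add_cancel]
  have e : wTD N b (trE a η) (fun x => h (x + a)) = wTD N b η h := H883.wTD_trE b a η h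
  rw [e]

lemma Zp_tr (a x₀ : Tor N) (η : Ed N → ℤ) :
    Zp (wTD N b (trE a η)) (x₀ - a) = Zp (wTD N b η) x₀ := by
  unfold H883.Zp
  rw [← (trH a).tsum_eq]
  exact tsum_congr fun h => pin_tr a x₀ η h

/-- **translations of the exponential bound** -/
theorem expB_tr (a x₀ : Tor N) {η : Ed N → ℤ} {Bad : Finset (Ed N)} {K : ℝ}
    (h : ExpB N b (trE a η) (x₀ - a) Bad K) : ExpB N b η x₀ (Bad.map (shE a).toEmbedding) K := by
  intro j hj
  have h1 := h (fun e => j (shE a e)) fun e he => hj _ (Finset.mem_map_of_mem _ he)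
  have e1 : ∀ k : Tor N → ℤ, pin (wTD N b (trE a η)) (x₀ - a) (trH a k) *
      Real.exp (∑ e, j (shE a e) *
        ((trH a k (eT N e) - trH a k (eS N e) + trE a η e : ℤ) : ℝ)) =
      pin (wTD N b η) x₀ k *
        Real.exp (∑ e, j e * ((k (eT N e) - k (eS N e) + η e : ℤ) : ℝ)) := by
    intro k
    rw [sum_tr, pin_tr]
  have e2 : ∑ e, (Real.cosh (j (shE a e)) - 1) = ∑ e, (Real.cosh (j e) - 1) :=
    Equiv.sum_comp (shE a) fun e => Real.cosh (j e) - 1
  have h2 := (trH a).summable_iff.2 h1.1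
  have h3 := h1.2
  rw [← (trH a).tsum_eq] at h3
  simp only [Function.comp_def, e1] at h2 h3
  rw [e2, Zp_tr] at h3
  exact ⟨h2, h3⟩

lemma pr0_tr (a x₀ : Tor N) (η : Ed N → ℤ) : pr0 N b (trE a η) (x₀ - a) = pr0 N b η x₀ := by
  unfold pr0
  rw [Zp_tr]
  congr 1
  have h := Zp_tr (b := b) a x₀ (0 : Ed N → ℤ)
  rw [H883.trE_zero', H770.wTD_zero] at h
  exact h

end tr

section far

variable {M : ℕ} {b : ℝ} {L : ℕ} {p q : Tor (M + 2)} {d : ℤ × ℤ} {η : Ed (M + 2) → ℤ}

lemma cuZ_path (h : H817.IsPath p q d.1 d.2 L η) (v : Tor (M + 2)) :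
    cuZ η v = (if v = p then 1 else 0) - (if v = q then 1 else 0) := by
  have h1 := h.cu v
  have h2 : ((cuZ η v : ℤ) : ℝ) =
      (((if v = p then 1 else 0) - (if v = q then 1 else 0) : ℤ) : ℝ) := by
    unfold H513.cuZ
    push_cast
    exact h1
  exact_mod_cast h2

/-- the two balls in the middle of the torus -/
def two (N r : ℕ) (d : ℤ × ℤ) : Finset (ℤ × ℤ) :=
  H773.tr (box r) (((N / 2 : ℕ) : ℤ), ((N / 2 : ℕ) : ℤ)) ∪
    H773.tr (box r) ((((N / 2 : ℕ) : ℤ), ((N / 2 : ℕ) : ℤ)) + d)

lemma two_card (N r : ℕ) (d : ℤ × ℤ) : (two N r d).card ≤ 2 * (2 * r + 1) ^ 2 := by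
  have hb : (box r).card = (2 * r + 1) ^ 2 := by
    have h := H253.Sm.card_box r
    exact_mod_cast h
  have ht : ∀ z, (H773.tr (box r) z).card = (box r).card := by
    intro z
    unfold H773.tr
    exact Finset.card_map _
  unfold two
  refine (Finset.card_union_le _ _).trans ?_
  rw [ht, ht, hb]
  omega

lemma curl_trE (η : Ed (M + 2) → ℤ) (a v : Tor (M + 2)) :
    curl (M := M) (trE a η) v = cuZ η (v + a) := by
  have c1 : v + (1, 0) + a = v + a + (1, 0) := by abel
  have c2 : v + (0, 1) + a = v + a + (0, 1) := by abel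
  have h : cuZ (trE a η) v = cuZ η (v + a) := by
    unfold H513.cuZ H883.trE
    simp only
    rw [c1, c2]
  exact h

lemma cv_iff (v : Fin (M + 2) × Fin (M + 2)) (z : ℤ × ℤ) (z1 : 0 ≤ z.1) (z2 : z.1 < M + 2)
    (z3 : 0 ≤ z.2) (z4 : z.2 < M + 2) :
    (v = (cz (M + 2) z : Tor (M + 2))) ↔ cv (M := M) v = z := by
  have e3 : (cz (M + 2) z : Tor (M + 2)) = ((⟨z.1.toNat, by omega⟩, ⟨z.2.toNat, by omega⟩) :
      Fin (M + 2) × Fin (M + 2)) := by
    have := H253.Sm.cz_nat (M := M) (a := z.1.toNat) (c := z.2.toNat) (by omega) (by omega)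
    rw [Int.toNat_of_nonneg z1, Int.toNat_of_nonneg z3] at this
    exact this
  rw [e3]
  constructor
  · intro hv
    rw [hv]
    unfold H773.cv
    ext
    · simp only; omega
    · simp only; omega
  · intro hv
    have g1 : ((v.1 : ℕ) : ℤ) = z.1 := congrArg Prod.fst hv
    have g2 : ((v.2 : ℕ) : ℤ) = z.2 := congrArg Prod.snd hv
    refine Prod.ext (Fin.ext ?_) (Fin.ext ?_)
    · show (v.1 : ℕ) = z.1.toNat
      omega
    · show (v.2 : ℕ) = z.2.toNat
      omega

/-- **far pairs: the exponential bound with the price `mm b r ^ 2 / CT` off the two balls** -/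
theorem expB_far (hb : 0 < b) (h : H817.IsPath p q d.1 d.2 L η)
    (hq : q = p + cz (M + 2) d) {r : ℕ} (h1 : 2 * r + 2 ≤ XY.nm d) (h2 : 4 * XY.nm d ≤ M + 2)
    (x₀ : Tor (M + 2)) :
    ∃ Bad : Finset (Ed (M + 2)), Bad.card ≤ 8 * (2 * r + 1) ^ 2 ∧
      ExpB (M + 2) b η x₀ Bad (mm b r ^ 2 * pr0 (M + 2) b η x₀) := by
  set k : ℕ := (M + 2) / 2 with hk
  set P : ℤ × ℤ := ((k : ℤ), (k : ℤ)) with hP
  set a : Tor (M + 2) := p - cz (M + 2) P with ha
  set Λ : Finset (ℤ × ℤ) := two (M + 2) r d with hΛ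
  have hd := H253.Sm.nm_lin (z := d) (k := XY.nm d) le_rfl
  have hmem : ∀ z ∈ Λ, (|z.1 - k| ≤ r ∧ |z.2 - k| ≤ r) ∨
      (|z.1 - (k + d.1)| ≤ r ∧ |z.2 - (k + d.2)| ≤ r) := by
    intro z hz
    rw [hΛ] at hz
    unfold two at hz
    rcases Finset.mem_union.1 hz with hz | hz
    · left
      rw [H773.mem_tr, XY.mem_box] at hz
      simp only [Prod.fst_sub, Prod.snd_sub] at hz
      rw [abs_le, abs_le]
      omega
    · right
      rw [H773.mem_tr, XY.mem_box] at hz
      simp only [Prod.fst_sub, Prod.snd_sub, Prod.fst_add, Prod.snd_add] at hz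
      rw [abs_le, abs_le]
      omega
  have hin : Λ ⊆ inner (M + 1) := by
    intro z hz
    rw [H773.mem_inner_iff]
    push_cast
    rcases hmem z hz with hz | hz
    · rw [abs_le, abs_le] at hz
      omega
    · rw [abs_le, abs_le] at hz
      omega
  -- the charges
  set Q : ℤ × ℤ := P + d with hQ
  have hcurl : ∀ v : Tor (M + 2), curl (M := M) (trE a η) v = bxq M (qs P Q) v := by
    intro v
    have e1 : curl (M := M) (trE a η) v = cuZ η (v + a) := curl_trE η a v
    have hval : ∀ z : ℤ × ℤ, 0 ≤ z.1 → z.1 < M + 2 → 0 ≤ z.2 → z.2 < M + 2 →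
        (v = cz (M + 2) z ↔ cv (M := M) v = z) := fun z => cv_iff v z
    have e2 : (v + a = p) = (cv (M := M) v = P) := by
      rw [← propext (hval P (by simp only [hP]; omega) (by simp only [hP]; omega)
        (by simp only [hP]; omega) (by simp only [hP]; omega))]
      refine propext ⟨fun hv => ?_, fun hv => ?_⟩
      · rw [ha] at hv
        have : v = p - (p - cz (M + 2) P) := eq_sub_of_add_eq hv
        rw [this, sub_sub_cancel]
      · rw [hv, ha]; abel
    have e3 : (v + a = q) = (cv (M := M) v = Q) := by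
      rw [← propext (hval Q (by simp only [hQ, hP, Prod.fst_add]; omega)
        (by simp only [hQ, hP, Prod.fst_add]; omega)
        (by simp only [hQ, hP, Prod.snd_add]; omega)
        (by simp only [hQ, hP, Prod.snd_add]; omega))]
      rw [hQ, H253.Sm.cz_add, hq]
      refine propext ⟨fun hv => ?_, fun hv => ?_⟩
      · rw [ha] at hv
        have : v = p + cz (M + 2) d - (p - cz (M + 2) P) := eq_sub_of_add_eq hv
        rw [this]
        abel
      · rw [hv, ha]; abel
    rw [e1, cuZ_path h]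
    unfold H529.Qf.bxq H253.Sm.qs
    simp only [e2, e3]
  have hB := expB_of hb hin hcurl (x₀ - a)
  refine ⟨(tchS M Λ).map (shE a).toEmbedding, ?_, ?_⟩
  · rw [Finset.card_map]
    have k1 := tchS_card M Λ
    have k2 := two_card (M + 2) r d
    rw [← hΛ] at k2
    omega
  · have h3 := expB_tr a x₀ hB
    rw [pr0_tr] at h3
    have hp0 := (pr0_pos hb η x₀).le
    have hPQ : P ≠ Q := by
      intro hc
      have e4 : d = 0 := by
        have : P + d = P := by rw [← hQ]; exact hc.symm
        exact add_eq_left.1 this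
      rw [e4] at h1
      simp [XY.nm] at h1
    have hsep : H773.Sep (H773.tr (box r) P) (H773.tr (box r) Q) := by
      intro u hu v hv
      rw [H773.mem_tr, XY.mem_box] at hu hv
      simp only [hQ, hP, Prod.fst_sub, Prod.snd_sub, Prod.fst_add, Prod.snd_add] at hu hv
      have g : (2 * (r : ℤ) + 2 ≤ |d.1|) ∨ (2 * (r : ℤ) + 2 ≤ |d.2|) := by
        have g0 : 2 * r + 2 ≤ max d.1.natAbs d.2.natAbs := h1
        have g3 := Int.natCast_natAbs d.1
        have g4 := Int.natCast_natAbs d.2
        rcases le_max_iff.1 g0 with g | g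
        · left; omega
        · right; omega
      rcases g with g | g
      · refine H529.Qf.nm_ge_of_fst ?_
        rw [Prod.fst_sub, le_abs]
        rcases le_abs.1 g with g | g
        · right; push_cast; omega
        · left; push_cast; omega
      · refine H529.Qf.nm_ge_of_snd ?_
        rw [Prod.snd_sub, le_abs]
        rcases le_abs.1 g with g | g
        · right; push_cast; omega
        · left; push_cast; omega
    have hEQ : H529.Qf.EQ b Λ (qs P Q) ≤ mm b r ^ 2 := by
      have e5 : Λ = H773.tr (box r) P ∪ H773.tr (box r) Q := rfl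
      rw [e5, H529.Qf.EQ_union hsep, pow_two]
      have o1 : H529.Qf.EQ b (H773.tr (box r) P) (qs P Q) ≤ mm b r := by
        refine H529.Qf.EQ_one hb.le (Finset.Subset.refl _) (z := P) (Or.inl ?_) ?_
        · unfold H253.Sm.qs
          rw [if_pos rfl, if_neg hPQ, sub_zero]
        · intro v hv hne
          unfold H253.Sm.qs
          rw [if_neg hne, if_neg, sub_zero]
          intro hvQ
          have g0 := hsep v hv Q (by
            rw [H773.mem_tr, sub_self, XY.mem_box]
            simp)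
          rw [hvQ, sub_self] at g0
          simp [XY.nm] at g0
      have o2 : H529.Qf.EQ b (H773.tr (box r) Q) (qs P Q) ≤ mm b r := by
        refine H529.Qf.EQ_one hb.le (Finset.Subset.refl _) (z := Q) (Or.inr ?_) ?_
        · unfold H253.Sm.qs
          rw [if_neg hPQ.symm, if_pos rfl, zero_sub]
        · intro v hv hne
          unfold H253.Sm.qs
          rw [if_neg hne, sub_zero, if_neg]
          intro hvP
          have g0 := hsep P (by
            rw [H773.mem_tr, sub_self, XY.mem_box]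
            simp) v hv
          rw [hvP, sub_self] at g0
          simp [XY.nm] at g0
      exact mul_le_mul o1 o2 (H529.Qf.EQ_nonneg hb.le _ _) (H253.Sm.mm_pos hb r).le
    -- monotone in the price
    intro j hj
    obtain ⟨g1, g2⟩ := h3 j hj
    refine ⟨g1, g2.trans ?_⟩
    refine mul_le_mul_of_nonneg_right (mul_le_mul_of_nonneg_right
      (mul_le_mul_of_nonneg_right hEQ hp0) (Real.exp_pos _).le)
      ((H883.bw_wTD hb η).Zp_pos x₀).le

end far

end

end Vale.Agent.P159.H270
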