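import Vale.Agent.P159.H270.Ed4n
import Vale.Agent.P159.H270.Ed3q
import Vale.Agent.P159.H276.Es4

/-!
P159 (helper270), Ed4: the numbers of a level for `qbad` (`QN`) hold eventually.
-/

open Filter Topology

namespace Vale.Agent.P159.H270

open Vale.Agent.P159.H817 (CG)
open Vale.Agent.P159.H276 (cEs)
open Vale.Agent.P159.H253.Rec (ua)

noncomputable section

/-- the numbers of a level -/
structure QN (b s ρ C2 : ℝ) (n : ℕ) : Prop where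
  n2 : 2 ≤ n
  k64 : 64 * cl n ≤ n
  lin : 15 * s * (cEs b 1 * (n : ℝ) ^ 2) ≤ 2 ^ n
  rho : (b + 6 * max b 1 ^ 2) * (2 * (15 * s * cEs b 1) ^ 2) ≤ ρ * n
  ll : (n : ℝ) / (2 * b) + (n : ℝ) ^ 2 ≤ 2 ^ (n / 2)
  B1 : 1 + 3 * s * (4 * (cl n : ℝ) * ((n : ℝ) ^ (1 / 16 : ℝ) + 1 + (1 + 36 * CG))) ≤
    (n : ℝ) ^ (1 / 8 : ℝ)
  g8 : 16 * (n : ℝ) ^ (1 / 8 : ℝ) ≤ 2 ^ (n / 8)
  D : 6 + 384 * CG ^ 2 * (1 + Real.log (1 + 4 ^ n)) ≤ (n : ℝ) ^ 2
  K0 : C2 * 4 ^ n ≤ ua b 1 * Real.exp ((n : ℝ) ^ 2 / 2)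
  e1 : 3 * (6 * (256 * (n : ℝ) ^ 8)) * ((64 * C2 * (n : ℝ) ^ 6) *
    Real.exp (-(1 / (4 * b) * (n : ℝ) ^ (1 / 8 : ℝ)))) ≤ Real.exp (-((n : ℝ) ^ (1 / 16 : ℝ)))
  e2 : 3 * (6 * (256 * (n : ℝ) ^ 8)) * Real.exp (72 * b - (n : ℝ) ^ 2 / 2) ≤
    Real.exp (-((n : ℝ) ^ (1 / 16 : ℝ)))
  e3 : 3 * Real.exp (-(n : ℝ) ^ 2) ≤ Real.exp (-((n : ℝ) ^ (1 / 16 : ℝ)))

lemma qn_B1 {s x k G : ℝ} (hs : 0 ≤ s) (hG : 0 ≤ G) (hx : 1 ≤ x) (hk : 0 ≤ k)
    (f5 : 12 * s * (3 + 36 * G) * k ≤ x ^ (1 / 32 : ℝ)) (f6 : 2 ≤ x ^ (1 / 32 : ℝ)) :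
    1 + 3 * s * (4 * k * (x ^ (1 / 16 : ℝ) + 1 + (1 + 36 * G))) ≤ x ^ (1 / 8 : ℝ) := by
  have hx0 : 0 < x := by linarith
  have h16 : 1 ≤ x ^ (1 / 16 : ℝ) := Real.one_le_rpow hx (by norm_num)
  have e2 : x ^ (1 / 8 : ℝ) = x ^ (1 / 32 : ℝ) * (x ^ (1 / 32 : ℝ) * x ^ (1 / 16 : ℝ)) := by
    rw [← Real.rpow_add hx0, ← Real.rpow_add hx0]
    norm_num
  rw [e2]
  set u := x ^ (1 / 16 : ℝ) with hu
  set v := x ^ (1 / 32 : ℝ) with hv
  have h3 : u + 1 + (1 + 36 * G) ≤ (3 + 36 * G) * u := by nlinarith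
  have h4 : 3 * s * (4 * k * (u + 1 + (1 + 36 * G))) ≤ (12 * s * (3 + 36 * G) * k) * u := by
    have : 3 * s * (4 * k * (u + 1 + (1 + 36 * G))) ≤ 3 * s * (4 * k * ((3 + 36 * G) * u)) :=
      mul_le_mul_of_nonneg_left (mul_le_mul_of_nonneg_left h3 (by positivity)) (by positivity)
    refine this.trans (le_of_eq ?_)
    ring
  have h5 : (12 * s * (3 + 36 * G) * k) * u ≤ v * u :=
    mul_le_mul_of_nonneg_right f5 (by linarith)
  have h6 : 1 ≤ v * u := by nlinarith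
  have h7 : 2 * (v * u) ≤ v * (v * u) := mul_le_mul_of_nonneg_right f6 (by linarith)
  linarith

lemma qn_D {G : ℝ} {n : ℕ} (h8 : (8 : ℝ) ≤ n) (f8 : 6 + 1536 * G ^ 2 ≤ (n : ℝ)) :
    6 + 384 * G ^ 2 * (1 + Real.log (1 + 4 ^ n)) ≤ (n : ℝ) ^ 2 := by
  have h1 : Real.log (1 + 4 ^ n) ≤ 1 + 2 * n := by
    have h2 : (1 : ℝ) + 4 ^ n ≤ 2 * 4 ^ n := by
      have : (1 : ℝ) ≤ 4 ^ n := one_le_pow₀ (by norm_num)
      linarith
    refine (Real.log_le_log (by positivity) h2).trans ?_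
    rw [Real.log_mul (by norm_num) (by positivity), Real.log_pow]
    have h3 : Real.log 2 ≤ 1 := by
      have := Real.log_two_lt_d9
      linarith
    have h4 : Real.log 4 ≤ 2 := by
      have : (4 : ℝ) = 2 ^ 2 := by norm_num
      rw [this, Real.log_pow]
      push_cast
      linarith
    have h5 : (n : ℝ) * Real.log 4 ≤ n * 2 := mul_le_mul_of_nonneg_left h4 (by linarith)
    linarith
  have hC : 0 ≤ G ^ 2 := sq_nonneg _
  have e1 : 6 + 384 * G ^ 2 * (1 + Real.log (1 + 4 ^ n)) ≤ 6 + 384 * G ^ 2 * (1 + (1 + 2 * n)) := by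
    have := mul_le_mul_of_nonneg_left (add_le_add (le_refl (1 : ℝ)) h1)
      (by positivity : (0 : ℝ) ≤ 384 * G ^ 2)
    linarith
  have e2 : 6 + 384 * G ^ 2 * (1 + (1 + 2 * (n : ℝ))) ≤ (6 + 1536 * G ^ 2) * n := by
    have : G ^ 2 * 8 ≤ G ^ 2 * n := mul_le_mul_of_nonneg_left h8 hC
    nlinarith
  have e3 : (6 + 1536 * G ^ 2) * (n : ℝ) ≤ n * n := mul_le_mul_of_nonneg_right f8 (by linarith)
  rw [pow_two]
  linarith

lemma qn_K {U C2 : ℝ} {n : ℕ} (hU : 0 < U) (h8 : (8 : ℝ) ≤ n) (f9 : C2 ≤ n * U) :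
    C2 * 4 ^ n ≤ U * Real.exp ((n : ℝ) ^ 2 / 2) := by
  have h1 : (4 : ℝ) ^ n ≤ Real.exp (2 * n) := by
    have h2 : (4 : ℝ) ≤ Real.exp 2 := by
      have h3 := Real.add_one_le_exp (1 : ℝ)
      have h4 : Real.exp 2 = Real.exp 1 * Real.exp 1 := by rw [← Real.exp_add]; norm_num
      rw [h4]
      nlinarith
    calc (4 : ℝ) ^ n ≤ Real.exp 2 ^ n := pow_le_pow_left₀ (by norm_num) h2 n
      _ = Real.exp (2 * n) := by rw [← Real.exp_nat_mul]; congr 1; ring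
  have h2 : (n : ℝ) ≤ Real.exp n := by
    have := Real.add_one_le_exp (n : ℝ)
    linarith
  calc C2 * 4 ^ n ≤ ((n : ℝ) * U) * Real.exp (2 * n) :=
        mul_le_mul f9 h1 (by positivity) (by positivity)
    _ ≤ (Real.exp n * U) * Real.exp (2 * n) :=
        mul_le_mul_of_nonneg_right (mul_le_mul_of_nonneg_right h2 hU.le) (Real.exp_pos _).le
    _ = U * Real.exp (n + 2 * n) := by rw [Real.exp_add]; ring
    _ ≤ _ := mul_le_mul_of_nonneg_left (Real.exp_le_exp.2 (by nlinarith)) hU.le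

theorem qn_ev {b s ρ C2 : ℝ} (hb : 0 < b) (hs : 0 ≤ s) (hρ : 0 < ρ) :
    ∀ᶠ n : ℕ in atTop, QN b s ρ C2 n := by
  have hCG := H817.CG_pos
  have hu1 : 0 < ua b 1 := pow_pos (H253.Sm.mm_pos hb 1) 2
  have f1 := cl_small (p := 1) one_pos 64
  have f2 := pow_small (15 * s * cEs b 1) 2 1 one_pos
  have f3 := const_small (p := 1) one_pos
    ((b + 6 * max b 1 ^ 2) * (2 * (15 * s * cEs b 1) ^ 2) / ρ)
  have f4 := pow_small (1 / (2 * b) + 1) 2 2 two_pos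
  have f5 := cl_small (p := 1 / 32) (by norm_num) (12 * s * (3 + 36 * CG))
  have f6 := const_small (p := 1 / 32) (by norm_num) 2
  have f7 := pow_small 16 1 8 (by norm_num)
  have f8 := const_small (p := 1) one_pos (6 + 1536 * CG ^ 2)
  have f9 := const_small (p := 1) one_pos (C2 / ua b 1)
  have g1 := exp_small (p := 1 / 8) (q := 1 / 16) (c := 1 / (4 * b)) (by norm_num) (by norm_num)
    (by positivity) (3 * (6 * 256) * (64 * C2)) 14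
  have g2 := exp_small (p := 2) (q := 1 / 16) (c := 1 / 2) (by norm_num) (by norm_num)
    (by positivity) (3 * (6 * 256) * Real.exp (72 * b)) 8
  have g3 := exp_small (p := 2) (q := 1 / 16) (c := 1) (by norm_num) (by norm_num)
    (by positivity) 3 0
  filter_upwards [f1, f2, f3, f4, f5, f6, f7, f8, f9, g1, g2, g3, eventually_ge_atTop 8] with n f1 f2
    f3 f4 f5 f6 f7 f8 f9 g1 g2 g3 h8
  have hn8 : (8 : ℝ) ≤ n := by exact_mod_cast h8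
  have hn0 : (0 : ℝ) < n := by linarith
  have hn1 : (1 : ℝ) ≤ n := by linarith
  rw [Real.rpow_one] at f1 f3 f8 f9
  rw [Nat.div_one] at f2
  have er : (n : ℝ) ^ (2 : ℝ) = (n : ℝ) ^ 2 := Real.rpow_two _
  rw [er] at g2 g3
  refine ⟨by omega, by exact_mod_cast f1, ?_, ?_, ?_, ?_, ?_, ?_, ?_, ?_, ?_, ?_⟩
  · linarith
  · rw [div_le_iff₀ hρ] at f3
    linarith
  · refine le_trans ?_ f4
    have h1 : (n : ℝ) / (2 * b) ≤ 1 / (2 * b) * (n : ℝ) ^ 2 := by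
      rw [div_eq_mul_one_div, mul_comm]
      exact mul_le_mul_of_nonneg_left (by nlinarith) (by positivity)
    linarith
  · exact qn_B1 hs hCG.le hn1 (Nat.cast_nonneg _) f5 f6
  · refine le_trans ?_ f7
    have : (n : ℝ) ^ (1 / 8 : ℝ) ≤ (n : ℝ) ^ (1 : ℝ) :=
      Real.rpow_le_rpow_of_exponent_le hn1 (by norm_num)
    rw [Real.rpow_one] at this
    rw [pow_one]
    linarith
  · exact qn_D hn8 f8
  · rw [div_le_iff₀ hu1] at f9
    exact qn_K hu1 hn8 f9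
  · refine le_trans (le_of_eq ?_) g1
    ring
  · refine le_trans (le_of_eq ?_) g2
    have : 72 * b - (n : ℝ) ^ 2 / 2 = 72 * b + -(1 / 2 * (n : ℝ) ^ 2) := by ring
    rw [this, Real.exp_add]
    ring
  · refine le_trans (le_of_eq ?_) g3
    rw [pow_zero, one_mul, mul_one]

end

end Vale.Agent.P159.H270
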