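import Mathlib

/-!
P159 (helper270), Ed4: asymptotic numbers for `qb_lvl`.
-/

open Filter Topology

namespace Vale.Agent.P159.H270

/-- `ceil (log2 n)` -/
def cl (n : ℕ) : ℕ := Nat.clog 2 n

lemma cl_ge (n : ℕ) : n ≤ 2 ^ cl n := Nat.le_pow_clog (by norm_num) n

lemma cl_le {n : ℕ} (hn : 2 ≤ n) : 2 ^ cl n ≤ 2 * n := by
  have h := Nat.pow_pred_clog_lt_self (b := 2) (by norm_num) (x := n) (by omega)
  have h0 : 1 ≤ cl n := Nat.clog_pos (by norm_num) (by omega)
  have e : 2 ^ cl n = 2 * 2 ^ (Nat.clog 2 n).pred := by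
    unfold cl
    rw [Nat.pred_eq_sub_one, mul_comm, ← pow_succ]
    congr 1
    unfold cl at h0
    omega
  rw [e]
  omega

lemma cl_log {n : ℕ} (hn : 2 ≤ n) : (cl n : ℝ) ≤ 1 + 2 * Real.log n := by
  have h := cl_le hn
  have h1 : (2 : ℝ) ^ cl n ≤ 2 * n := by exact_mod_cast h
  have hn0 : (0 : ℝ) < n := by
    have : 0 < n := by omega
    exact_mod_cast this
  have h2 : (cl n : ℝ) * Real.log 2 ≤ Real.log 2 + Real.log n := by
    have := Real.log_le_log (by positivity) h1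
    rw [Real.log_pow, Real.log_mul (by norm_num) hn0.ne'] at this
    exact this
  have h3 := Real.log_two_gt_d9
  have h4 : 0 ≤ Real.log n := Real.log_nonneg (by exact_mod_cast (by omega : 1 ≤ n))
  have h5 : ((cl n : ℝ) - 1) * Real.log 2 ≤ Real.log n := by linarith
  by_cases h6 : (cl n : ℝ) ≤ 1
  · linarith
  · have h7 : 0 < (cl n : ℝ) - 1 := by linarith
    nlinarith

/-- `cl n` is smaller than every power -/
lemma cl_small {p : ℝ} (hp : 0 < p) (C : ℝ) :
    ∀ᶠ n : ℕ in atTop, C * (cl n : ℝ) ≤ (n : ℝ) ^ p := by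
  have h1 : (fun x : ℝ => Real.log x) =o[atTop] fun x => x ^ p := isLittleO_log_rpow_atTop hp
  have h2 : (fun _ : ℝ => (1 : ℝ)) =o[atTop] fun x => x ^ p :=
    (Asymptotics.isLittleO_const_left.2 (Or.inr (by
      have := tendsto_rpow_atTop hp
      exact (tendsto_norm_atTop_atTop.comp this))))
  have h3 := (h2.add (h1.const_mul_left 2)).def (c := 1 / (|C| + 1)) (by positivity)
  have h4 := (tendsto_natCast_atTop_atTop (R := ℝ)).eventually h3
  filter_upwards [h4, eventually_ge_atTop 2] with n h5 h6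
  have h7 := cl_log h6
  have hx : (0 : ℝ) ≤ (n : ℝ) ^ p := Real.rpow_nonneg (Nat.cast_nonneg n) _
  have hl : 0 ≤ Real.log n := Real.log_nonneg (by exact_mod_cast (by omega : 1 ≤ n))
  rw [Real.norm_eq_abs, Real.norm_eq_abs, abs_of_nonneg hx, abs_of_nonneg (by positivity)] at h5
  have h8 : C * (cl n : ℝ) ≤ |C| * (1 + 2 * Real.log n) := by
    have : C * (cl n : ℝ) ≤ |C| * (cl n : ℝ) :=
      mul_le_mul_of_nonneg_right (le_abs_self C) (Nat.cast_nonneg _)
    exact this.trans (mul_le_mul_of_nonneg_left h7 (abs_nonneg C))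
  have h9 : |C| * (1 + 2 * Real.log n) ≤ |C| * (1 / (|C| + 1) * (n : ℝ) ^ p) :=
    mul_le_mul_of_nonneg_left h5 (abs_nonneg C)
  have h10 : |C| * (1 / (|C| + 1) * (n : ℝ) ^ p) ≤ (n : ℝ) ^ p := by
    have h0 : (0 : ℝ) < |C| + 1 := by positivity
    have : |C| * (1 / (|C| + 1)) ≤ 1 := by
      rw [mul_one_div, div_le_one h0]
      linarith
    nlinarith
  linarith

/-- constants against powers -/
lemma const_small {p : ℝ} (hp : 0 < p) (C : ℝ) : ∀ᶠ n : ℕ in atTop, C ≤ (n : ℝ) ^ p := by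
  have h := (tendsto_rpow_atTop hp).comp (tendsto_natCast_atTop_atTop (R := ℝ))
  exact h.eventually_ge_atTop C

/-- exponentials against powers: `C n^k exp (-c n^p) ≤ exp (-n^q)`, `q < p` -/
lemma exp_small {p q c : ℝ} (hq : 0 < q) (hqp : q < p) (hc : 0 < c) (C : ℝ) (k : ℕ) :
    ∀ᶠ n : ℕ in atTop, C * (n : ℝ) ^ k * Real.exp (-(c * (n : ℝ) ^ p)) ≤
      Real.exp (-((n : ℝ) ^ q)) := by
  -- `C n^k ≤ exp (n^q)` and `2 n^q ≤ c n^p`
  have hq' := tendsto_rpow_atTop hq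
  have h1 : ∀ᶠ n : ℕ in atTop, C * (n : ℝ) ^ k ≤ Real.exp ((n : ℝ) ^ q) := by
    -- n^k = (n^q)^(k/q)
    have h2 := isLittleO_rpow_exp_pos_mul_atTop ((k : ℝ) / q) (b := 1) one_pos
    have h3 := (h2.def (c := 1 / (|C| + 1)) (by positivity))
    have h4 := (hq'.comp (tendsto_natCast_atTop_atTop (R := ℝ))).eventually h3
    filter_upwards [h4, eventually_ge_atTop 1] with n h5 hn
    have hn0 : (0 : ℝ) < n := by exact_mod_cast hn
    have hz : 0 < (n : ℝ) ^ q := Real.rpow_pos_of_pos hn0 _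
    simp only [Function.comp_apply] at h5
    have e1 : ((n : ℝ) ^ q) ^ ((k : ℝ) / q) = (n : ℝ) ^ k := by
      rw [← Real.rpow_mul hn0.le, mul_div_cancel₀ _ hq.ne', Real.rpow_natCast]
    rw [e1, one_mul, Real.norm_eq_abs, Real.norm_eq_abs, abs_of_nonneg (by positivity),
      abs_of_pos (Real.exp_pos _)] at h5
    have h0 : (0 : ℝ) < |C| + 1 := by positivity
    calc C * (n : ℝ) ^ k ≤ (|C| + 1) * (n : ℝ) ^ k := by
          refine mul_le_mul_of_nonneg_right ?_ (by positivity)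
          linarith [le_abs_self C]
      _ ≤ (|C| + 1) * (1 / (|C| + 1) * Real.exp ((n : ℝ) ^ q)) :=
          mul_le_mul_of_nonneg_left h5 h0.le
      _ = _ := by field_simp
  have h6 : ∀ᶠ n : ℕ in atTop, 2 * (n : ℝ) ^ q ≤ c * (n : ℝ) ^ p := by
    filter_upwards [const_small (sub_pos.2 hqp) (2 / c), eventually_ge_atTop 1] with n h7 hn
    have hn0 : (0 : ℝ) < n := by exact_mod_cast hn
    have e : (n : ℝ) ^ p = (n : ℝ) ^ (p - q) * (n : ℝ) ^ q := by
      rw [← Real.rpow_add hn0]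
      congr 1
      ring
    rw [e]
    have hz : 0 < (n : ℝ) ^ q := Real.rpow_pos_of_pos hn0 _
    have h8 : 2 ≤ c * (n : ℝ) ^ (p - q) := by
      rw [div_le_iff₀ hc] at h7
      linarith
    nlinarith
  filter_upwards [h1, h6] with n h7 h8
  calc C * (n : ℝ) ^ k * Real.exp (-(c * (n : ℝ) ^ p))
      ≤ Real.exp ((n : ℝ) ^ q) * Real.exp (-(c * (n : ℝ) ^ p)) :=
        mul_le_mul_of_nonneg_right h7 (Real.exp_pos _).le
    _ = Real.exp ((n : ℝ) ^ q - c * (n : ℝ) ^ p) := by rw [← Real.exp_add]; congr 1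
    _ ≤ _ := Real.exp_le_exp.2 (by linarith)

/-- powers against `2 ^ (n / m)` -/
lemma pow_small (C : ℝ) (k m : ℕ) (hm : 0 < m) :
    ∀ᶠ n : ℕ in atTop, C * (n : ℝ) ^ k ≤ 2 ^ (n / m) := by
  have h := exp_small (p := 1) (q := 1 / 2) (c := Real.log 2 / m) (by norm_num) (by norm_num)
    (by have := Real.log_pos one_lt_two; positivity) (2 * |C|) k
  filter_upwards [h] with n h1
  rw [Real.rpow_one] at h1
  have h2 : Real.exp (-((n : ℝ) ^ (1 / 2 : ℝ))) ≤ 1 :=
    Real.exp_le_one_iff.2 (neg_nonpos.2 (Real.rpow_nonneg (Nat.cast_nonneg n) _))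
  have h3 : 2 * |C| * (n : ℝ) ^ k ≤ Real.exp (Real.log 2 / m * n) := by
    have h4 := h1.trans h2
    rw [Real.exp_neg] at h4
    have h5 := Real.exp_pos (Real.log 2 / m * n)
    rwa [← div_eq_mul_inv, div_le_one h5] at h4
  have h6 : Real.exp (Real.log 2 / m * n) ≤ 2 * 2 ^ (n / m) := by
    have h7 : (n : ℝ) / m ≤ (n / m : ℕ) + 1 := by
      have := Nat.lt_floor_add_one ((n : ℝ) / m)
      rw [Nat.floor_div_eq_div] at this
      exact this.le
    have h8 : Real.log 2 / m * n ≤ ((n / m : ℕ) + 1 : ℝ) * Real.log 2 := by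
      have : Real.log 2 / m * n = (n : ℝ) / m * Real.log 2 := by ring
      rw [this]
      exact mul_le_mul_of_nonneg_right h7 (Real.log_pos one_lt_two).le
    have h9 : Real.exp (((n / m : ℕ) + 1 : ℝ) * Real.log 2) = 2 * 2 ^ (n / m) := by
      have : (((n / m : ℕ) + 1 : ℝ)) = ((n / m + 1 : ℕ) : ℝ) := by push_cast; ring
      rw [this, mul_comm, Real.exp_mul, Real.exp_log two_pos, Real.rpow_natCast, pow_succ]
      ring
    rw [← h9]
    exact Real.exp_le_exp.2 h8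
  have h10 : C * (n : ℝ) ^ k ≤ |C| * (n : ℝ) ^ k :=
    mul_le_mul_of_nonneg_right (le_abs_self C) (by positivity)
  linarith

end Vale.Agent.P159.H270
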